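import Vale.Agent.P100.Cylinder
import Mathlib.Analysis.Calculus.LineDeriv.IntegrationByParts
import Mathlib.Analysis.Calculus.FDeriv.Symmetric
import Mathlib.Analysis.InnerProductSpace.Calculus
import Mathlib.MeasureTheory.Measure.Haar.InnerProductSpace

/-!
Second order calculus: chain rule for the Laplacian, the sign at a local maximum, and the
symmetry of the Laplacian under integration.
-/

open Filter Topology Set MeasureTheory
open scoped InnerProductSpace

namespace Vale.Agent.P100.Feedback

variable {n : ℕ}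

/-- The `i`th coordinate vector. -/
noncomputable abbrev eb (i : Fin n) : En n := EuclideanSpace.basisFun (Fin n) ℝ i

/-- The `i`th partial derivative. -/
noncomputable def pd (i : Fin n) (f : En n → ℝ) (x : En n) : ℝ := fderiv ℝ f x (eb i)

lemma hasFDerivAt_fderiv' {f : En n → ℝ} {x : En n} (hf : ContDiffAt ℝ 2 f x) :
    HasFDerivAt (fderiv ℝ f) (hes f x) x :=
  ((hf.fderiv_right (m := 1) (by norm_num)).differentiableAt (by norm_num)).hasFDerivAt

lemma hes_symm {f : En n → ℝ} {x : En n} (hf : ContDiffAt ℝ 2 f x) (a b : En n) :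
    hes f x a b = hes f x b a :=
  (hf.isSymmSndFDerivAt (by simp)) a b

lemma hasFDerivAt_pd {f : En n → ℝ} {x : En n} (hf : ContDiffAt ℝ 2 f x) (i : Fin n) :
    HasFDerivAt (pd i f) ((ContinuousLinearMap.apply ℝ ℝ (eb i)).comp (hes f x)) x :=
  (ContinuousLinearMap.apply ℝ ℝ (eb i)).hasFDerivAt.comp x (hasFDerivAt_fderiv' hf)

lemma fderiv_pd_apply {f : En n → ℝ} {x : En n} (hf : ContDiffAt ℝ 2 f x) (i : Fin n) (e : En n) :
    fderiv ℝ (pd i f) x e = hes f x e (eb i) := by
  rw [(hasFDerivAt_pd hf i).fderiv]; rfl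

lemma sum_pd_pd {f : En n → ℝ} {x : En n} (hf : ContDiffAt ℝ 2 f x) :
    ∑ i, fderiv ℝ (pd i f) x (eb i) = lap f x := by
  simp only [fderiv_pd_apply hf, lap]

/-- Expansion of a vector in coordinates. -/
lemma apply_eq_sum (L : En n →L[ℝ] ℝ) (z : En n) : L z = ∑ i, z i * L (eb i) := by
  conv_lhs => rw [← (EuclideanSpace.basisFun (Fin n) ℝ).sum_repr z]
  simp [map_sum]

/-- Chain rule for the Laplacian. -/
lemma lap_comp {h : En n → ℝ} {x : En n} {φ φ₁ : ℝ → ℝ} {φ₂ : ℝ}
    (hφ : ∀ᶠ t in 𝓝 (h x), HasDerivAt φ (φ₁ t) t) (hφ₁ : HasDerivAt φ₁ φ₂ (h x))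
    (hh : ContDiffAt ℝ 2 h x) :
    lap (fun y => φ (h y)) x = φ₂ * ∑ i, pd i h x ^ 2 + φ₁ (h x) * lap h x := by
  have e1 : fderiv ℝ (fun y => φ (h y)) =ᶠ[𝓝 x] fun y => φ₁ (h y) • fderiv ℝ h y := by
    filter_upwards [hh.continuousAt.eventually hφ, hh.eventually (by norm_num)] with y hy hy2
    exact (hy.comp_hasFDerivAt y (hy2.differentiableAt (by norm_num)).hasFDerivAt).fderiv
  have e2 : HasFDerivAt (fun y => φ₁ (h y) • fderiv ℝ h y) _ x :=
    (hφ₁.comp_hasFDerivAt x (hh.differentiableAt (by norm_num)).hasFDerivAt).smul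
      (hasFDerivAt_fderiv' hh)
  have e3 : ∀ i, hes (fun y => φ (h y)) x (eb i) (eb i)
      = φ₂ * pd i h x ^ 2 + φ₁ (h x) * hes h x (eb i) (eb i) := fun i => by
    rw [hes, (e2.congr_of_eventuallyEq e1).fderiv]
    simp [pd]
    ring
  simp only [lap]
  rw [Finset.mul_sum, Finset.mul_sum, ← Finset.sum_add_distrib]
  exact Finset.sum_congr rfl fun i _ => e3 i

lemma lap_const_mul {f : En n → ℝ} {x : En n} (hf : ContDiffAt ℝ 2 f x) (c : ℝ) :
    lap (fun y => c * f y) x = c * lap f x := by
  have h := lap_comp (φ := fun t => c * t) (φ₁ := fun _ => c) (φ₂ := 0)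
    (Eventually.of_forall fun t => by simpa using (hasDerivAt_id t).const_mul c)
    (hasDerivAt_const _ _) hf
  simpa using h

lemma lap_sub {f g : En n → ℝ} {x : En n} (hf : ContDiffAt ℝ 2 f x) (hg : ContDiffAt ℝ 2 g x) :
    lap (fun y => f y - g y) x = lap f x - lap g x := by
  have e1 : fderiv ℝ (fun y => f y - g y) =ᶠ[𝓝 x] fun y => fderiv ℝ f y - fderiv ℝ g y := by
    filter_upwards [hf.eventually (by norm_num), hg.eventually (by norm_num)] with y hy hy2
    exact fderiv_fun_sub (hy.differentiableAt (by norm_num)) (hy2.differentiableAt (by norm_num))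
  have e2 : hes (fun y => f y - g y) x = hes f x - hes g x :=
    (((hasFDerivAt_fderiv' hf).sub (hasFDerivAt_fderiv' hg)).congr_of_eventuallyEq e1).fderiv
  simp [lap, e2, Finset.sum_sub_distrib]

/-- The squared distance to a point. -/
noncomputable def sqd (y x : En n) : ℝ := ‖x - y‖ ^ 2

lemma contDiff_sqd (y : En n) {m : WithTop ℕ∞} : ContDiff ℝ m (sqd y) :=
  (contDiff_id.sub contDiff_const).norm_sq ℝ

lemma fderiv_sqd (y x e : En n) : fderiv ℝ (sqd y) x e = 2 * ⟪x - y, e⟫_ℝ := by
  have h := ((hasStrictFDerivAt_norm_sq (x - y)).hasFDerivAt).comp x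
    ((hasFDerivAt_id x).sub_const y)
  have h' : HasFDerivAt (sqd y) _ x := h
  rw [h'.fderiv]
  simp [inner_sub_left]

lemma hes_sqd (y x e : En n) : hes (sqd y) x e e = 2 * ⟪e, e⟫_ℝ := by
  have h : fderiv ℝ (sqd y) = fun z => (2 : ℝ) • innerSL ℝ (z - y) := by
    funext z; ext e; simp [fderiv_sqd, inner_sub_left]
  rw [hes, h]
  have h2 := (((innerSL ℝ).hasFDerivAt).comp x ((hasFDerivAt_id x).sub_const y)).const_smul (2 : ℝ)
  have h3 : HasFDerivAt (fun z => (2 : ℝ) • innerSL ℝ (z - y)) _ x := h2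
  rw [h3.fderiv]
  simp only [smul_apply, ContinuousLinearMap.coe_comp, Function.comp_apply, ContinuousLinearMap.coe_id', id, smul_eq_mul]
  rfl

lemma sum_pd_sqd_sq (y x : En n) : ∑ i, pd i (sqd y) x ^ 2 = 4 * ‖x - y‖ ^ 2 := by
  simp only [pd, fderiv_sqd]
  rw [EuclideanSpace.norm_sq_eq, Finset.mul_sum]
  refine Finset.sum_congr rfl fun i _ => ?_
  simp [eb, EuclideanSpace.basisFun_apply, EuclideanSpace.inner_single_right]
  ring

lemma lap_sqd (y x : En n) : lap (sqd y) x = 2 * n := by
  simp [lap, hes_sqd, mul_comm]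

/-- The Laplacian is nonpositive at an interior maximum. -/
lemma lap_nonpos_of_isLocalMax {w : En n → ℝ} {x : En n} (hw : ContDiffAt ℝ 2 w x)
    (hmax : IsLocalMax w x) : lap w x ≤ 0 := by
  refine Finset.sum_nonpos fun i _ => ?_
  set e := EuclideanSpace.basisFun (Fin n) ℝ i
  have hp : ∀ t : ℝ, HasDerivAt (fun t : ℝ => x + t • e) e t := fun t => by
    simpa using ((hasDerivAt_id t).smul_const e).const_add x
  have hc : ContinuousAt (fun t : ℝ => x + t • e) 0 := (hp 0).continuousAt
  have hev : ∀ᶠ t : ℝ in 𝓝 0, HasDerivAt (fun t => -w (x + t • e))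
      (-fderiv ℝ w (x + t • e) e) t := by
    have h := hw.eventually (by norm_num)
    rw [show x = x + (0 : ℝ) • e by simp] at h
    filter_upwards [hc.eventually h] with t ht
    exact ((ht.differentiableAt (by norm_num)).hasFDerivAt.comp_hasDerivAt t (hp t)).neg
  have h2 : HasDerivAt (fun t : ℝ => -fderiv ℝ w (x + t • e) e) (-hes w x e e) 0 := by
    have hH : HasFDerivAt (fderiv ℝ w) (hes w x) (x + (0 : ℝ) • e) := by
      simpa using hasFDerivAt_fderiv' hw
    have h3 := (((ContinuousLinearMap.apply ℝ ℝ e).hasFDerivAt.comp_hasDerivAt (0 : ℝ)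
      (hH.comp_hasDerivAt (0 : ℝ) (hp 0))).neg)
    exact h3
  have hmin : IsLocalMin (fun t : ℝ => -w (x + t • e)) 0 := by
    have h0 : x + (0 : ℝ) • e = x := by simp
    have := hc.tendsto
    rw [h0] at this
    filter_upwards [this.eventually hmax] with t ht
    simpa using ht
  linarith [second_deriv_nonneg hev h2 hmin]

/-! ### Integration by parts -/

/-- A product with a function supported in an open set is as smooth as both factors there. -/
lemma contDiff_mul_supp {m : ℕ} {f h : En n → ℝ} {U : Set (En n)} (hU : IsOpen U)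
    (hf : ContDiffOn ℝ m f U) (hh : ContDiff ℝ m h) (hs : tsupport h ⊆ U) :
    ContDiff ℝ m (fun x => f x * h x) := by
  refine contDiff_iff_contDiffAt.2 fun x => ?_
  by_cases hx : x ∈ U
  · exact (hf.contDiffAt (hU.mem_nhds hx)).mul hh.contDiffAt
  · refine (contDiffAt_const (c := (0 : ℝ))).congr_of_eventuallyEq ?_
    filter_upwards [notMem_tsupport_iff_eventuallyEq.1 fun h => hx (hs h)] with z hz
    simp [hz]

lemma continuous_mul_supp {f h : En n → ℝ} {U : Set (En n)} (hU : IsOpen U)
    (hf : ContinuousOn f U) (hh : Continuous h) (hs : tsupport h ⊆ U) :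
    Continuous (fun x => f x * h x) :=
  continuous_iff_continuousAt.2 fun x => by
    by_cases hx : x ∈ U
    · exact (hf.continuousAt (hU.mem_nhds hx)).mul hh.continuousAt
    · refine (continuousAt_const (y := (0 : ℝ))).congr ?_
      filter_upwards [notMem_tsupport_iff_eventuallyEq.1 fun h => hx (hs h)] with z hz
      simp [hz]

/-- The integral of a derivative of a compactly supported function vanishes. -/
lemma integral_fderiv_eq_zero {g : En n → ℝ} (hg : ContDiff ℝ 1 g) (hc : HasCompactSupport g)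
    (e : En n) : ∫ x, fderiv ℝ g x e = 0 := by
  have h1 : Continuous fun x => fderiv ℝ g x e :=
    (hg.continuous_fderiv (by norm_num)).clm_apply continuous_const
  have hc' : HasCompactSupport fun x => fderiv ℝ g x e := hc.fderiv_apply ℝ e
  have := integral_mul_fderiv_eq_neg_fderiv_mul_of_integrable (μ := (volume : Measure (En n)))
    (f := fun _ : En n => (1 : ℝ)) (g := g) (v := e) (by simp)
    (by simpa using h1.integrable_of_hasCompactSupport hc')
    (by simpa using hg.continuous.integrable_of_hasCompactSupport hc)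
    (fun _ _ => differentiableAt_const _) fun z _ => (hg.differentiable (by norm_num)).differentiableAt
  simpa using this

lemma contDiffOn_pd {f : En n → ℝ} {U : Set (En n)} (hU : IsOpen U) (hf : ContDiffOn ℝ 2 f U)
    (i : Fin n) : ContDiffOn ℝ (1 : ℕ) (pd i f) U :=
  (hf.fderiv_of_isOpen hU (by norm_num)).clm_apply contDiffOn_const

lemma continuousOn_lap {f : En n → ℝ} {U : Set (En n)} (hU : IsOpen U)
    (hf : ContDiffOn ℝ 2 f U) : ContinuousOn (lap f) U := by
  refine ContinuousOn.congr (f := fun x => ∑ i, fderiv ℝ (pd i f) x (eb i))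
    (continuousOn_finsetSum _ fun i _ =>
      ((contDiffOn_pd hU hf i).continuousOn_fderiv_of_isOpen hU le_rfl).clm_apply
        (continuousOn_const (c := eb i))) fun x hx => ?_
  exact (sum_pd_pd (hf.contDiffAt (hU.mem_nhds hx))).symm

lemma contDiff_pd {f : En n → ℝ} (hf : ContDiff ℝ 2 f) (i : Fin n) :
    ContDiff ℝ (1 : ℕ) (pd i f) :=
  (hf.fderiv_right (m := (1 : ℕ)) (by norm_num)).clm_apply contDiff_const

lemma tsupport_pd_subset (f : En n → ℝ) (i : Fin n) : tsupport (pd i f) ⊆ tsupport f :=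
  closure_minimal (fun x hx => support_fderiv_subset ℝ (f := f) fun h => hx (by simp [pd, h]))
    (isClosed_tsupport f)

lemma tsupport_lap_subset (f : En n → ℝ) : tsupport (lap f) ⊆ tsupport f :=
  closure_minimal (fun x hx => by
    by_contra h
    refine hx ?_
    have e : fderiv ℝ f =ᶠ[𝓝 x] fun _ => 0 := by
      filter_upwards [(notMem_tsupport_iff_eventuallyEq.1 h).eventuallyEq_nhds] with z hz
      rw [hz.fderiv_eq]
      exact fderiv_const_apply 0
    simp [lap, hes, e.fderiv_eq, fderiv_const_apply]) (isClosed_tsupport f)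

/-- The Laplacian is symmetric against a compactly supported function. -/
lemma integral_lap_comm {w ψ : En n → ℝ} {U : Set (En n)} (hU : IsOpen U)
    (hw : ContDiffOn ℝ 2 w U) (hψ : ContDiff ℝ 2 ψ) (hc : HasCompactSupport ψ)
    (hs : tsupport ψ ⊆ U) : ∫ x, w x * lap ψ x = ∫ x, ψ x * lap w x := by
  set g : Fin n → En n → ℝ := fun i x => w x * pd i ψ x - pd i w x * ψ x
  have hsi : ∀ i, tsupport (pd i ψ) ⊆ U := fun i => (tsupport_pd_subset ψ i).trans hs
  have hg : ∀ i, ContDiff ℝ (1 : ℕ) (g i) := fun i =>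
    (contDiff_mul_supp hU (hw.of_le (by norm_num)) (contDiff_pd hψ i) (hsi i)).sub
      (contDiff_mul_supp hU (contDiffOn_pd hU hw i) (hψ.of_le (by norm_num)) hs)
  have hgc : ∀ i, HasCompactSupport (g i) := fun i =>
    HasCompactSupport.intro hc fun x hx => by
      have : pd i ψ x = 0 := image_eq_zero_of_notMem_tsupport fun h => hx (tsupport_pd_subset ψ i h)
      simp [g, this, image_eq_zero_of_notMem_tsupport hx]
  have hi : ∀ i, Integrable fun x => fderiv ℝ (g i) x (eb i) := fun i =>
    (((hg i).continuous_fderiv (by norm_num)).clm_apply continuous_const).integrable_of_hasCompactSupport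
      ((hgc i).fderiv_apply ℝ (eb i))
  have hkey : ∀ x, ∑ i, fderiv ℝ (g i) x (eb i) = w x * lap ψ x - ψ x * lap w x := by
    intro x
    by_cases hx : x ∈ U
    · have h1 : ContDiffAt ℝ 2 w x := hw.contDiffAt (hU.mem_nhds hx)
      have h2 : ContDiffAt ℝ 2 ψ x := hψ.contDiffAt
      have e : ∀ i, fderiv ℝ (g i) x (eb i) = w x * fderiv ℝ (pd i ψ) x (eb i)
          - ψ x * fderiv ℝ (pd i w) x (eb i) := fun i => by
        have ha := (h1.differentiableAt (by norm_num)).hasFDerivAt
        have hb := (h2.differentiableAt (by norm_num)).hasFDerivAt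
        have h : HasFDerivAt (g i) _ x :=
          (ha.mul (hasFDerivAt_pd h2 i)).sub ((hasFDerivAt_pd h1 i).mul hb)
        rw [h.fderiv, fderiv_pd_apply h1, fderiv_pd_apply h2]
        simp [pd]
        ring
      rw [Finset.sum_congr rfl fun i _ => e i, Finset.sum_sub_distrib, ← Finset.mul_sum,
        ← Finset.mul_sum, sum_pd_pd h1, sum_pd_pd h2]
    · have hx' : x ∉ tsupport ψ := fun h => hx (hs h)
      have e : ∀ i, fderiv ℝ (g i) x (eb i) = 0 := fun i => by
        have he : g i =ᶠ[𝓝 x] fun _ => 0 := by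
          filter_upwards [notMem_tsupport_iff_eventuallyEq.1 hx',
            notMem_tsupport_iff_eventuallyEq.1 fun h => hx' (tsupport_pd_subset ψ i h)] with z h1 h2
          simp [g, h1, h2]
        simp [he.fderiv_eq, fderiv_const_apply]
      rw [Finset.sum_eq_zero fun i _ => e i,
        image_eq_zero_of_notMem_tsupport fun h => hx' (tsupport_lap_subset ψ h),
        image_eq_zero_of_notMem_tsupport hx']
      simp
  have h0 : ∫ x, (w x * lap ψ x - ψ x * lap w x) = 0 := by
    simp only [← hkey]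
    rw [integral_finsetSum _ fun i _ => hi i]
    exact Finset.sum_eq_zero fun i _ => integral_fderiv_eq_zero (hg i) (hgc i) (eb i)
  rw [integral_sub] at h0
  · linarith
  · exact (continuous_mul_supp hU hw.continuousOn
      (continuousOn_univ.1 (continuousOn_lap isOpen_univ hψ.contDiffOn))
      ((tsupport_lap_subset ψ).trans hs)).integrable_of_hasCompactSupport
      (HasCompactSupport.intro hc fun x hx => by
        simp [image_eq_zero_of_notMem_tsupport fun h => hx (tsupport_lap_subset ψ h)])
  · refine ((continuous_mul_supp hU (continuousOn_lap hU hw) hψ.continuous hs).congr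
      fun x => mul_comm _ _).integrable_of_hasCompactSupport (HasCompactSupport.intro hc fun x hx => ?_)
    simp [image_eq_zero_of_notMem_tsupport hx]

end Vale.Agent.P100.Feedback
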