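import Vale.Agent.P100.Feedback.Green
import Mathlib.Analysis.Calculus.ContDiff.RCLike

/-!
Pointwise bounds for a function and its gradient, and lower bounds for positive superharmonic
functions with a removable singularity.
-/

open Filter Topology Set MeasureTheory
open scoped ENNReal

namespace Vale.Agent.P100.Feedback

variable {n : ℕ}

lemma integrableOn_gam_shift {m : ℕ} (hm : m < n) (x : En n) (R : ℝ) :
    IntegrableOn (fun y => gam m (x - y)) (Metric.closedBall x R) := by
  rw [← integrable_indicator_iff measurableSet_closedBall]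
  refine (((integrable_indicator_iff measurableSet_closedBall).2
    (integrableOn_gam hm R)).comp_sub_left x).congr (Eventually.of_forall fun y => ?_)
  have : (x - y ∈ Metric.closedBall (0 : En n) R) ↔ y ∈ Metric.closedBall x R := by
    simp [dist_comm y x, dist_eq_norm]
  show (Metric.closedBall (0 : En n) R).indicator (gam m) (x - y) = _
  by_cases hy : y ∈ Metric.closedBall x R
  · rw [Set.indicator_of_mem hy, Set.indicator_of_mem (this.2 hy)]
  · rw [Set.indicator_of_notMem hy, Set.indicator_of_notMem (mt this.1 hy)]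

lemma integrableOn_gam_mul {m : ℕ} (hm : m < n) (x : En n) {R : ℝ} {g : En n → ℝ}
    (hg : ContinuousOn g (Metric.closedBall x R)) :
    IntegrableOn (fun y => gam m (x - y) * g y) (Metric.closedBall x R) :=
  (integrableOn_gam_shift hm x R).mul_continuousOn hg (isCompact_closedBall x R)

lemma ae_ne (hn : 1 ≤ n) (x : En n) : ∀ᵐ y : En n, y ≠ x := by
  have : Nontrivial (En n) := Module.nontrivial_of_finrank_pos (R := ℝ) (by simp; omega)
  rw [ae_iff]; simp

section
variable (hn : 3 ≤ n)
include hn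

lemma tst_le_gam {ρ : ℝ} (hρ : 0 < ρ) {ε : ℝ} (hε : 0 < ε) {x y : En n} (hy : y ≠ x) :
    0 ≤ tst ρ ε x y ∧ tst ρ ε x y ≤ gam (n - 2) (y - x) := by
  have hR : 0 < ρ ^ (n - 2) := by positivity
  refine ⟨div_nonneg (ramp_nonneg _) hR.le, ?_⟩
  rw [tst, div_le_iff₀ hR]
  have h := abs_ramp_sub (ρ ^ (n - 2) * reg ε (y - x)) 0
  have h0 : 0 ≤ ρ ^ (n - 2) * reg ε (y - x) := mul_nonneg hR.le (reg_pos hε _).le
  rw [ramp_zero (zero_le_one' ℝ), sub_zero, sub_zero, abs_of_nonneg (ramp_nonneg _),
    abs_of_nonneg h0] at h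
  refine h.trans ?_
  rw [mul_comm (gam (n - 2) (y - x))]
  exact mul_le_mul_of_nonneg_left (reg_le_gam hn ε (sub_ne_zero.2 hy)) hR.le

lemma tst_tendsto {ρ : ℝ} {x y : En n} (hy : y ≠ x) :
    Tendsto (fun k => tst ρ (epsSeq k) x y) atTop (𝓝 (kA ρ (x - y))) := by
  rw [← neg_sub, show kA ρ (-(y - x)) = kA ρ (y - x) by rw [kA, kA, gam_neg]]
  exact ((contDiff_ramp.continuous.tendsto _).comp
    ((reg_tendsto hn (sub_ne_zero.2 hy)).const_mul _)).div_const _

/-- The truncated Green identity. -/
lemma green {U : Set (En n)} (hU : IsOpen U) {w : En n → ℝ} (hw : ContDiffOn ℝ 2 w U) {ρ : ℝ}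
    (hρ : 0 < ρ) {x : En n} (hs : Metric.closedBall x ρ ⊆ U) :
    cN n * w x = (∫ y, w y * kB ρ (x - y)) - ∫ y, kA ρ (x - y) * lap w y := by
  have h1 := lim_lhs hn hU hw.continuousOn hρ hs
  have hlc : ContinuousOn (lap w) (Metric.closedBall x ρ) := (continuousOn_lap hU hw).mono hs
  have hb := integrableOn_gam_mul (m := n - 2) (by omega) x hlc.norm
  rw [← integrable_indicator_iff measurableSet_closedBall] at hb
  have h2 : Tendsto (fun k => ∫ y, tst ρ (epsSeq k) x y * lap w y) atTop
      (𝓝 (∫ y, kA ρ (x - y) * lap w y)) := by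
    refine tendsto_integral_of_dominated_convergence _ (fun k => ?_) hb (fun k => ?_) ?_
    · have hc : Continuous fun y => lap w y * tst ρ (epsSeq k) x y :=
        continuous_mul_supp hU (continuousOn_lap hU hw) (contDiff_tst (epsSeq_pos k) x).continuous
          ((tsupport_tst hn hρ _ x).trans hs)
      exact (hc.congr fun y => mul_comm _ _).aestronglyMeasurable
    · filter_upwards [ae_ne (by omega) x] with y hy
      by_cases hm : y ∈ Metric.closedBall x ρ
      · rw [Set.indicator_of_mem hm, norm_mul]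
        obtain ⟨h0, hle⟩ := tst_le_gam hn hρ (epsSeq_pos k) hy
        rw [Real.norm_of_nonneg h0, ← neg_sub, gam_neg]
        exact mul_le_mul_of_nonneg_right hle (norm_nonneg _)
      · rw [Set.indicator_of_notMem hm,
          image_eq_zero_of_notMem_tsupport fun h => hm (tsupport_tst hn hρ _ x h)]
        simp
    · filter_upwards [ae_ne (by omega) x] with y hy
      exact (tst_tendsto hn hy).mul_const _
  simp only [fun k => integral_lap_comm hU hw (contDiff_tst (ρ := ρ) (epsSeq_pos k) x)
    (hasCompactSupport_tst hn hρ _ x) ((tsupport_tst hn hρ _ x).trans hs)] at h1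
  linarith [tendsto_nhds_unique h1 h2]

lemma kB_scale {ρ : ℝ} (hρ : 0 < ρ) (z : En n) : kB ρ z = (ρ ^ n)⁻¹ * kB 1 (ρ⁻¹ • z) := by
  have hg : ∀ m : ℕ, gam m (ρ⁻¹ • z) = ρ ^ m * gam m z := fun m => by
    simp [gam, norm_smul, abs_of_pos hρ, mul_pow, inv_pow, mul_inv_rev, mul_comm]
  simp only [kB, hg, one_pow, one_mul]
  rw [show 2 * n - 2 = n + (n - 2) by omega, pow_add]
  field_simp

lemma exists_kB_bound : ∃ M : ℝ, 0 ≤ M ∧
    (∀ ρ : ℝ, 0 < ρ → ∀ z : En n, kB ρ z ≤ M * (ρ ^ n)⁻¹) ∧
    ∀ ρ : ℝ, 0 < ρ → ∀ z w : En n, |kB ρ z - kB ρ w| ≤ M * (ρ ^ (n + 1))⁻¹ * ‖z - w‖ := by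
  have hc : HasCompactSupport (kB (n := n) 1) :=
    HasCompactSupport.intro (isCompact_closedBall 0 1) fun z hz => by
      rw [Metric.mem_closedBall, dist_zero_right, not_le] at hz
      exact kB_zero hn one_pos hz
  obtain ⟨M, hM⟩ := (contDiff_kB hn one_pos).continuous.bounded_above_of_compact_support hc
  obtain ⟨L, hL⟩ := ContDiff.lipschitzWith_of_hasCompactSupport hc (contDiff_kB hn one_pos)
    (by simp)
  refine ⟨|M| + L, by positivity, fun ρ hρ z => ?_, fun ρ hρ z w => ?_⟩
  · rw [kB_scale hn hρ, mul_comm]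
    refine mul_le_mul_of_nonneg_right ?_ (by positivity)
    calc kB 1 (ρ⁻¹ • z) ≤ ‖kB 1 (ρ⁻¹ • z)‖ := Real.le_norm_self _
      _ ≤ M := hM _
      _ ≤ |M| + L := le_add_of_le_of_nonneg (le_abs_self M) L.coe_nonneg
  · rw [kB_scale hn hρ, kB_scale hn hρ, ← mul_sub, abs_mul, abs_of_pos (by positivity)]
    have h := hL.dist_le_mul (ρ⁻¹ • z) (ρ⁻¹ • w)
    rw [Real.dist_eq, dist_eq_norm, ← smul_sub, norm_smul, Real.norm_of_nonneg (by positivity)] at h
    calc (ρ ^ n)⁻¹ * |kB 1 (ρ⁻¹ • z) - kB 1 (ρ⁻¹ • w)|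
        ≤ (ρ ^ n)⁻¹ * ((L : ℝ) * (ρ⁻¹ * ‖z - w‖)) := mul_le_mul_of_nonneg_left h (by positivity)
      _ = (L : ℝ) * (ρ ^ (n + 1))⁻¹ * ‖z - w‖ := by rw [pow_succ, mul_inv]; ring
      _ ≤ (|M| + L) * (ρ ^ (n + 1))⁻¹ * ‖z - w‖ :=
          mul_le_mul_of_nonneg_right (mul_le_mul_of_nonneg_right
            (le_add_of_nonneg_left (abs_nonneg M)) (by positivity)) (norm_nonneg _)

/-- A value is controlled by a potential of the Laplacian and by an average. -/
lemma exists_val_bound : ∃ C : ℝ, 0 ≤ C ∧ ∀ (U : Set (En n)) (w : En n → ℝ), IsOpen U →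
    ContDiffOn ℝ 2 w U → ∀ (x : En n) (ρ : ℝ), 0 < ρ → Metric.closedBall x ρ ⊆ U →
      |w x| ≤ C * ((∫ y in Metric.closedBall x ρ, gam (n - 2) (x - y) * |lap w y|)
        + (ρ ^ n)⁻¹ * ∫ y in Metric.closedBall x ρ, |w y|) := by
  obtain ⟨M, hM0, hM, -⟩ := exists_kB_bound hn
  have hc := cN_pos hn
  refine ⟨(1 + M) / cN n, by positivity, fun U w hU hw x ρ hρ hs => ?_⟩
  have hlc := (continuousOn_lap hU hw).mono hs
  have h := green hn hU hw hρ hs
  have hI := integrableOn_gam_mul (m := n - 2) (by omega) x hlc.abs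
  have hW : IntegrableOn (fun y => |w y|) (Metric.closedBall x ρ) :=
    ((hw.continuousOn.mono hs).abs).integrableOn_compact (isCompact_closedBall x ρ)
  have b1 : |∫ y, w y * kB ρ (x - y)| ≤ M * (ρ ^ n)⁻¹ * ∫ y in Metric.closedBall x ρ, |w y| := by
    rw [← setIntegral_eq_integral_of_forall_compl_eq_zero (s := Metric.closedBall x ρ) fun y hy => by
      rw [Metric.mem_closedBall, dist_comm, dist_eq_norm, not_le] at hy
      simp [kB_zero hn hρ hy], ← integral_const_mul, ← Real.norm_eq_abs]
    refine norm_integral_le_of_norm_le (hW.const_mul _) (Eventually.of_forall fun y => ?_)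
    rw [norm_mul, Real.norm_eq_abs, Real.norm_of_nonneg (kB_nonneg hρ _), mul_comm]
    exact mul_le_mul_of_nonneg_right (hM ρ hρ _) (abs_nonneg _)
  have b2 : |∫ y, kA ρ (x - y) * lap w y| ≤
      ∫ y in Metric.closedBall x ρ, gam (n - 2) (x - y) * |lap w y| := by
    rw [← setIntegral_eq_integral_of_forall_compl_eq_zero (s := Metric.closedBall x ρ) fun y hy => by
      rw [Metric.mem_closedBall, dist_comm, dist_eq_norm, not_le] at hy
      simp [kA_zero hρ hy.le], ← Real.norm_eq_abs]
    refine norm_integral_le_of_norm_le hI (Eventually.of_forall fun y => ?_)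
    rw [norm_mul, Real.norm_of_nonneg (kA_nonneg hn hρ _), Real.norm_eq_abs]
    exact mul_le_mul_of_nonneg_right (kA_le_gam hρ _) (abs_nonneg _)
  have h0 : 0 ≤ ∫ y in Metric.closedBall x ρ, |w y| := integral_nonneg fun y => abs_nonneg _
  have h1 : 0 ≤ ∫ y in Metric.closedBall x ρ, gam (n - 2) (x - y) * |lap w y| :=
    integral_nonneg fun y => mul_nonneg (gam_nonneg _ _) (abs_nonneg _)
  rw [div_mul_eq_mul_div, le_div_iff₀ hc]
  have h2 : |cN n * w x| ≤ |∫ y, w y * kB ρ (x - y)| + |∫ y, kA ρ (x - y) * lap w y| := by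
    rw [h]; exact abs_sub _ _
  rw [abs_mul, abs_of_pos hc] at h2
  nlinarith [mul_nonneg hM0 h1, show 0 ≤ (ρ ^ n)⁻¹ * ∫ y in Metric.closedBall x ρ, |w y| by
    positivity]

/-- The gradient is controlled by a potential of the Laplacian and by an average. -/
lemma exists_grad_bound : ∃ C : ℝ, 0 ≤ C ∧ ∀ (U : Set (En n)) (w : En n → ℝ), IsOpen U →
    ContDiffOn ℝ 2 w U → ∀ (x : En n) (ρ : ℝ), 0 < ρ → Metric.closedBall x (3 * ρ) ⊆ U →
      ‖fderiv ℝ w x‖ ≤ C * ((∫ y in Metric.closedBall x (3 * ρ), gam (n - 1) (x - y) * |lap w y|)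
        + (ρ ^ (n + 1))⁻¹ * ∫ y in Metric.closedBall x (3 * ρ), |w y|) := by
  obtain ⟨M, hM0, -, hM⟩ := exists_kB_bound hn
  have hc := cN_pos hn
  refine ⟨(2 * (n : ℝ) + M) / cN n, by positivity, fun U w hU hw x ρ hρ hs => ?_⟩
  have hsub : Metric.closedBall x (2 * ρ) ⊆ Metric.closedBall x (3 * ρ) :=
    Metric.closedBall_subset_closedBall (by linarith)
  have hlc := (continuousOn_lap hU hw).mono hs
  set η : En n → ℝ := fun y => max 0 (min 1 (3 - ‖y - x‖ / ρ)) with hη
  have hη1 : ∀ y ∈ Metric.closedBall x (2 * ρ), η y = 1 := fun y hy => by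
    rw [Metric.mem_closedBall, dist_eq_norm] at hy
    have : ‖y - x‖ / ρ ≤ 2 := by rw [div_le_iff₀ hρ]; linarith
    simp only [hη]
    rw [min_eq_left (by linarith), max_eq_right zero_le_one]
  have hη0 : ∀ y, y ∉ Metric.closedBall x (3 * ρ) → η y = 0 := fun y hy => by
    rw [Metric.mem_closedBall, dist_eq_norm, not_le] at hy
    have : 3 ≤ ‖y - x‖ / ρ := by rw [le_div_iff₀ hρ]; linarith
    simp only [hη]
    rw [max_eq_left ((min_le_right _ _).trans (by linarith))]
  set G : En n → ℝ := fun y => |lap w y| * η y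
  have hGc : Continuous G :=
    continuous_mul_supp hU (continuousOn_lap hU hw).abs (by fun_prop)
      ((closure_minimal (fun y hy => by_contra fun h => Function.mem_support.1 hy (hη0 y h))
        Metric.isClosed_closedBall).trans hs)
  have hG0 : ∀ y, y ∉ Metric.closedBall x (3 * ρ) → G y = 0 := fun y hy => by simp [G, hη0 y hy]
  obtain ⟨K, hK⟩ := hGc.bounded_above_of_compact_support
    (HasCompactSupport.intro (isCompact_closedBall _ _) hG0)
  set Q : En n → ℝ := fun x' => ∫ z, gam (n - 1) z * G (x' - z) with hQ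
  have hQi : ∀ x', Integrable fun y => gam (n - 1) (x' - y) * G y := fun x' =>
    (integrableOn_iff_integrable_of_support_subset fun y hy => by
      by_contra h
      rw [Metric.mem_closedBall, not_le] at h
      have : y ∉ Metric.closedBall x (3 * ρ) := fun hm => by
        rw [Metric.mem_closedBall] at hm
        linarith [dist_triangle y x x']
      exact hy (by simp [hG0 y this])).1
      (integrableOn_gam_mul (m := n - 1) (by omega) x' (R := 3 * ρ + dist x x') hGc.continuousOn)
  have hQe : ∀ x', Q x' = ∫ y, gam (n - 1) (x' - y) * G y := fun x' => by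
    rw [hQ, ← integral_sub_left_eq_self _ volume x']
    simp only [sub_sub_cancel]
  have hQc : ContinuousAt Q x := by
    refine continuousAt_of_dominated (bound := (Metric.closedBall (0 : En n) (4 * ρ)).indicator
        fun z => gam (n - 1) z * K) (Eventually.of_forall fun x' => ?_) ?_
      ((integrable_indicator_iff measurableSet_closedBall).2
        ((integrableOn_gam (by omega) _).mul_const K))
      (Eventually.of_forall fun z => ContinuousAt.mul continuousAt_const
        (hGc.continuousAt.comp (by fun_prop)))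
    · exact ((measurable_gam _).mul (hGc.comp (by fun_prop)).measurable).aestronglyMeasurable
    · filter_upwards [Metric.ball_mem_nhds x hρ] with x' hx'
      refine Eventually.of_forall fun z => ?_
      rw [norm_mul, Real.norm_of_nonneg (gam_nonneg _ _)]
      by_cases hz : z ∈ Metric.closedBall (0 : En n) (4 * ρ)
      · rw [Set.indicator_of_mem hz]
        exact mul_le_mul_of_nonneg_left (hK _) (gam_nonneg _ _)
      · rw [Set.indicator_of_notMem hz, hG0 (x' - z), norm_zero, mul_zero]
        intro hm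
        rw [Metric.mem_closedBall, dist_eq_norm] at hm
        rw [Metric.mem_closedBall, dist_zero_right, not_le] at hz
        rw [Metric.mem_ball, dist_eq_norm] at hx'
        have : z = (x' - x) - (x' - z - x) := by abel
        have h := norm_sub_le (x' - x) (x' - z - x)
        rw [← this] at h
        linarith
  set W := ∫ y in Metric.closedBall x (3 * ρ), |w y|
  have hW : IntegrableOn (fun y => |w y|) (Metric.closedBall x (3 * ρ)) :=
    (hw.continuousOn.mono hs).abs.integrableOn_compact (isCompact_closedBall _ _)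
  have hW0 : 0 ≤ W := integral_nonneg fun y => abs_nonneg _
  have hdiff : ∀ d : En n, ‖d‖ ≤ ρ → cN n * |w (x + d) - w x| ≤
      ‖d‖ * ((n : ℝ) * (Q (x + d) + Q x) + M * (ρ ^ (n + 1))⁻¹ * W) := by
    intro d hd
    have hball : Metric.closedBall (x + d) ρ ⊆ Metric.closedBall x (2 * ρ) :=
      Metric.closedBall_subset_closedBall' (by rw [dist_eq_norm, add_sub_cancel_left]; linarith)
    have g1 := green hn hU hw hρ (hball.trans (hsub.trans hs))
    have g2 := green hn hU hw hρ (x := x)
      ((Metric.closedBall_subset_closedBall (by linarith)).trans hs)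
    have mem : ∀ x' : En n, Metric.closedBall x' ρ ⊆ Metric.closedBall x (2 * ρ) →
        ∀ y, y ∉ Metric.closedBall x (2 * ρ) → ρ < ‖x' - y‖ := fun x' hx' y hy => by
      by_contra h
      exact hy (hx' (by rw [Metric.mem_closedBall, dist_comm, dist_eq_norm]; exact not_lt.1 h))
    have hx2 : Metric.closedBall x ρ ⊆ Metric.closedBall x (2 * ρ) :=
      Metric.closedBall_subset_closedBall (by linarith)
    have iB : ∀ x' : En n, Metric.closedBall x' ρ ⊆ Metric.closedBall x (2 * ρ) →
        Integrable fun y => w y * kB ρ (x' - y) := fun x' hx' =>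
      (continuous_mul_supp hU hw.continuousOn
        ((contDiff_kB hn hρ).continuous.comp (continuous_const.sub continuous_id))
        ((tsupport_kB hn hρ x').trans (hx'.trans (hsub.trans hs)))).integrable_of_hasCompactSupport
        (HasCompactSupport.intro (isCompact_closedBall x' ρ) fun y hy => by
          rw [Metric.mem_closedBall, dist_comm, dist_eq_norm, not_le] at hy
          simp [kB_zero hn hρ hy])
    have iA : ∀ x' : En n, Metric.closedBall x' ρ ⊆ Metric.closedBall x (2 * ρ) →
        Integrable fun y => kA ρ (x' - y) * lap w y := fun x' hx' => by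
      have hb := integrableOn_gam_mul (m := n - 2) (by omega) x'
        (((continuousOn_lap hU hw).mono (hx'.trans (hsub.trans hs))).norm)
      rw [← integrable_indicator_iff measurableSet_closedBall] at hb
      have hl : AEStronglyMeasurable ((Metric.closedBall x' ρ).indicator (lap w)) volume :=
        ((((continuousOn_lap hU hw).mono (hx'.trans (hsub.trans hs))).integrableOn_compact
          (isCompact_closedBall x' ρ)).integrable_indicator measurableSet_closedBall).1
      have hk : Measurable fun y : En n => kA ρ (x' - y) :=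
        (measurable_kA ρ).comp (by fun_prop)
      refine hb.mono' ((hk.aestronglyMeasurable.mul hl).congr
          (Eventually.of_forall fun y => ?_)) (Eventually.of_forall fun y => ?_)
      · show kA ρ (x' - y) * (Metric.closedBall x' ρ).indicator (lap w) y
          = kA ρ (x' - y) * lap w y
        by_cases hy : y ∈ Metric.closedBall x' ρ
        · rw [Set.indicator_of_mem hy]
        · rw [Set.indicator_of_notMem hy]
          rw [Metric.mem_closedBall, dist_comm, dist_eq_norm, not_le] at hy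
          simp [kA_zero hρ hy.le]
      · by_cases hy : y ∈ Metric.closedBall x' ρ
        · rw [Set.indicator_of_mem hy, norm_mul, Real.norm_of_nonneg (kA_nonneg hn hρ _)]
          exact mul_le_mul_of_nonneg_right (kA_le_gam hρ _) (norm_nonneg _)
        · rw [Set.indicator_of_notMem hy]
          rw [Metric.mem_closedBall, dist_comm, dist_eq_norm, not_le] at hy
          simp [kA_zero hρ hy.le]
    have bA : |∫ y, (kA ρ (x + d - y) * lap w y - kA ρ (x - y) * lap w y)| ≤
        (n : ℝ) * ‖d‖ * (Q (x + d) + Q x) := by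
      rw [hQe, hQe, ← integral_add (hQi _) (hQi _), ← integral_const_mul, ← Real.norm_eq_abs]
      refine norm_integral_le_of_norm_le (((hQi _).add (hQi _)).const_mul _) ?_
      filter_upwards [ae_ne (by omega) x, ae_ne (by omega) (x + d)] with y hy1 hy2
      rw [← sub_mul, norm_mul, Real.norm_eq_abs]
      by_cases hy : y ∈ Metric.closedBall x (2 * ρ)
      · have h := (abs_kA_sub hρ (x + d - y) (x - y)).trans
          (abs_gam_sub (n - 2) (sub_ne_zero.2 (Ne.symm hy2)) (sub_ne_zero.2 (Ne.symm hy1)))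
        rw [show n - 2 + 1 = n - 1 by omega, show x + d - y - (x - y) = d by abel] at h
        have hN : ((n - 2 : ℕ) : ℝ) ≤ n := by exact_mod_cast Nat.sub_le n 2
        have hG : G y = |lap w y| := by simp [G, hη1 y hy]
        rw [Real.norm_eq_abs, hG, ← add_mul]
        calc |kA ρ (x + d - y) - kA ρ (x - y)| * |lap w y|
            ≤ ((n : ℝ) * ‖d‖ * (gam (n - 1) (x + d - y) + gam (n - 1) (x - y))) * |lap w y| :=
              mul_le_mul_of_nonneg_right (h.trans (mul_le_mul_of_nonneg_right
                (mul_le_mul_of_nonneg_right hN (norm_nonneg _))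
                (add_nonneg (gam_nonneg _ _) (gam_nonneg _ _)))) (abs_nonneg _)
          _ = _ := by ring
      · rw [kA_zero hρ (mem (x + d) hball y hy).le, kA_zero hρ (mem x hx2 y hy).le, sub_self,
          abs_zero, zero_mul]
        refine mul_nonneg (by positivity) (add_nonneg ?_ ?_) <;>
          exact mul_nonneg (gam_nonneg _ _) (mul_nonneg (abs_nonneg _) (le_max_left _ _))
    have bB : |∫ y, (w y * kB ρ (x + d - y) - w y * kB ρ (x - y))| ≤
        M * (ρ ^ (n + 1))⁻¹ * ‖d‖ * W := by
      rw [← setIntegral_eq_integral_of_forall_compl_eq_zero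
        (s := Metric.closedBall x (3 * ρ)) fun y hy => by
          have hy' : y ∉ Metric.closedBall x (2 * ρ) := fun h => hy (hsub h)
          simp [kB_zero hn hρ (mem (x + d) hball y hy'), kB_zero hn hρ (mem x hx2 y hy')],
        ← integral_const_mul, ← Real.norm_eq_abs]
      refine norm_integral_le_of_norm_le (hW.const_mul _) (Eventually.of_forall fun y => ?_)
      rw [← mul_sub, norm_mul, Real.norm_eq_abs, mul_comm]
      refine mul_le_mul_of_nonneg_right ?_ (abs_nonneg _)
      have := hM ρ hρ (x + d - y) (x - y)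
      rwa [show x + d - y - (x - y) = d by abel] at this
    rw [← abs_of_pos hc, ← abs_mul, mul_sub, g1, g2,
      show ∀ a b c e : ℝ, a - b - (c - e) = (a - c) - (b - e) from fun a b c e => by ring,
      ← integral_sub (iB _ hball) (iB _ hx2), ← integral_sub (iA _ hball) (iA _ hx2)]
    refine ((abs_sub _ _).trans (add_le_add bB bA)).trans (le_of_eq ?_)
    ring
  have hQx : Q x ≤ ∫ y in Metric.closedBall x (3 * ρ), gam (n - 1) (x - y) * |lap w y| := by
    rw [hQe, ← setIntegral_eq_integral_of_forall_compl_eq_zero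
      (s := Metric.closedBall x (3 * ρ)) fun y hy => by simp [hG0 y hy]]
    refine setIntegral_mono_on (hQi x).integrableOn
      (integrableOn_gam_mul (m := n - 1) (by omega) x hlc.abs) measurableSet_closedBall
      fun y _ => mul_le_mul_of_nonneg_left ?_ (gam_nonneg _ _)
    exact mul_le_of_le_one_right (abs_nonneg _) (max_le zero_le_one (min_le_left _ _))
  have hxU : x ∈ U := hs (Metric.mem_closedBall_self (by linarith))
  set B := (2 * (n : ℝ) * Q x + M * (ρ ^ (n + 1))⁻¹ * W) / cN n
  have hQ0 : 0 ≤ Q x := integral_nonneg fun z =>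
    mul_nonneg (gam_nonneg _ _) (mul_nonneg (abs_nonneg _) (le_max_left _ _))
  have hB0 : 0 ≤ B := by positivity
  refine le_trans (ContinuousLinearMap.opNorm_le_bound' _ hB0 fun e he => ?_) ?_
  · have hd : HasDerivAt (fun t : ℝ => w (x + t • e)) (fderiv ℝ w x e) 0 := by
      have hH : HasFDerivAt w (fderiv ℝ w x) (x + (0 : ℝ) • e) := by
        simpa using ((hw.contDiffAt (hU.mem_nhds hxU)).differentiableAt (by norm_num)).hasFDerivAt
      exact hH.comp_hasDerivAt (0 : ℝ)
        (by simpa using ((hasDerivAt_id (0 : ℝ)).smul_const e).const_add x)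
    have hl := (hasDerivAt_iff_tendsto_slope.1 hd).mono_left
      (nhdsWithin_mono (0 : ℝ) (s := Ioi 0) fun t ht => ne_of_gt ht)
    have hq : Tendsto (fun t : ℝ => ((n : ℝ) * (Q (x + t • e) + Q x) + M * (ρ ^ (n + 1))⁻¹ * W)
        * ‖e‖ / cN n) (𝓝[>] 0) (𝓝 (B * ‖e‖)) := by
      have hx0 : Tendsto (fun t : ℝ => x + t • e) (𝓝[>] 0) (𝓝 x) := by
        refine (Continuous.tendsto' (by fun_prop) (0 : ℝ) x (by simp)).mono_left nhdsWithin_le_nhds
      have := ((((hQc.tendsto.comp hx0).add_const (Q x)).const_mul (n : ℝ)).add_const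
        (M * (ρ ^ (n + 1))⁻¹ * W)).mul_const ‖e‖ |>.div_const (cN n)
      rwa [show ((n : ℝ) * (Q x + Q x) + M * (ρ ^ (n + 1))⁻¹ * W) * ‖e‖ / cN n = B * ‖e‖ by
        simp only [B]; ring] at this
    refine le_of_tendsto_of_tendsto hl.norm hq ?_
    filter_upwards [self_mem_nhdsWithin, Ioo_mem_nhdsGT (show 0 < ρ / ‖e‖ by positivity)]
      with t (ht : 0 < t) ht'
    have hte : ‖t • e‖ = t * ‖e‖ := by rw [norm_smul, Real.norm_of_nonneg ht.le]
    have h := hdiff (t • e) (by rw [hte, ← le_div_iff₀ (by positivity)]; exact ht'.2.le)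
    rw [hte] at h
    simp only [slope_def_field, sub_zero, zero_smul, add_zero, norm_div, Real.norm_eq_abs,
      abs_of_pos ht]
    rw [div_le_div_iff₀ ht hc]
    linarith
  · simp only [B, div_mul_eq_mul_div]
    refine div_le_div_of_nonneg_right ?_ hc.le
    have h4 : 0 ≤ (ρ ^ (n + 1))⁻¹ * W := by positivity
    have hn0 : (0 : ℝ) ≤ n := Nat.cast_nonneg n
    nlinarith [mul_le_mul_of_nonneg_left hQx (show (0 : ℝ) ≤ 2 * n by positivity),
      mul_nonneg hM0 (hQ0.trans hQx)]

end

/-! ### A removable singularity -/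

lemma lap_mul {f g : En n → ℝ} {x : En n} (hf : ContDiffAt ℝ 2 f x) (hg : ContDiffAt ℝ 2 g x) :
    lap (fun y => f y * g y) x
      = f x * lap g x + g x * lap f x + 2 * ∑ i, pd i f x * pd i g x := by
  have e1 : fderiv ℝ (fun y => f y * g y) =ᶠ[𝓝 x]
      fun y => f y • fderiv ℝ g y + g y • fderiv ℝ f y := by
    filter_upwards [hf.eventually (by norm_num), hg.eventually (by norm_num)] with y hy hy2
    exact fderiv_fun_mul (hy.differentiableAt (by norm_num)) (hy2.differentiableAt (by norm_num))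
  have e2 := ((hf.differentiableAt (by norm_num)).hasFDerivAt.smul (hasFDerivAt_fderiv' hg)).add
    ((hg.differentiableAt (by norm_num)).hasFDerivAt.smul (hasFDerivAt_fderiv' hf))
  have e3 : ∀ i, hes (fun y => f y * g y) x (eb i) (eb i)
      = f x * hes g x (eb i) (eb i) + g x * hes f x (eb i) (eb i) + 2 * (pd i f x * pd i g x) :=
    fun i => by
      rw [hes, (e2.congr_of_eventuallyEq e1).fderiv]
      simp [pd]
      ring
  simp only [lap]
  rw [Finset.mul_sum, Finset.mul_sum, Finset.mul_sum, ← Finset.sum_add_distrib,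
    ← Finset.sum_add_distrib]
  exact Finset.sum_congr rfl fun i _ => e3 i

/-- A cutoff vanishing near the origin. -/
noncomputable def hole (ε : ℝ) (x : En n) : ℝ := step (sqd 0 x / ε ^ 2)

lemma contDiff_hole (ε : ℝ) : ContDiff ℝ 2 (hole (n := n) ε) :=
  (contDiff_step (m := 2)).comp ((contDiff_sqd 0).div_const _)

lemma exists_hole_bound : ∃ C : ℝ, 0 ≤ C ∧ ∀ ε : ℝ, 0 < ε → ∀ x : En n,
    |lap (hole ε) x| ≤ C / ε ^ 2 ∧ (∀ i, |pd i (hole ε) x| ≤ C / ε) ∧
      (2 * ε ≤ ‖x‖ → lap (hole ε) x = 0 ∧ (∀ i, pd i (hole ε) x = 0) ∧ hole ε x = 1) := by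
  obtain ⟨b1, hb1⟩ := exists_bump_le
  have hc : HasCompactSupport (deriv bump) := by
    refine HasCompactSupport.deriv (HasCompactSupport.intro (isCompact_Icc (a := (1 : ℝ)) (b := 2))
      fun t ht => bump_eq_zero ?_)
    rw [mem_Icc, not_and_or, not_le, not_le] at ht
    exact ht
  obtain ⟨b2, hb2⟩ := ((contDiff_one_iff_deriv.1 contDiff_bump).2).bounded_above_of_compact_support hc
  refine ⟨16 * |b2| + 2 * (n + 2) * |b1|, by positivity, fun ε hε x => ?_⟩
  have hd : ∀ t : ℝ, HasDerivAt (fun s => step (s / ε ^ 2)) (bump (t / ε ^ 2) / ε ^ 2) t := fun t => by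
    have h := (hasDerivAt_step (t / ε ^ 2)).comp t ((hasDerivAt_id' t).div_const (ε ^ 2))
    rw [mul_one_div] at h
    exact h
  have hd2 : HasDerivAt (fun t => bump (t / ε ^ 2) / ε ^ 2)
      (deriv bump (sqd 0 x / ε ^ 2) / ε ^ 2 / ε ^ 2) (sqd 0 x) :=
    ((((contDiff_bump.differentiable (by norm_num)) _).hasDerivAt.comp _
      ((hasDerivAt_id _).div_const _)).div_const _).congr_deriv (by ring)
  have hl : lap (hole ε) x = deriv bump (sqd 0 x / ε ^ 2) / ε ^ 2 / ε ^ 2 * (4 * ‖x‖ ^ 2)
      + bump (sqd 0 x / ε ^ 2) / ε ^ 2 * (2 * n) := by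
    have h := lap_comp (h := sqd 0) (x := x) (φ := fun t => step (t / ε ^ 2))
      (Eventually.of_forall hd) hd2 (contDiff_sqd 0).contDiffAt
    rw [sum_pd_sqd_sq, lap_sqd, sub_zero] at h
    exact h
  have hp : ∀ i, pd i (hole ε) x = bump (sqd 0 x / ε ^ 2) / ε ^ 2 * (2 * x i) := fun i => by
    have h : HasFDerivAt (hole ε) _ x := (hd (sqd 0 x)).comp_hasFDerivAt x
      ((contDiff_sqd (m := 2) 0).differentiable (by norm_num) x).hasFDerivAt
    rw [pd, h.fderiv]
    simp [fderiv_sqd, eb, EuclideanSpace.basisFun_apply, EuclideanSpace.inner_single_right]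
  have hsq : sqd 0 x = ‖x‖ ^ 2 := by simp [sqd]
  by_cases hx : 2 * ε ≤ ‖x‖
  · have h2 : 2 < sqd 0 x / ε ^ 2 := by
      rw [hsq, lt_div_iff₀ (by positivity)]; nlinarith
    have hb : bump (sqd 0 x / ε ^ 2) = 0 := bump_eq_zero (Or.inr h2)
    have hb' : deriv bump (sqd 0 x / ε ^ 2) = 0 := by
      have e : bump =ᶠ[𝓝 (sqd 0 x / ε ^ 2)] fun _ => 0 := by
        filter_upwards [Ioi_mem_nhds h2] with t ht using bump_eq_zero (Or.inr ht)
      rw [e.deriv_eq, deriv_const]
    refine ⟨?_, fun i => ?_, fun _ => ⟨by simp [hl, hb, hb'], fun i => by simp [hp, hb],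
      step_one h2.le⟩⟩
    · rw [hl, hb, hb']; simp; positivity
    · rw [hp, hb]; simp; positivity
  · push Not at hx
    have e1 : |deriv bump (sqd 0 x / ε ^ 2)| ≤ |b2| :=
      (Real.norm_eq_abs _ ▸ hb2 _).trans (le_abs_self b2)
    have e2 : bump (sqd 0 x / ε ^ 2) ≤ |b1| := (hb1 _).trans (le_abs_self b1)
    have e0 := bump_nonneg (sqd 0 x / ε ^ 2)
    have e3 : 4 * (‖x‖ ^ 2 / ε ^ 2) ≤ 16 := by
      rw [mul_div_assoc', div_le_iff₀ (by positivity)]; nlinarith [norm_nonneg x]
    refine ⟨?_, fun i => ?_, fun h => absurd h (not_le.2 hx)⟩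
    · have e : lap (hole ε) x = (deriv bump (sqd 0 x / ε ^ 2) * (4 * (‖x‖ ^ 2 / ε ^ 2))
          + bump (sqd 0 x / ε ^ 2) * (2 * n)) / ε ^ 2 := by
        rw [hl]; field_simp
      rw [e, abs_div, abs_of_pos (show (0 : ℝ) < ε ^ 2 by positivity)]
      refine div_le_div_of_nonneg_right ?_ (by positivity)
      refine (abs_add_le _ _).trans ?_
      rw [abs_mul, abs_of_nonneg (show (0 : ℝ) ≤ 4 * (‖x‖ ^ 2 / ε ^ 2) by positivity),
        abs_of_nonneg (mul_nonneg e0 (by positivity : (0 : ℝ) ≤ 2 * n))]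
      refine (add_le_add (mul_le_mul e1 e3 (by positivity) (abs_nonneg _))
        (mul_le_mul_of_nonneg_right e2 (by positivity))).trans ?_
      nlinarith [abs_nonneg b2, abs_nonneg b1, (Nat.cast_nonneg n : (0 : ℝ) ≤ n)]
    · have hxi : |x i| ≤ ‖x‖ := by simpa using PiLp.norm_apply_le x i
      have e : pd i (hole ε) x = bump (sqd 0 x / ε ^ 2) * (2 * (x i / ε)) / ε := by
        rw [hp]; field_simp
      rw [e, abs_div, abs_of_pos hε, abs_mul, abs_of_nonneg e0, abs_mul, abs_two, abs_div,
        abs_of_pos hε]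
      refine div_le_div_of_nonneg_right ?_ hε.le
      have e4 : |x i| / ε ≤ 2 := by rw [div_le_iff₀ hε]; linarith
      refine (mul_le_mul e2 (mul_le_mul_of_nonneg_left e4 (by norm_num)) (by positivity)
        (abs_nonneg _)).trans ?_
      nlinarith [abs_nonneg b2, abs_nonneg b1, (Nat.cast_nonneg n : (0 : ℝ) ≤ n),
        mul_nonneg (Nat.cast_nonneg n : (0 : ℝ) ≤ n) (abs_nonneg b1)]

end Vale.Agent.P100.Feedback
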