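import Vale.Agent.P100.Feedback.Weak
import Mathlib.Analysis.SpecialFunctions.Pow.Continuity

/-!
Pointwise comparison of the two components on a shell.
-/

open Filter Topology Set MeasureTheory

namespace Vale.Agent.P100.Feedback

variable {n : ℕ}

lemma rpow_le_max {a b r A : ℝ} (ha : 0 < a) (har : a ≤ r) (hrb : r ≤ b) :
    r ^ A ≤ max (a ^ A) (b ^ A) := by
  rcases le_total 0 A with hA | hA
  · exact (Real.rpow_le_rpow (ha.le.trans har) hrb hA).trans (le_max_right _ _)
  · exact (Real.rpow_le_rpow_of_nonpos ha har hA).trans (le_max_left _ _)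

lemma min_le_rpow {a b r A : ℝ} (ha : 0 < a) (har : a ≤ r) (hrb : r ≤ b) :
    min (a ^ A) (b ^ A) ≤ r ^ A := by
  rcases le_total 0 A with hA | hA
  · exact (min_le_left _ _).trans (Real.rpow_le_rpow ha.le har hA)
  · exact (min_le_right _ _).trans (Real.rpow_le_rpow_of_nonpos (ha.trans_le har) hrb hA)

/-- A function with `c w^(1+e) ≤ Δw` where it is positive is bounded by a blow-up barrier. -/
lemma le_barrier {w : En n → ℝ} {x₀ : En n} {δ c e : ℝ} (hδ : 0 < δ) (hc : 0 < c) (he : 0 < e)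
    (hw : ∀ y ∈ Metric.closedBall x₀ δ, ContDiffAt ℝ 2 w y)
    (hlap : ∀ y ∈ Metric.closedBall x₀ δ, 0 < w y → c * w y ^ (1 + e) ≤ lap w y) :
    w x₀ * (δ ^ 2) ^ (2 / e) ≤
      ((2 / e * (2 / e + 1) * 4 * δ ^ 2 + 2 / e * (2 * n) * δ ^ 2) / c) ^ e⁻¹ := by
  set k := 2 / e with hk
  have hk0 : 0 < k := by positivity
  set D := k * (k + 1) * 4 * δ ^ 2 + k * (2 * n) * δ ^ 2
  have hD : 0 ≤ D := by positivity
  set X : En n → ℝ := fun y => δ ^ 2 - sqd x₀ y with hX
  set G : En n → ℝ := fun y => w y * X y ^ k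
  have hXc : Continuous X := continuous_const.sub (contDiff_sqd (m := 0) x₀).continuous
  have hGc : ContinuousOn G (Metric.closedBall x₀ δ) := fun y hy =>
    (((hw y hy).continuousAt).mul (hXc.continuousAt.rpow_const (Or.inr hk0.le))).continuousWithinAt
  obtain ⟨z, hz, hmax⟩ := (isCompact_closedBall x₀ δ).exists_isMaxOn
    ⟨x₀, Metric.mem_closedBall_self hδ.le⟩ hGc
  have hx0 : G x₀ = w x₀ * (δ ^ 2) ^ k := by simp [G, hX, sqd]
  rw [← hx0]
  have h0 : G x₀ ≤ G z := hmax (Metric.mem_closedBall_self hδ.le)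
  rcases le_or_gt (G x₀) 0 with h | h
  · exact h.trans (by positivity)
  refine h0.trans ?_
  set M := G z with hM
  have hMpos : 0 < M := h.trans_le h0
  have hXnn : 0 ≤ X z := by
    rw [Metric.mem_closedBall, dist_eq_norm] at hz
    simp only [hX, sqd]; nlinarith [norm_nonneg (z - x₀)]
  have hXz : 0 < X z := hXnn.lt_of_ne fun h' => by
    simp [M, G, ← h', Real.zero_rpow hk0.ne'] at hMpos
  have hzb : z ∈ Metric.ball x₀ δ := by
    rw [Metric.mem_ball, dist_eq_norm]
    simp only [hX, sqd] at hXz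
    nlinarith [norm_nonneg (z - x₀)]
  have hP : ∀ t : ℝ, 0 < δ ^ 2 - t → ∀ a : ℝ, HasDerivAt (fun s => (δ ^ 2 - s) ^ a)
      (-a * (δ ^ 2 - t) ^ (a - 1)) t := fun t ht a => by
    simpa using ((hasDerivAt_id' t).const_sub (δ ^ 2)).rpow_const (p := a) (Or.inl ht.ne')
  set Φ : En n → ℝ := fun y => M * (δ ^ 2 - sqd x₀ y) ^ (-k)
  have hΦ2 : ContDiffAt ℝ 2 Φ z :=
    contDiffAt_const.mul ((contDiffAt_const.sub (contDiff_sqd x₀).contDiffAt).rpow_const_of_ne
      hXz.ne')
  have hloc : IsLocalMax (fun y => w y - Φ y) z := by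
    filter_upwards [Metric.isOpen_ball.mem_nhds hzb,
      hXc.continuousAt.eventually (lt_mem_nhds hXz)] with y hy hy'
    have h1 : G y ≤ M := hmax (Metric.ball_subset_closedBall hy)
    have hwz : w z - Φ z = 0 := by
      show w z - w z * X z ^ k * X z ^ (-k) = 0
      rw [mul_assoc, ← Real.rpow_add hXz, add_neg_cancel, Real.rpow_zero, mul_one, sub_self]
    rw [hwz, sub_nonpos]
    show w y ≤ M * X y ^ (-k)
    rw [Real.rpow_neg hy'.le, ← div_eq_mul_inv, le_div_iff₀ (Real.rpow_pos_of_pos hy' _)]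
    exact h1
  have hneg := lap_nonpos_of_isLocalMax ((hw z hz).sub hΦ2) hloc
  rw [lap_sub (hw z hz) hΦ2, sub_nonpos] at hneg
  have hΦl : lap Φ z = M * (k * (k + 1) * X z ^ (-k - 2) * (4 * ‖z - x₀‖ ^ 2)
      + k * X z ^ (-k - 1) * (2 * n)) := by
    have h := lap_comp (h := sqd x₀) (x := z) (φ := fun t => M * (δ ^ 2 - t) ^ (-k))
      (φ₁ := fun t => M * (k * (δ ^ 2 - t) ^ (-k - 1)))
      (φ₂ := M * (k * ((k + 1) * X z ^ (-k - 2))))
      (by
        filter_upwards [gt_mem_nhds (show sqd x₀ z < δ ^ 2 by simpa [hX] using hXz)] with t ht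
        exact ((hP t (sub_pos.2 ht) (-k)).const_mul M).congr_deriv (by ring))
      ((((hP _ hXz (-k - 1)).const_mul k).const_mul M).congr_deriv (by
        rw [show -k - 1 - 1 = -k - 2 by ring]; ring))
      (contDiff_sqd x₀).contDiffAt
    rw [sum_pd_sqd_sq, lap_sqd] at h
    refine h.trans ?_
    ring
  have hwzv : w z = M * X z ^ (-k) := by
    simp only [M, G, Real.rpow_neg hXz.le]
    field_simp
  have hwpos : 0 < w z := by rw [hwzv]; positivity
  have h1 := (hlap z hz hwpos).trans hneg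
  rw [hΦl, hwzv, Real.mul_rpow hMpos.le (by positivity), ← Real.rpow_mul hXz.le,
    show -k * (1 + e) = -k - 2 by rw [hk]; field_simp; ring] at h1
  have hXd : X z ^ (-k - 1) = X z * X z ^ (-k - 2) := by
    rw [mul_comm, ← Real.rpow_add_one hXz.ne']; ring_nf
  rw [hXd, show M * (k * (k + 1) * X z ^ (-k - 2) * (4 * ‖z - x₀‖ ^ 2)
      + k * (X z * X z ^ (-k - 2)) * (2 * n))
      = X z ^ (-k - 2) * (M * (k * (k + 1) * (4 * ‖z - x₀‖ ^ 2) + k * X z * (2 * n))) by ring,
    show c * (M ^ (1 + e) * X z ^ (-k - 2)) = X z ^ (-k - 2) * (c * M ^ (1 + e)) by ring,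
    Real.rpow_add hMpos, Real.rpow_one] at h1
  have h2 := le_of_mul_le_mul_left h1 (by positivity)
  have h3 : c * M ^ e ≤ D := by
    refine le_of_mul_le_mul_left ((show M * (c * M ^ e) = c * (M * M ^ e) by ring).le.trans
      (h2.trans (mul_le_mul_of_nonneg_left ?_ hMpos.le))) hMpos
    have hzr : ‖z - x₀‖ ^ 2 ≤ δ ^ 2 := by
      simp only [hX, sqd] at hXz; linarith
    have hXle : X z ≤ δ ^ 2 := by simp only [hX, sqd]; linarith [sq_nonneg ‖z - x₀‖]
    have := mul_le_mul_of_nonneg_left hzr (show 0 ≤ k * (k + 1) * 4 by positivity)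
    have := mul_le_mul_of_nonneg_left hXle (show 0 ≤ k * (2 * (n : ℝ)) by positivity)
    simp only [D]
    linarith
  have h4 := Real.rpow_le_rpow (by positivity)
    (show M ^ e ≤ D / c by rw [le_div_iff₀ hc]; linarith) (inv_pos.2 he).le
  rwa [Real.rpow_rpow_inv hMpos.le he.ne'] at h4

/-- Comparison of `v` with a power of `u` on a shell. -/
lemma exists_compare {p q A B : ℝ} (hq : 0 < q) (hqp : q ≤ p) (hpq : 1 < p * q) :
    ∃ C : ℝ, 0 ≤ C ∧ ∀ u v : En n → ℝ, Sol p q A B u v → ∀ x : En n, 3 / 8 ≤ ‖x‖ → ‖x‖ ≤ 3 →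
      v x ^ (p + 1) ≤ C * (u x ^ (q + 1) + 1) := by
  have hp : 0 < p := hq.trans_le hqp
  set s := (q + 1) / (p + 1) with hs
  have hs0 : 0 < s := by positivity
  have hs1 : s ≤ 1 := (div_le_one (by linarith)).2 (by linarith)
  set a := min ((1 / 4 : ℝ) ^ A) (4 ^ A)
  set b := max ((1 / 4 : ℝ) ^ B) (4 ^ B)
  have ha : 0 < a := lt_min (by positivity) (by positivity)
  have hb : 0 < b := lt_max_of_lt_left (by positivity)
  set σ := (2 * b / (s * a)) ^ (p + 1)⁻¹
  have hσ : 0 < σ := by positivity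
  have hσp : σ ^ (p + 1) = 2 * b / (s * a) := Real.rpow_inv_rpow (by positivity) (by linarith)
  set e := (p * q - 1) / (q + 1) with hedef
  have he : 0 < e := div_pos (by linarith) (by linarith)
  set c := σ * s * a / 2 * σ⁻¹ ^ ((s - 1) / s)
  have hc : 0 < c := by positivity
  set δ : ℝ := 1 / 16
  set K := max 0 (((2 / e * (2 / e + 1) * 4 * δ ^ 2 + 2 / e * (2 * n) * δ ^ 2) / c) ^ e⁻¹
    / (δ ^ 2) ^ (2 / e))
  refine ⟨2 ^ (p + 1) * (σ ^ (p + 1) + K ^ (p + 1)), by positivity, fun u v h x hx1 hx2 => ?_⟩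
  set w : En n → ℝ := fun y => v y - σ * u y ^ s with hwdef
  have hmem : ∀ y ∈ Metric.closedBall x δ, 1 / 4 ≤ ‖y‖ ∧ ‖y‖ ≤ 4 ∧ y ≠ 0 := fun y hy => by
    rw [Metric.mem_closedBall, dist_eq_norm] at hy
    have h1 := norm_le_norm_add_norm_sub' y x
    have h2 := norm_le_norm_add_norm_sub' x y
    rw [norm_sub_rev] at h2
    simp only [δ] at hy
    refine ⟨by linarith, by linarith, fun h0 => ?_⟩
    rw [h0, norm_zero] at h2
    simp [h0] at hy
    linarith
  have hw : ∀ y ∈ Metric.closedBall x δ, ContDiffAt ℝ 2 w y := fun y hy =>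
    (h.hv.at (hmem y hy).2.2).sub
      (contDiffAt_const.mul ((h.hu.at (hmem y hy).2.2).rpow_const_of_ne (h.hup y).ne'))
  have hlap : ∀ y ∈ Metric.closedBall x δ, 0 < w y → c * w y ^ (1 + e) ≤ lap w y := by
    intro y hy hwy
    obtain ⟨hy1, hy2, hy0⟩ := hmem y hy
    have hu2 := h.hu.at hy0
    have hpos : ∀ᶠ t in 𝓝 (u y), 0 < t := lt_mem_nhds (h.hup y)
    have hlc := lap_comp (φ := fun t => t ^ s) (φ₁ := fun t => s * t ^ (s - 1))
      (φ₂ := s * ((s - 1) * u y ^ (s - 1 - 1)))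
      (hpos.mono fun t ht => Real.hasDerivAt_rpow_const (Or.inl ht.ne'))
      ((Real.hasDerivAt_rpow_const (Or.inl (h.hup y).ne')).const_mul s) hu2
    have hup := h.hup y
    have hvp := h.hvp y
    have hcat : ContDiffAt ℝ 2 (fun z => u z ^ s) y := hu2.rpow_const_of_ne hup.ne'
    rw [hwdef, lap_sub (h.hv.at hy0) (contDiffAt_const.mul hcat), lap_const_mul hcat, hlc,
      h.e1 y hy0, h.e2 y hy0]
    have t1 : s * ((s - 1) * u y ^ (s - 1 - 1)) * ∑ i, pd i u y ^ 2 ≤ 0 :=
      mul_nonpos_of_nonpos_of_nonneg (mul_nonpos_of_nonneg_of_nonpos hs0.le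
        (mul_nonpos_of_nonpos_of_nonneg (by linarith) (by positivity)))
        (Finset.sum_nonneg fun i _ => sq_nonneg _)
    have t2 : ‖y‖ ^ B * u y ^ q ≤ b * u y ^ q :=
      mul_le_mul_of_nonneg_right (rpow_le_max (by norm_num) hy1 hy2) (by positivity)
    have t3 : σ * (s * u y ^ (s - 1)) * (a * v y ^ p)
        ≤ σ * (s * u y ^ (s - 1)) * (‖y‖ ^ A * v y ^ p) :=
      mul_le_mul_of_nonneg_left (mul_le_mul_of_nonneg_right
        (min_le_rpow (by norm_num) hy1 hy2) (by positivity)) (by positivity)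
    have hlt : σ * u y ^ s < v y := by simp only [hwdef] at hwy; linarith
    have t4 : 2 * b * u y ^ q ≤ σ * (s * u y ^ (s - 1)) * (a * v y ^ p) := by
      have h1 := Real.rpow_le_rpow (by positivity) hlt.le hp.le
      rw [Real.mul_rpow hσ.le (by positivity), ← Real.rpow_mul hup.le] at h1
      refine le_trans (le_of_eq ?_) (mul_le_mul_of_nonneg_left
        (mul_le_mul_of_nonneg_left h1 ha.le) (by positivity))
      have e1 : u y ^ q = u y ^ (s - 1) * u y ^ (s * p) := by
        rw [← Real.rpow_add hup]; congr 1; rw [hs]; field_simp; ring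
      have e2 : 2 * b = σ * σ ^ p * (s * a) := by
        rw [show σ * σ ^ p = σ ^ (p + 1) by rw [Real.rpow_add_one hσ.ne']; ring, hσp]
        field_simp
      rw [e1, e2]; ring
    have t5 : c * (v y - σ * u y ^ s) ^ (1 + e) ≤ σ * (s * u y ^ (s - 1)) * (a * v y ^ p) / 2 := by
      have h1 : (v y - σ * u y ^ s) ^ (1 + e) ≤ v y ^ (1 + e) :=
        have := mul_pos hσ (Real.rpow_pos_of_pos hup s)
        Real.rpow_le_rpow (by linarith) (by linarith) (by linarith)
      have h2 : (σ⁻¹ * v y) ^ ((s - 1) / s) ≤ (u y ^ s) ^ ((s - 1) / s) := by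
        refine Real.rpow_le_rpow_of_nonpos (by positivity) ?_
          (div_nonpos_of_nonpos_of_nonneg (by linarith) hs0.le)
        rw [le_inv_mul_iff₀ hσ]; exact hlt.le
      rw [← Real.rpow_mul hup.le, mul_div_cancel₀ _ hs0.ne', Real.mul_rpow (by positivity) hvp.le]
        at h2
      have e1 : v y ^ (1 + e) = v y ^ ((s - 1) / s) * v y ^ p := by
        rw [← Real.rpow_add hvp]; congr 1; rw [hedef, hs]; field_simp; ring
      refine (mul_le_mul_of_nonneg_left (h1.trans e1.le) hc.le).trans ?_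
      calc c * (v y ^ ((s - 1) / s) * v y ^ p)
          = σ * s * a / 2 * v y ^ p * (σ⁻¹ ^ ((s - 1) / s) * v y ^ ((s - 1) / s)) := by
            simp only [c]; ring
        _ ≤ σ * s * a / 2 * v y ^ p * u y ^ (s - 1) :=
            mul_le_mul_of_nonneg_left h2 (by positivity)
        _ = _ := by ring
    have := mul_nonpos_of_nonneg_of_nonpos hσ.le t1
    linarith
  have hb' := le_barrier (x₀ := x) (δ := δ) (by norm_num [δ]) hc he hw hlap
  have hwx : w x ≤ K := by
    refine le_trans ?_ (le_max_right _ _)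
    rw [le_div_iff₀ (by positivity)]
    exact hb'
  have hK : 0 ≤ K := le_max_left _ _
  have hup := h.hup x
  have hvx : v x ≤ σ * u x ^ s + K := by simp only [hwdef] at hwx; linarith
  have e1 : (u x ^ s) ^ (p + 1) = u x ^ (q + 1) := by
    rw [← Real.rpow_mul hup.le, hs, div_mul_cancel₀ _ (by linarith)]
  set M := max (σ * u x ^ s) K
  have hM : 0 ≤ M := hK.trans (le_max_right _ _)
  calc v x ^ (p + 1) ≤ (2 * M) ^ (p + 1) := Real.rpow_le_rpow (h.hvp x).le
        (by linarith [le_max_left (σ * u x ^ s) K, le_max_right (σ * u x ^ s) K]) (by linarith)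
    _ = 2 ^ (p + 1) * M ^ (p + 1) := Real.mul_rpow (by norm_num) hM
    _ ≤ 2 ^ (p + 1) * ((σ * u x ^ s) ^ (p + 1) + K ^ (p + 1)) := by
        refine mul_le_mul_of_nonneg_left ?_ (by positivity)
        rcases max_choice (σ * u x ^ s) K with h' | h' <;> simp only [M, h']
        · exact le_add_of_nonneg_right (by positivity)
        · exact le_add_of_nonneg_left (by positivity)
    _ ≤ _ := by
        rw [Real.mul_rpow hσ.le (by positivity), e1, mul_assoc]
        refine mul_le_mul_of_nonneg_left ?_ (by positivity)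
        have h1 : 0 ≤ σ ^ (p + 1) := by positivity
        have h2 : 0 ≤ K ^ (p + 1) * u x ^ (q + 1) := by positivity
        nlinarith

end Vale.Agent.P100.Feedback
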