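import Vale.Agent.P100.Feedback.Kernel
import Mathlib.Analysis.Calculus.ContDiff.RCLike
import Mathlib.MeasureTheory.Integral.DominatedConvergence

/-!
Truncated Green identities and the pointwise bounds that follow from them.
-/

open Filter Topology Set MeasureTheory
open scoped ENNReal

namespace Vale.Agent.P100.Feedback

variable {n : ℕ}

/-- The exponent of the regularised kernel. -/
noncomputable def eN (n : ℕ) : ℝ := -((n : ℝ) - 2) / 2

/-- The regularised kernel. -/
noncomputable def reg (ε : ℝ) (z : En n) : ℝ := (‖z‖ ^ 2 + ε ^ 2) ^ eN n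

/-- The truncated regularised kernel centred at `x`. -/
noncomputable def tst (ρ ε : ℝ) (x y : En n) : ℝ :=
  ramp (ρ ^ (n - 2) * reg ε (y - x)) / ρ ^ (n - 2)

/-- The truncated Newtonian kernel. -/
noncomputable def kA (ρ : ℝ) (z : En n) : ℝ :=
  ramp (ρ ^ (n - 2) * gam (n - 2) z) / ρ ^ (n - 2)

/-- The kernel produced by the truncation. -/
noncomputable def kB (ρ : ℝ) (z : En n) : ℝ :=
  ρ ^ (n - 2) * bump (ρ ^ (n - 2) * gam (n - 2) z) * ((n : ℝ) - 2) ^ 2 * gam (2 * n - 2) z

/-- The normalising constant. -/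
noncomputable def cN (n : ℕ) : ℝ :=
  (n : ℝ) * ((n : ℝ) - 2) * ∫ z : En n, ((1 : ℝ) + ‖z‖ ^ 2) ^ (-((n : ℝ) + 2) / 2)

section
variable (hn : 3 ≤ n)
include hn

omit hn in
lemma integrable_bracket : Integrable fun z : En n => ((1 : ℝ) + ‖z‖ ^ 2) ^ (-((n : ℝ) + 2) / 2) :=
  integrable_rpow_neg_one_add_norm_sq (by simp)

lemma cN_pos : 0 < cN n := by
  have h3 : (3 : ℝ) ≤ n := by exact_mod_cast hn
  refine mul_pos (mul_pos (by linarith) (by linarith)) ?_
  refine integral_pos_of_integrable_nonneg_nonzero (x := (0 : En n)) ?_ integrable_bracket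
    (fun z => by positivity) (by simp)
  exact (continuous_const.add (continuous_norm.pow 2)).rpow_const fun z =>
    Or.inl (show (1 : ℝ) + ‖z‖ ^ 2 ≠ 0 by positivity)

lemma eN_neg : eN n < 0 := by
  have h3 : (3 : ℝ) ≤ n := by exact_mod_cast hn
  unfold eN; linarith

lemma sq_rpow_eN {r : ℝ} (hr : 0 ≤ r) : (r ^ 2) ^ eN n = (r ^ (n - 2))⁻¹ := by
  rw [← Real.rpow_natCast r 2, ← Real.rpow_mul hr, ← Real.rpow_natCast r (n - 2),
    ← Real.rpow_neg hr]
  congr 1
  rw [Nat.cast_sub (by omega), eN]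
  push_cast; ring

lemma reg_le_gam (ε : ℝ) {z : En n} (hz : z ≠ 0) : reg ε z ≤ gam (n - 2) z := by
  have h : (0 : ℝ) < ‖z‖ ^ 2 := by positivity
  rw [gam, ← sq_rpow_eN hn (norm_nonneg z)]
  exact Real.rpow_le_rpow_of_nonpos h (by nlinarith) (eN_neg hn).le

lemma reg_small {ρ ε : ℝ} (hρ : 0 < ρ) {z : En n} (hz : ρ ≤ ‖z‖) :
    ρ ^ (n - 2) * reg ε z ≤ 1 := by
  have h1 : reg ε z ≤ gam (n - 2) z := reg_le_gam hn ε (norm_pos_iff.1 (hρ.trans_le hz))
  refine (mul_le_mul_of_nonneg_left h1 (by positivity)).trans ?_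
  rw [gam, ← div_eq_mul_inv, div_le_one (pow_pos (hρ.trans_le hz) _)]
  exact pow_le_pow_left₀ hρ.le hz _

omit hn in
lemma gam_small (m : ℕ) {ρ : ℝ} (hρ : 0 < ρ) {z : En n} (hz : ρ ≤ ‖z‖) :
    ρ ^ m * gam m z ≤ 1 := by
  rw [gam, ← div_eq_mul_inv, div_le_one (pow_pos (hρ.trans_le hz) _)]
  exact pow_le_pow_left₀ hρ.le hz _

omit hn in
lemma reg_pos {ε : ℝ} (hε : 0 < ε) (z : En n) : 0 < reg ε z := by
  unfold reg; positivity

omit hn in
lemma continuous_reg {ε : ℝ} (hε : 0 < ε) : Continuous (reg (n := n) ε) :=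
  ((continuous_norm.pow 2).add continuous_const).rpow_const fun z =>
    Or.inl (show ‖z‖ ^ 2 + ε ^ 2 ≠ 0 by positivity)

omit hn in
lemma contDiff_reg {ε : ℝ} (hε : 0 < ε) {m : WithTop ℕ∞} : ContDiff ℝ m (reg (n := n) ε) :=
  ((contDiff_norm_sq ℝ).add contDiff_const).rpow_const_of_ne fun z => by positivity

omit hn in
lemma contDiff_tst {ρ ε : ℝ} (hε : 0 < ε) (x : En n) : ContDiff ℝ 2 (tst ρ ε x) :=
  (contDiff_ramp.comp (contDiff_const.mul ((contDiff_reg hε).comp
    (contDiff_id.sub contDiff_const)))).div_const _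

lemma tsupport_tst {ρ : ℝ} (hρ : 0 < ρ) (ε : ℝ) (x : En n) :
    tsupport (tst ρ ε x) ⊆ Metric.closedBall x ρ := by
  refine closure_minimal (fun y hy => ?_) Metric.isClosed_closedBall
  by_contra h
  rw [Metric.mem_closedBall, dist_eq_norm, not_le] at h
  exact hy (by simp [tst, ramp_zero (reg_small hn hρ h.le)])

lemma hasCompactSupport_tst {ρ : ℝ} (hρ : 0 < ρ) (ε : ℝ) (x : En n) :
    HasCompactSupport (tst ρ ε x) :=
  (isCompact_closedBall x ρ).of_isClosed_subset (isClosed_tsupport _) (tsupport_tst hn hρ ε x)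

omit hn in
lemma lap_tst {ρ ε : ℝ} (hρ : 0 < ρ) (hε : 0 < ε) (x y : En n) :
    lap (tst ρ ε x) y =
      step (ρ ^ (n - 2) * reg ε (y - x)) *
          (-((n : ℝ) * ((n : ℝ) - 2)) * ε ^ 2 * (‖y - x‖ ^ 2 + ε ^ 2) ^ (eN n - 2))
        + ρ ^ (n - 2) * bump (ρ ^ (n - 2) * reg ε (y - x)) * ((n : ℝ) - 2) ^ 2 *
          (‖y - x‖ ^ 2 * (‖y - x‖ ^ 2 + ε ^ 2) ^ (-(n : ℝ))) := by
  set R := ρ ^ (n - 2) with hR
  have hR0 : 0 < R := by positivity
  have hP : ∀ t : ℝ, 0 < t + ε ^ 2 → ∀ e : ℝ,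
      HasDerivAt (fun s => (s + ε ^ 2) ^ e) (e * (t + ε ^ 2) ^ (e - 1)) t := fun t ht e => by
    simpa using ((hasDerivAt_id t).add_const (ε ^ 2)).rpow_const (p := e) (Or.inl ht.ne')
  have hX : 0 < sqd x y + ε ^ 2 := by unfold sqd; positivity
  have h := lap_comp (h := sqd x) (x := y) (φ := fun t => ramp (R * (t + ε ^ 2) ^ eN n) / R)
    (φ₁ := fun t => step (R * (t + ε ^ 2) ^ eN n) * (eN n * (t + ε ^ 2) ^ (eN n - 1)))
    (φ₂ := bump (R * (sqd x y + ε ^ 2) ^ eN n) * (R * (eN n * (sqd x y + ε ^ 2) ^ (eN n - 1)))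
        * (eN n * (sqd x y + ε ^ 2) ^ (eN n - 1))
      + step (R * (sqd x y + ε ^ 2) ^ eN n) *
        (eN n * ((eN n - 1) * (sqd x y + ε ^ 2) ^ (eN n - 1 - 1))))
    (by
      filter_upwards [Ioi_mem_nhds (show -ε ^ 2 < sqd x y by linarith)] with t ht
      have ht' : 0 < t + ε ^ 2 := by linarith [mem_Ioi.1 ht]
      refine (((hasDerivAt_ramp _).comp t ((hP t ht' _).const_mul R)).div_const R).congr_deriv ?_
      field_simp)
    (((hasDerivAt_step _).comp _ ((hP _ hX _).const_mul R)).mul ((hP _ hX _).const_mul (eN n)))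
    (contDiff_sqd x).contDiffAt
  rw [sum_pd_sqd_sq, lap_sqd] at h
  have e0 : tst ρ ε x = fun y => ramp (R * (sqd x y + ε ^ 2) ^ eN n) / R := rfl
  rw [e0, h]
  simp only [reg, sqd] at hX ⊢
  set X := ‖y - x‖ ^ 2 + ε ^ 2 with hXd
  have e1 : X ^ (eN n - 1 - 1) = X ^ (eN n - 2) := by ring_nf
  have e2 : X ^ (eN n - 1) = X * X ^ (eN n - 2) := by
    have h := Real.rpow_add hX 1 (eN n - 2)
    rw [Real.rpow_one, show 1 + (eN n - 2) = eN n - 1 by ring] at h
    exact h
  have e3 : X ^ (-(n : ℝ)) = X ^ (eN n - 1) * X ^ (eN n - 1) := by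
    rw [← Real.rpow_add hX]
    congr 1
    unfold eN; ring
  rw [e1, e3, e2, hXd]
  unfold eN
  ring

omit hn in
lemma integral_shift_scale (f : En n → ℝ) (x : En n) {ε : ℝ} (hε : 0 < ε) :
    ∫ y, f y = ε ^ n * ∫ z : En n, f (x + ε • z) := by
  rw [Measure.integral_comp_smul volume (fun y => f (x + y)) ε, integral_add_left_eq_self,
    finrank_euclideanSpace_fin, smul_eq_mul, abs_of_pos (inv_pos.2 (pow_pos hε n)),
    ← mul_assoc, mul_inv_cancel₀ (pow_pos hε n).ne', one_mul]

/-- The sequence of regularisation parameters. -/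
noncomputable def epsSeq (k : ℕ) : ℝ := 1 / ((k : ℝ) + 1)

omit hn in
lemma epsSeq_pos (k : ℕ) : 0 < epsSeq k := by unfold epsSeq; positivity

omit hn in
lemma epsSeq_tendsto : Tendsto epsSeq atTop (𝓝 0) := tendsto_one_div_add_atTop_nhds_zero_nat

omit hn in
lemma ae_ne_point [Nontrivial (En n)] (x : En n) : ∀ᵐ y : En n, y ≠ x := by
  rw [ae_iff]; simp

lemma reg_tendsto {z : En n} (hz : z ≠ 0) :
    Tendsto (fun k => reg (epsSeq k) z) atTop (𝓝 (gam (n - 2) z)) := by
  have h : ContinuousAt (fun ε : ℝ => reg ε z) 0 := by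
    refine ContinuousAt.rpow_const (by fun_prop) (Or.inl ?_)
    simp [hz]
  have e : reg 0 z = gam (n - 2) z := by
    simp [reg, gam, sq_rpow_eN hn (norm_nonneg z)]
  exact e ▸ h.tendsto.comp epsSeq_tendsto

lemma gam_near_zero {ρ : ℝ} (hρ : 0 < ρ) :
    ∀ᶠ z : En n in 𝓝 0, z ≠ 0 → 2 < ρ ^ (n - 2) * gam (n - 2) z := by
  have h : ∀ᶠ z : En n in 𝓝 0, ‖z‖ ^ (n - 2) < ρ ^ (n - 2) / 3 :=
    (continuous_norm.pow _).continuousAt.eventually
      (gt_mem_nhds (show ‖(0 : En n)‖ ^ (n - 2) < ρ ^ (n - 2) / 3 by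
        rw [norm_zero, zero_pow (by omega)]; positivity))
  filter_upwards [h] with z hz hz0
  have h0 : 0 < ‖z‖ ^ (n - 2) := pow_pos (norm_pos_iff.2 hz0) _
  rw [gam, ← div_eq_mul_inv, lt_div_iff₀ h0]
  linarith

lemma contDiff_kB {ρ : ℝ} (hρ : 0 < ρ) : ContDiff ℝ 1 (kB (n := n) ρ) := by
  refine contDiff_iff_contDiffAt.2 fun z => ?_
  rcases eq_or_ne z 0 with rfl | hz
  · refine (contDiffAt_const (c := (0 : ℝ))).congr_of_eventuallyEq ?_
    filter_upwards [gam_near_zero hn hρ] with w hw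
    rcases eq_or_ne w 0 with rfl | hw0
    · simp [kB, gam, zero_pow (show 2 * n - 2 ≠ 0 by omega)]
    · simp [kB, bump_eq_zero (Or.inr (hw hw0))]
  · have hg : ∀ m : ℕ, ContDiffAt ℝ 1 (gam m) z := fun m =>
      ((contDiffAt_norm ℝ hz).pow m).inv (pow_ne_zero _ (norm_ne_zero_iff.2 hz))
    exact ((contDiffAt_const.mul (contDiff_bump.contDiffAt.comp z
      (contDiffAt_const.mul (hg _)))).mul contDiffAt_const).mul (hg _)

omit hn in
lemma kB_nonneg {ρ : ℝ} (hρ : 0 < ρ) (z : En n) : 0 ≤ kB ρ z :=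
  mul_nonneg (mul_nonneg (mul_nonneg (by positivity) (bump_nonneg _)) (sq_nonneg _)) (gam_nonneg _ _)

lemma kB_zero {ρ : ℝ} (hρ : 0 < ρ) {z : En n} (hz : ρ < ‖z‖) : kB ρ z = 0 := by
  have h : ρ ^ (n - 2) * gam (n - 2) z < 1 := by
    rw [gam, ← div_eq_mul_inv, div_lt_one (pow_pos (hρ.trans hz) _)]
    exact pow_lt_pow_left₀ hz hρ.le (by omega)
  simp [kB, bump_eq_zero (Or.inl h)]

lemma tsupport_kB {ρ : ℝ} (hρ : 0 < ρ) (x : En n) :
    tsupport (fun y => kB ρ (x - y)) ⊆ Metric.closedBall x ρ := by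
  refine closure_minimal (fun y hy => ?_) Metric.isClosed_closedBall
  by_contra h
  rw [Metric.mem_closedBall, dist_comm, dist_eq_norm, not_le] at h
  exact hy (kB_zero hn hρ h)

/-- The Laplacian of the test kernel tends to the point mass and the truncation kernel. -/
lemma lim_lhs {U : Set (En n)} (hU : IsOpen U) {w : En n → ℝ} (hw : ContinuousOn w U) {ρ : ℝ}
    (hρ : 0 < ρ) {x : En n} (hs : Metric.closedBall x ρ ⊆ U) :
    Tendsto (fun k => ∫ y, w y * lap (tst ρ (epsSeq k) x) y) atTop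
      (𝓝 (-(cN n * w x) + ∫ y, w y * kB ρ (x - y))) := by
  have : Nontrivial (En n) := Module.nontrivial_of_finrank_pos (R := ℝ) (by simp; omega)
  have h3 : (3 : ℝ) ≤ n := by exact_mod_cast hn
  set R := ρ ^ (n - 2) with hR
  have hR0 : 0 < R := by positivity
  obtain ⟨M, hM⟩ := (isCompact_closedBall x ρ).exists_bound_of_continuousOn (hw.mono hs)
  have hxU : x ∈ U := hs (Metric.mem_closedBall_self hρ.le)
  have hM0 : 0 ≤ M := (norm_nonneg _).trans (hM x (Metric.mem_closedBall_self hρ.le))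
  set S : ℕ → En n → ℝ := fun k y => step (R * reg (epsSeq k) (y - x))
  set P : ℕ → En n → ℝ := fun k y => R * bump (R * reg (epsSeq k) (y - x)) * ((n : ℝ) - 2) ^ 2 *
    (‖y - x‖ ^ 2 * (‖y - x‖ ^ 2 + epsSeq k ^ 2) ^ (-(n : ℝ)))
  have hrc : ∀ k, Continuous fun y : En n => R * reg (epsSeq k) (y - x) := fun k =>
    continuous_const.mul ((continuous_reg (epsSeq_pos k)).comp (by fun_prop))
  have hSc : ∀ k, Continuous (S k) := fun k => continuous_step.comp (hrc k)
  have hSs : ∀ k, tsupport (S k) ⊆ Metric.closedBall x ρ := fun k =>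
    closure_minimal (fun y hy => by
      by_contra h
      rw [Metric.mem_closedBall, dist_eq_norm, not_le] at h
      exact hy (step_zero (reg_small hn hρ h.le))) Metric.isClosed_closedBall
  have hPc : ∀ k, Continuous (P k) := fun k =>
    (((continuous_const.mul (contDiff_bump.continuous.comp (hrc k))).mul continuous_const)).mul
      ((by fun_prop : Continuous fun y : En n => ‖y - x‖ ^ 2).mul
        (Continuous.rpow_const (by fun_prop) fun y => Or.inl (by
          have := epsSeq_pos k; positivity)))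
  have hP0 : ∀ k y, ρ < ‖y - x‖ → P k y = 0 := fun k y hy => by
    have h1 : R * reg (epsSeq k) (y - x) < 1 := by
      refine lt_of_le_of_lt (mul_le_mul_of_nonneg_left
        (reg_le_gam hn _ (norm_pos_iff.1 (hρ.trans hy))) hR0.le) ?_
      rw [gam, ← div_eq_mul_inv, div_lt_one (pow_pos (hρ.trans hy) _)]
      exact pow_lt_pow_left₀ hy hρ.le (by omega)
    simp [P, bump_eq_zero (Or.inl h1)]
  have hPs : ∀ k, tsupport (P k) ⊆ Metric.closedBall x ρ := fun k =>
    closure_minimal (fun y hy => by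
      by_contra h
      rw [Metric.mem_closedBall, dist_eq_norm, not_le] at h
      exact hy (hP0 k y h)) Metric.isClosed_closedBall
  -- the point mass
  set J : En n → ℝ := fun z => ((1 : ℝ) + ‖z‖ ^ 2) ^ (eN n - 2)
  have hJ : J = fun z => ((1 : ℝ) + ‖z‖ ^ 2) ^ (-((n : ℝ) + 2) / 2) := by
    funext z; simp only [J, eN]; congr 1; ring
  have hJint : Integrable J := hJ ▸ integrable_bracket
  have hT1 : Tendsto (fun k => ∫ z, w (x + epsSeq k • z) * S k (x + epsSeq k • z) * J z) atTop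
      (𝓝 (∫ z, w x * J z)) := by
    refine tendsto_integral_of_dominated_convergence (fun z => M * J z)
      (fun k => ?_) (hJint.const_mul M) (fun k => Eventually.of_forall fun z => ?_)
      (Eventually.of_forall fun z => ?_)
    · exact (((continuous_mul_supp hU hw (hSc k) ((hSs k).trans hs)).comp
        (by fun_prop : Continuous fun z : En n => x + epsSeq k • z)).aestronglyMeasurable).mul
        hJint.aestronglyMeasurable
    · have hJ0 : 0 ≤ J z := by positivity
      rw [norm_mul, Real.norm_of_nonneg hJ0]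
      refine mul_le_mul_of_nonneg_right ?_ hJ0
      by_cases hmem : x + epsSeq k • z ∈ Metric.closedBall x ρ
      · rw [norm_mul]
        refine (mul_le_mul (hM _ hmem) ?_ (norm_nonneg _) hM0).trans (mul_one M).le
        rw [Real.norm_of_nonneg (step_nonneg _)]; exact step_le_one _
      · rw [image_eq_zero_of_notMem_tsupport fun h => hmem (hSs k h), mul_zero, norm_zero]
        exact hM0
    · have hlim : Tendsto (fun k => x + epsSeq k • z) atTop (𝓝 x) := by
        simpa using tendsto_const_nhds.add (epsSeq_tendsto.smul_const z)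
      refine Tendsto.mul_const _ ?_
      have hone : ∀ᶠ k in atTop, S k (x + epsSeq k • z) = 1 := by
        have hq : Tendsto (fun k => epsSeq k ^ 2 * (1 + ‖z‖ ^ 2)) atTop (𝓝 0) := by
          simpa using ((epsSeq_tendsto.pow 2).mul_const (1 + ‖z‖ ^ 2))
        filter_upwards [hq.eventually (gt_mem_nhds
          (show 0 < (2 / R) ^ (eN n)⁻¹ by positivity))] with k hk
        refine step_one ?_
        have hk0 : 0 < epsSeq k ^ 2 * (1 + ‖z‖ ^ 2) := by
          have := epsSeq_pos k; positivity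
        have h2 := Real.rpow_le_rpow_of_nonpos hk0 hk.le (eN_neg hn).le
        rw [← Real.rpow_mul (by positivity), inv_mul_cancel₀ (eN_neg hn).ne, Real.rpow_one,
          div_le_iff₀ hR0] at h2
        refine h2.trans (le_of_eq ?_)
        rw [reg, add_sub_cancel_left, norm_smul, Real.norm_eq_abs, mul_pow, sq_abs, mul_comm]
        congr 2; ring
      have := ((hw.continuousAt (hU.mem_nhds hxU)).tendsto.comp hlim)
      refine this.congr' ?_
      filter_upwards [hone] with k hk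
      simp [hk]
  -- the truncation kernel
  obtain ⟨Mb, hMb⟩ := exists_bump_le
  set D := M * (R * Mb * ((n : ℝ) - 2) ^ 2 * (2 / R) ^ (((1 : ℝ) - n) / eN n))
  have hT2 : Tendsto (fun k => ∫ y, w y * P k y) atTop (𝓝 (∫ y, w y * kB ρ (x - y))) := by
    refine tendsto_integral_of_dominated_convergence
      ((Metric.closedBall x ρ).indicator fun _ => D)
      (fun k => (continuous_mul_supp hU hw (hPc k) ((hPs k).trans hs)).aestronglyMeasurable)
      ((integrable_indicator_iff measurableSet_closedBall).2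
        (integrableOn_const measure_closedBall_lt_top.ne))
      (fun k => Eventually.of_forall fun y => ?_) ?_
    · by_cases hy : y ∈ Metric.closedBall x ρ
      · rw [Set.indicator_of_mem hy, norm_mul]
        refine mul_le_mul (hM y hy) ?_ (norm_nonneg _) hM0
        set X := ‖y - x‖ ^ 2 + epsSeq k ^ 2 with hX
        have hX0 : 0 < X := by have := epsSeq_pos k; positivity
        have hMb0 : 0 ≤ Mb := (bump_nonneg 0).trans (hMb 0)
        rw [Real.norm_of_nonneg (mul_nonneg (mul_nonneg (mul_nonneg hR0.le (bump_nonneg _))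
          (sq_nonneg _)) (by positivity))]
        by_cases hb : bump (R * reg (epsSeq k) (y - x)) = 0
        · simp only [hb, mul_zero, zero_mul]
          positivity
        · have hle : R * reg (epsSeq k) (y - x) ≤ 2 :=
            le_of_not_gt fun h => hb (bump_eq_zero (Or.inr h))
          have hexp : 0 ≤ ((1 : ℝ) - n) / eN n :=
            div_nonneg_of_nonpos (by linarith) (eN_neg hn).le
          have h1 : ‖y - x‖ ^ 2 * X ^ (-(n : ℝ)) ≤ (2 / R) ^ (((1 : ℝ) - n) / eN n) := by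
            refine (mul_le_mul_of_nonneg_right
              (show ‖y - x‖ ^ 2 ≤ X by nlinarith) (by positivity)).trans ?_
            calc X * X ^ (-(n : ℝ)) = (X ^ eN n) ^ (((1 : ℝ) - n) / eN n) := by
                  rw [← Real.rpow_mul hX0.le, mul_div_cancel₀ _ (eN_neg hn).ne,
                    sub_eq_add_neg, Real.rpow_add hX0, Real.rpow_one]
              _ ≤ _ := Real.rpow_le_rpow (by positivity)
                  (by rw [le_div_iff₀ hR0, mul_comm]; exact hle) hexp
          exact mul_le_mul (mul_le_mul_of_nonneg_right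
            (mul_le_mul_of_nonneg_left (hMb _) hR0.le) (sq_nonneg _)) h1 (by positivity)
            (by positivity)
      · rw [Set.indicator_of_notMem hy]
        rw [Metric.mem_closedBall, dist_eq_norm, not_le] at hy
        simp [hP0 k y hy]
    · filter_upwards [ae_ne_point x] with y hy
      have hz : y - x ≠ 0 := sub_ne_zero.2 hy
      refine Tendsto.const_mul _ ?_
      have e : kB ρ (x - y) = R * bump (R * gam (n - 2) (y - x)) * ((n : ℝ) - 2) ^ 2 *
          (‖y - x‖ ^ 2 * (‖y - x‖ ^ 2) ^ (-(n : ℝ))) := by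
        rw [kB, ← neg_sub, gam_neg, gam_neg, Real.rpow_neg (by positivity), Real.rpow_natCast]
        congr 1
        rw [gam, ← pow_mul, show 2 * n = 2 + (2 * n - 2) by omega, pow_add,
          Nat.add_sub_cancel_left, mul_inv, ← mul_assoc,
          mul_inv_cancel₀ (pow_ne_zero 2 (norm_ne_zero_iff.2 hz)), one_mul]
      rw [e]
      refine Tendsto.mul ((((contDiff_bump.continuous.tendsto _).comp
        ((reg_tendsto hn hz).const_mul R)).const_mul R).mul_const _) (Tendsto.const_mul _ ?_)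
      have : ContinuousAt (fun ε : ℝ => (‖y - x‖ ^ 2 + ε ^ 2) ^ (-(n : ℝ))) 0 :=
        ContinuousAt.rpow_const (by fun_prop) (Or.inl (by simp [hz]))
      simpa [Function.comp_def] using this.tendsto.comp epsSeq_tendsto
  have hkey : ∀ k, ∫ y, w y * lap (tst ρ (epsSeq k) x) y
      = -((n : ℝ) * ((n : ℝ) - 2)) * (∫ z, w (x + epsSeq k • z) * S k (x + epsSeq k • z) * J z)
        + ∫ y, w y * P k y := by
    intro k
    have hε := epsSeq_pos k
    set ε := epsSeq k
    have hc1 : Continuous fun y => w y * (S k y *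
        (-((n : ℝ) * ((n : ℝ) - 2)) * ε ^ 2 * (‖y - x‖ ^ 2 + ε ^ 2) ^ (eN n - 2))) :=
      continuous_mul_supp hU hw ((hSc k).mul (continuous_const.mul
        (Continuous.rpow_const (by fun_prop) fun y => Or.inl (by positivity))))
        ((tsupport_mul_subset_left).trans ((hSs k).trans hs))
    have hk : ∀ f : En n → ℝ, (∀ y, y ∉ Metric.closedBall x ρ → f y = 0) → HasCompactSupport f :=
      fun f hf => HasCompactSupport.intro (isCompact_closedBall x ρ) hf
    simp only [lap_tst hρ hε, mul_add]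
    rw [integral_add (hc1.integrable_of_hasCompactSupport (hk _ fun y hy => by
        simp [show S k y = 0 from
          image_eq_zero_of_notMem_tsupport fun h => hy (hSs k h)]))
      ((continuous_mul_supp hU hw (hPc k) ((hPs k).trans hs)).integrable_of_hasCompactSupport
        (hk _ fun y hy => by
          simp [image_eq_zero_of_notMem_tsupport fun h => hy (hPs k h)]))]
    congr 1
    rw [integral_shift_scale _ x hε, ← integral_const_mul, ← integral_const_mul]
    refine integral_congr_ae (Eventually.of_forall fun z => ?_)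
    simp only [S, J, add_sub_cancel_left, norm_smul, Real.norm_eq_abs, mul_pow, sq_abs]
    rw [show ε ^ 2 * ‖z‖ ^ 2 + ε ^ 2 = ε ^ 2 * (1 + ‖z‖ ^ 2) by ring,
      Real.mul_rpow (by positivity) (by positivity)]
    have e : ε ^ n * (ε ^ 2 * (ε ^ 2) ^ (eN n - 2)) = 1 := by
      rw [← Real.rpow_natCast ε 2, ← Real.rpow_mul hε.le, ← Real.rpow_natCast ε n,
        ← Real.rpow_add hε, ← Real.rpow_add hε]
      refine (congrArg _ ?_).trans (Real.rpow_zero ε)
      unfold eN; push_cast; ring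
    linear_combination (w (x + ε • z) * step (R * reg ε (ε • z)) *
      (-((n : ℝ) * ((n : ℝ) - 2))) * (1 + ‖z‖ ^ 2) ^ (eN n - 2)) * e
  simp only [hkey]
  have := (hT1.const_mul (-((n : ℝ) * ((n : ℝ) - 2)))).add hT2
  rwa [integral_const_mul, show -((n : ℝ) * ((n : ℝ) - 2)) * (w x * ∫ z, J z) = -(cN n * w x) by
    rw [hJ, cN]; ring] at this

lemma kA_nonneg {ρ : ℝ} (hρ : 0 < ρ) (z : En n) : 0 ≤ kA ρ z :=
  div_nonneg (ramp_nonneg _) (by positivity)

omit hn in
lemma kA_le_gam {ρ : ℝ} (hρ : 0 < ρ) (z : En n) : kA ρ z ≤ gam (n - 2) z := by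
  rw [kA, div_le_iff₀ (by positivity), mul_comm (gam (n - 2) z)]
  have h := abs_ramp_sub (ρ ^ (n - 2) * gam (n - 2) z) 0
  have h0 : 0 ≤ ρ ^ (n - 2) * gam (n - 2) z := mul_nonneg (by positivity) (gam_nonneg _ _)
  rw [ramp_zero (zero_le_one' ℝ), sub_zero, sub_zero, abs_of_nonneg (ramp_nonneg _),
    abs_of_nonneg h0] at h
  exact h

omit hn in
lemma kA_zero {ρ : ℝ} (hρ : 0 < ρ) {z : En n} (hz : ρ ≤ ‖z‖) : kA ρ z = 0 := by
  simp [kA, ramp_zero (gam_small (n - 2) hρ hz)]

omit hn in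
lemma abs_kA_sub {ρ : ℝ} (hρ : 0 < ρ) (z w : En n) :
    |kA ρ z - kA ρ w| ≤ |gam (n - 2) z - gam (n - 2) w| := by
  rw [kA, kA, ← sub_div, abs_div, abs_of_pos (pow_pos hρ (n - 2)), div_le_iff₀ (pow_pos hρ _)]
  refine (abs_ramp_sub _ _).trans (le_of_eq ?_)
  rw [← mul_sub, abs_mul, abs_of_pos (pow_pos hρ _), mul_comm]

omit hn in
lemma measurable_kA (ρ : ℝ) : Measurable (kA (n := n) ρ) :=
  (contDiff_ramp.continuous.measurable.comp ((measurable_gam _).const_mul _)).div_const _

end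

end Vale.Agent.P100.Feedback
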