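import Vale.Agent.P100.Feedback.Basic
import Mathlib.Analysis.SpecialFunctions.SmoothTransition
import Mathlib.Analysis.SpecialFunctions.JapaneseBracket
import Mathlib.MeasureTheory.Integral.IntervalIntegral.FundThmCalculus
import Mathlib.Analysis.SpecialFunctions.Pow.Deriv

/-!
The truncated Newtonian kernels.
-/

open Filter Topology Set MeasureTheory
open scoped ENNReal

namespace Vale.Agent.P100.Feedback

variable {n : ℕ}

/-- The inverse power of the norm. -/
noncomputable def gam (m : ℕ) (z : En n) : ℝ := (‖z‖ ^ m)⁻¹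

lemma gam_nonneg (m : ℕ) (z : En n) : 0 ≤ gam m z := by unfold gam; positivity

lemma gam_neg (m : ℕ) (z : En n) : gam m (-z) = gam m z := by simp [gam]

lemma measurable_gam (m : ℕ) : Measurable (gam (n := n) m) := by unfold gam; fun_prop

lemma continuousAt_gam (m : ℕ) {z : En n} (hz : z ≠ 0) : ContinuousAt (gam m) z := by
  unfold gam
  exact (continuous_norm.pow m).continuousAt.inv₀ (pow_ne_zero _ (norm_ne_zero_iff.2 hz))

/-- A singular kernel is dominated by a dyadic series of indicators of balls. -/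
lemma gam_le_tsum (m : ℕ) {R : ℝ} (hR : 0 < R) {z : En n} (hz0 : z ≠ 0) (hz : ‖z‖ < R) :
    ENNReal.ofReal (gam m z) ≤ ∑' j : ℕ, ENNReal.ofReal (2 ^ m * ((R / 2 ^ j) ^ m)⁻¹) *
      (Metric.ball (0 : En n) (R / 2 ^ j)).indicator 1 z := by
  have hn0 : 0 < ‖z‖ := norm_pos_iff.2 hz0
  obtain ⟨j, hj1, hj2⟩ : ∃ j : ℕ, R / 2 ^ (j + 1) ≤ ‖z‖ ∧ ‖z‖ < R / 2 ^ j := by
    have hex : ∃ j : ℕ, R / 2 ^ (j + 1) ≤ ‖z‖ := by
      obtain ⟨j, hj⟩ := pow_unbounded_of_one_lt (R / ‖z‖) (one_lt_two (α := ℝ))
      refine ⟨j, ?_⟩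
      rw [div_lt_iff₀ hn0] at hj
      rw [div_le_iff₀ (by positivity), pow_succ]
      nlinarith [show (0 : ℝ) < 2 ^ j by positivity]
    classical
    refine ⟨Nat.find hex, Nat.find_spec hex, ?_⟩
    rcases Nat.eq_zero_or_pos (Nat.find hex) with h | h
    · rw [h]; simpa using hz
    · have := Nat.find_min hex (Nat.pred_lt h.ne')
      rw [Nat.pred_eq_sub_one, Nat.sub_add_cancel h] at this
      exact not_le.1 this
  refine le_trans ?_ (ENNReal.le_tsum j)
  rw [Set.indicator_of_mem (by simpa using hj2), Pi.one_apply, mul_one]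
  refine ENNReal.ofReal_le_ofReal ?_
  rw [gam, ← div_eq_mul_inv, inv_eq_one_div, div_le_div_iff₀ (by positivity) (by positivity),
    one_mul, ← mul_pow]
  refine pow_le_pow_left₀ (by positivity) ?_ m
  rw [pow_succ, ← div_div, div_le_iff₀ two_pos] at hj1
  linarith

lemma integrableOn_gam {m : ℕ} (hm : m < n) (R : ℝ) :
    IntegrableOn (gam (n := n) m) (Metric.closedBall 0 R) := by
  set R' := |R| + 1 with hR'
  have hR0 : 0 < R' := by positivity
  refine ⟨(measurable_gam m).aestronglyMeasurable, ?_⟩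
  rw [hasFiniteIntegral_iff_ofReal (Eventually.of_forall (gam_nonneg m))]
  have hne : ({(0 : En n)}ᶜ : Set (En n)) ∈ ae (volume : Measure (En n)) := by
    rw [mem_ae_iff, compl_compl]
    have : Nontrivial (En n) := Module.nontrivial_of_finrank_pos (R := ℝ) (by simp; omega)
    exact measure_singleton _
  have hfin : (∑' j : ℕ, ENNReal.ofReal (2 ^ m * ((R' / 2 ^ j) ^ m)⁻¹) *
      volume (Metric.ball (0 : En n) (R' / 2 ^ j))) ≠ ∞ := by
    have hb : ∀ j : ℕ, ENNReal.ofReal (2 ^ m * ((R' / 2 ^ j) ^ m)⁻¹) *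
        volume (Metric.ball (0 : En n) (R' / 2 ^ j))
        = ENNReal.ofReal (2 ^ m * R' ^ (n - m)) * volume (Metric.ball (0 : En n) 1)
          * (ENNReal.ofReal ((1 / 2) ^ (n - m))) ^ j := fun j => by
      rw [Measure.addHaar_ball_of_pos _ _ (by positivity), finrank_euclideanSpace_fin,
        ← ENNReal.ofReal_pow (by positivity), ← mul_assoc, ← ENNReal.ofReal_mul (by positivity),
        mul_right_comm (ENNReal.ofReal _) (volume _), ← ENNReal.ofReal_mul (by positivity)]
      congr 2
      rw [← pow_mul, mul_comm (n - m) j, pow_mul, one_div, inv_pow, mul_assoc, mul_assoc]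
      congr 1
      rw [← mul_pow, ← div_eq_mul_inv R']
      obtain ⟨k, rfl⟩ : ∃ k, n = m + k := ⟨n - m, by omega⟩
      rw [Nat.add_sub_cancel_left, pow_add, inv_mul_cancel_left₀ (by positivity)]
    simp only [hb]
    rw [ENNReal.tsum_mul_left]
    refine ENNReal.mul_ne_top (ENNReal.mul_ne_top ENNReal.ofReal_ne_top measure_ball_lt_top.ne) ?_
    rw [ENNReal.tsum_geometric, ENNReal.inv_ne_top, ne_eq, tsub_eq_zero_iff_le, not_le,
      ENNReal.ofReal_lt_one]
    exact pow_lt_one₀ (by norm_num) (by norm_num) (by omega)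
  refine lt_of_le_of_lt ?_ (lt_top_iff_ne_top.2 hfin)
  calc ∫⁻ z in Metric.closedBall (0 : En n) R, ENNReal.ofReal (gam m z)
      ≤ ∫⁻ z in Metric.closedBall (0 : En n) R, ∑' j : ℕ,
        ENNReal.ofReal (2 ^ m * ((R' / 2 ^ j) ^ m)⁻¹) *
          (Metric.ball (0 : En n) (R' / 2 ^ j)).indicator 1 z := by
        refine setLIntegral_mono_ae' measurableSet_closedBall ?_
        filter_upwards [hne] with z hz0 hz
        refine gam_le_tsum m hR0 hz0 ?_
        rw [Metric.mem_closedBall, dist_zero_right] at hz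
        linarith [le_abs_self R]
    _ ≤ ∫⁻ z, ∑' j : ℕ, ENNReal.ofReal (2 ^ m * ((R' / 2 ^ j) ^ m)⁻¹) *
          (Metric.ball (0 : En n) (R' / 2 ^ j)).indicator 1 z := setLIntegral_le_lintegral _ _
    _ = _ := by
        rw [lintegral_tsum fun j =>
          ((measurable_one.indicator measurableSet_ball).const_mul _).aemeasurable]
        exact tsum_congr fun j => by
          rw [lintegral_const_mul _ (measurable_one.indicator measurableSet_ball),
            lintegral_indicator_one measurableSet_ball]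

lemma abs_inv_pow_sub {a b : ℝ} (ha : 0 < a) (hb : 0 < b) (m : ℕ) :
    |(a ^ m)⁻¹ - (b ^ m)⁻¹| ≤ m * |a - b| * ((a ^ (m + 1))⁻¹ + (b ^ (m + 1))⁻¹) := by
  rcases m with _ | k
  · simp
  have key : ∀ {a b : ℝ}, 0 < a → a ≤ b →
      |(a ^ (k + 1))⁻¹ - (b ^ (k + 1))⁻¹| ≤ (k + 1 : ℕ) * |a - b| * (a ^ (k + 1 + 1))⁻¹ := by
    intro a b ha hab
    have hb : 0 < b := ha.trans_le hab
    have h1 : b ^ (k + 1) - a ^ (k + 1) ≤ (k + 1 : ℕ) * (b - a) * b ^ k := by
      have := abs_pow_sub_pow_le b a (k + 1)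
      rw [abs_of_nonneg (sub_nonneg.2 hab), abs_of_pos hb, abs_of_pos ha, max_eq_left hab,
        Nat.add_sub_cancel] at this
      calc b ^ (k + 1) - a ^ (k + 1) ≤ |b ^ (k + 1) - a ^ (k + 1)| := le_abs_self _
        _ ≤ (b - a) * (k + 1 : ℕ) * b ^ k := this
        _ = _ := by ring
    have h2 : (a ^ (k + 1))⁻¹ - (b ^ (k + 1))⁻¹
        = (b ^ (k + 1) - a ^ (k + 1)) / (a ^ (k + 1) * b ^ (k + 1)) := by field_simp
    have h0 : 0 ≤ b ^ (k + 1) - a ^ (k + 1) := sub_nonneg.2 (pow_le_pow_left₀ ha.le hab _)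
    rw [h2, abs_of_nonneg (by positivity), abs_of_nonpos (sub_nonpos.2 hab), neg_sub]
    rw [← div_eq_mul_inv, div_le_div_iff₀ (by positivity) (by positivity)]
    calc (b ^ (k + 1) - a ^ (k + 1)) * a ^ (k + 1 + 1)
        ≤ ((k + 1 : ℕ) * (b - a) * b ^ k) * a ^ (k + 1 + 1) :=
          mul_le_mul_of_nonneg_right h1 (by positivity)
      _ = ((k + 1 : ℕ) * (b - a) * a ^ (k + 1) * b ^ k) * a := by ring
      _ ≤ ((k + 1 : ℕ) * (b - a) * a ^ (k + 1) * b ^ k) * b :=
          mul_le_mul_of_nonneg_left hab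
            (mul_nonneg (mul_nonneg (mul_nonneg (by positivity) (sub_nonneg.2 hab))
              (by positivity)) (by positivity))
      _ = _ := by ring
  rcases le_total a b with h | h
  · exact (key ha h).trans (mul_le_mul_of_nonneg_left (le_add_of_nonneg_right (by positivity))
      (by positivity))
  · rw [abs_sub_comm ((a ^ (k + 1))⁻¹), abs_sub_comm a b]
    exact (key hb h).trans (mul_le_mul_of_nonneg_left (le_add_of_nonneg_left (by positivity))
      (by positivity))

lemma abs_gam_sub (m : ℕ) {z w : En n} (hz : z ≠ 0) (hw : w ≠ 0) :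
    |gam m z - gam m w| ≤ m * ‖z - w‖ * (gam (m + 1) z + gam (m + 1) w) :=
  (abs_inv_pow_sub (norm_pos_iff.2 hz) (norm_pos_iff.2 hw) m).trans
    (mul_le_mul_of_nonneg_right (mul_le_mul_of_nonneg_left (abs_norm_sub_norm_le z w)
      (Nat.cast_nonneg m)) (add_nonneg (gam_nonneg _ _) (gam_nonneg _ _)))

/-! ### The profile -/

/-- A smooth step from `0` to `1` on `[1, 2]`. -/
noncomputable def step (t : ℝ) : ℝ := Real.smoothTransition (t - 1)

lemma contDiff_step {m : ℕ∞} : ContDiff ℝ m step :=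
  Real.smoothTransition.contDiff.comp (contDiff_id.sub contDiff_const)

lemma continuous_step : Continuous step := (contDiff_step (m := 0)).continuous

lemma step_nonneg (t : ℝ) : 0 ≤ step t := Real.smoothTransition.nonneg _

lemma step_le_one (t : ℝ) : step t ≤ 1 := Real.smoothTransition.le_one _

lemma step_zero {t : ℝ} (h : t ≤ 1) : step t = 0 :=
  Real.smoothTransition.zero_of_nonpos (by linarith)

lemma step_one {t : ℝ} (h : 2 ≤ t) : step t = 1 :=
  Real.smoothTransition.one_of_one_le (by linarith)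

lemma step_monotone : Monotone step :=
  Real.smoothTransition.monotone.comp fun _ _ h => by linarith

/-- The derivative of the step. -/
noncomputable def bump (t : ℝ) : ℝ := deriv step t

lemma hasDerivAt_step (t : ℝ) : HasDerivAt step (bump t) t :=
  ((contDiff_step (m := 1)).differentiable (by simp) t).hasDerivAt

lemma contDiff_bump : ContDiff ℝ 1 bump := by
  have h : ContDiff ℝ ((1 : WithTop ℕ∞) + 1) step := by exact_mod_cast contDiff_step (m := 2)
  exact (contDiff_succ_iff_deriv.1 h).2.2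

lemma bump_nonneg (t : ℝ) : 0 ≤ bump t := step_monotone.deriv_nonneg

lemma bump_eq_zero {t : ℝ} (h : t < 1 ∨ 2 < t) : bump t = 0 := by
  rcases h with h | h
  · have e : step =ᶠ[𝓝 t] fun _ => 0 := by
      filter_upwards [Iio_mem_nhds h] with x hx using step_zero (le_of_lt hx)
    rw [bump, e.deriv_eq, deriv_const]
  · have e : step =ᶠ[𝓝 t] fun _ => 1 := by
      filter_upwards [Ioi_mem_nhds h] with x hx using step_one (le_of_lt hx)
    rw [bump, e.deriv_eq, deriv_const]

lemma exists_bump_le : ∃ M, ∀ t, bump t ≤ M := by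
  obtain ⟨M, hM⟩ := contDiff_bump.continuous.bounded_above_of_compact_support
    (HasCompactSupport.intro (isCompact_Icc (a := (1 : ℝ)) (b := 2)) fun t ht => by
      refine bump_eq_zero ?_
      rw [mem_Icc, not_and_or, not_le, not_le] at ht
      exact ht)
  exact ⟨M, fun t => (le_abs_self _).trans (hM t)⟩

/-- The antiderivative of the step. -/
noncomputable def ramp (t : ℝ) : ℝ := ∫ x in (0 : ℝ)..t, step x

lemma hasDerivAt_ramp (t : ℝ) : HasDerivAt ramp (step t) t :=
  continuous_step.integral_hasStrictDerivAt 0 t |>.hasDerivAt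

lemma contDiff_ramp : ContDiff ℝ 2 ramp := by
  have h : deriv ramp = step := funext fun t => (hasDerivAt_ramp t).deriv
  rw [show (2 : WithTop ℕ∞) = 1 + 1 by norm_num]
  refine contDiff_succ_iff_deriv.2 ⟨fun t => (hasDerivAt_ramp t).differentiableAt, by simp, ?_⟩
  rw [h]; exact contDiff_step

lemma abs_ramp_sub (a b : ℝ) : |ramp a - ramp b| ≤ |a - b| := by
  have h := Convex.norm_image_sub_le_of_norm_hasDerivWithin_le (f := ramp) (C := 1)
    (fun x _ => (hasDerivAt_ramp x).hasDerivWithinAt) (fun x _ => by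
      rw [Real.norm_eq_abs, abs_of_nonneg (step_nonneg x)]; exact step_le_one x)
    convex_univ (mem_univ b) (mem_univ a)
  simpa using h

lemma ramp_zero {t : ℝ} (h : t ≤ 1) : ramp t = 0 := by
  refine (intervalIntegral.integral_congr fun x hx => ?_).trans intervalIntegral.integral_zero
  refine step_zero ?_
  rcases le_total 0 t with h0 | h0
  · rw [uIcc_of_le h0] at hx; linarith [hx.2]
  · rw [uIcc_of_ge h0] at hx; linarith [hx.2]

lemma ramp_mono : Monotone ramp :=
  monotone_of_deriv_nonneg (fun t => (hasDerivAt_ramp t).differentiableAt) fun t => by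
    rw [(hasDerivAt_ramp t).deriv]; exact step_nonneg t

lemma ramp_nonneg (t : ℝ) : 0 ≤ ramp t := by
  rcases le_total t 1 with h | h
  · rw [ramp_zero h]
  · exact (ramp_zero le_rfl).ge.trans (ramp_mono h)

lemma sub_two_le_ramp (t : ℝ) : t - 2 ≤ ramp t := by
  rcases le_total t 2 with h | h
  · linarith [ramp_nonneg t]
  · have := Convex.mul_sub_le_image_sub_of_le_deriv (convex_Ici (2 : ℝ))
      (fun x _ => (hasDerivAt_ramp x).continuousAt.continuousWithinAt)
      (fun x _ => (hasDerivAt_ramp x).differentiableAt.differentiableWithinAt) (C := 1)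
      (fun x hx => by
        rw [interior_Ici] at hx
        rw [(hasDerivAt_ramp x).deriv, step_one (le_of_lt hx)]) 2 self_mem_Ici t h h
    linarith [ramp_nonneg 2]

end Vale.Agent.P100.Feedback
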