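import Vale.Agent.P100.Feedback.Spheres
import Vale.Agent.P100.Fourth.Calc

/-!
The feedback inequality, its iteration, and the Liouville theorem.
-/

open Filter Topology Set MeasureTheory
open scoped ENNReal Pointwise

namespace Vale.Agent.P100.Feedback

variable {n : ℕ}

lemma exists_exponents (hn : 3 ≤ n) {p q : ℝ} (hq : 0 < q) (hqp : q ≤ p) (hpq : 1 < p * q)
    (hexp : ((n : ℝ) - 3) * (p * q - 1) < 2 * (p + 1)) :
    ∃ z1 z2 w1 w2 : ℝ, 0 ≤ z1 ∧ 0 ≤ z2 ∧ z1 ≤ 1 / (p + 1) ∧ z2 ≤ 1 / (q + 1) ∧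
      1 / (q + 1) ≤ 1 - z1 ∧ z1 * (p * (q + 1)) < 1 ∧
      (n : ℝ) - 2 < ((n : ℝ) - 1) * (z1 + 1 / (q + 1)) + 1 ∧
      0 < w1 ∧ 0 < w2 ∧ w1 + w2 = 1 ∧ w1 ≤ 1 - z1 ∧ w2 ≤ 1 - z2 ∧
      (n : ℝ) - 1 < ((n : ℝ) - 1) * (z1 + w1) + 1 ∧ (n : ℝ) - 1 < ((n : ℝ) - 1) * (z2 + w2) + 1 ∧
      p * z1 + q * z2 < 1 := by
  have hn3 : (3 : ℝ) ≤ n := by exact_mod_cast hn
  have hp : 0 < p := hq.trans_le hqp
  set N := (n : ℝ) - 1 with hNdef
  have hN : 0 < N := by linarith
  set c := ((n : ℝ) - 3) / N with hcdef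
  have hcN : c * N = (n : ℝ) - 3 := div_mul_cancel₀ _ hN.ne'
  have hc : 0 ≤ c := div_nonneg (by linarith) hN.le
  set Q := 1 / (q + 1) with hQdef
  have hQ : 0 < Q := by positivity
  have hQq : Q * (q + 1) = 1 := div_mul_cancel₀ _ (by linarith)
  set M := max 0 (c - Q) with hM
  have hMp : M * (p * (q + 1)) < 1 := by
    rcases max_choice 0 (c - Q) with h | h <;> rw [hM, h]
    · simp
    · have e : (c - Q) * (p * (q + 1)) * N = ((n : ℝ) - 3) * (p * (q + 1)) - p * N := by
        have e1 : (c - Q) * (p * (q + 1)) * N = c * N * (p * (q + 1)) - Q * (q + 1) * (p * N) := by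
          ring
        rw [e1, hcN, hQq, one_mul]
      have h2 : ((n : ℝ) - 3) * (p * (q + 1)) - p * N < N := by
        rw [hNdef]; nlinarith
      rw [← e] at h2
      exact (mul_lt_iff_lt_one_left hN).1 h2
  set U := min (1 / (p * (q + 1))) (M + 1 / N) with hU
  have hMU : M < U := lt_min (by rw [lt_div_iff₀ (by positivity)]; exact hMp)
    (lt_add_of_pos_right _ (by positivity))
  set z1 := (M + U) / 2 with hz1
  have hMz : M < z1 := by rw [hz1]; linarith
  have hzU : z1 < U := by rw [hz1]; linarith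
  have hM0 : 0 ≤ M := le_max_left _ _
  have hMc : c - Q ≤ M := le_max_right _ _
  have hMle : M ≤ c := max_le hc (by linarith)
  have hz1p : z1 * (p * (q + 1)) < 1 := by
    have := hzU.trans_le (min_le_left _ _)
    rwa [lt_div_iff₀ (by positivity)] at this
  have hz1N : z1 < M + 1 / N := hzU.trans_le (min_le_right _ _)
  set z2 := min Q c
  have hz2Q : z2 ≤ Q := min_le_left _ _
  have hz2c : z2 ≤ c := min_le_right _ _
  have hsum : c < z1 + z2 := by
    rcases min_choice Q c with h | h <;> simp only [z2, h] <;> linarith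
  have hdiff : z1 + z2 - c < 1 / N := by
    rcases max_choice 0 (c - Q) with h | h <;> rw [← hM] at h <;> linarith
  set η := (z1 + z2 - c) / 2 with hηd
  set e := ((n : ℝ) - 2) / N with hedef
  have he : e + e = c + 1 := by
    rw [hedef, hcdef]; field_simp; rw [hNdef]; ring
  have he1 : e + 1 / N = 1 := by
    rw [hedef]; field_simp; rw [hNdef]; ring
  have heN : e * N = (n : ℝ) - 2 := div_mul_cancel₀ _ hN.ne'
  have hN1 : 1 / N * N = 1 := div_mul_cancel₀ _ hN.ne'
  refine ⟨z1, z2, e - z1 + η, e - z2 + η, by linarith, le_min hQ.le hc, ?_, hz2Q, ?_, hz1p, ?_,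
    ?_, ?_, by linarith, by linarith, by linarith, ?_, ?_, ?_⟩
  · rw [le_div_iff₀ (by linarith)]
    have h1 : z1 * (p + 1) ≤ z1 * (p * (q + 1)) :=
      mul_le_mul_of_nonneg_left (by nlinarith) (by linarith)
    linarith
  · have h1 : z1 ≤ 1 / (p * (q + 1)) := by rw [le_div_iff₀ (by positivity)]; linarith
    have h2 : 1 / (p * (q + 1)) ≤ q / (q + 1) := by
      rw [div_le_div_iff₀ (by positivity) (by linarith)]; nlinarith
    have h3 : Q + q / (q + 1) = 1 := by rw [hQdef]; field_simp; ring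
    linarith
  · have h1 : c * N < (z1 + Q) * N := mul_lt_mul_of_pos_right (by linarith) hN
    rw [hcN] at h1; linarith
  · rcases max_choice 0 (c - Q) with h | h <;> rw [← hM] at h <;> linarith
  · linarith
  · have h1 : e * N < (z1 + (e - z1 + η)) * N := mul_lt_mul_of_pos_right (by linarith) hN
    rw [heN] at h1; linarith
  · have h1 : e * N < (z2 + (e - z2 + η)) * N := mul_lt_mul_of_pos_right (by linarith) hN
    rw [heN] at h1; linarith
  · have h1 : p * z1 < Q := by
      rw [hQdef, lt_div_iff₀ (by linarith)]; linarith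
    have h2 := mul_le_mul_of_nonneg_left hz2Q hq.le
    have h3 : Q + q * Q = 1 := by linarith
    linarith

lemma exists_mem_le {Y : Fin 3 → ℝ → ℝ≥0∞} {R : Fin 3 → ℝ} {t δ : ℝ} (hδ : 0 < δ)
    (hR : ∀ i, 0 < R i) (hY : ∀ i, Measurable (Y i))
    (hle : ∀ i, ∫⁻ r in Icc t (t + δ), Y i r ≤ ENNReal.ofReal (R i)) :
    ∃ r ∈ Icc t (t + δ), ∀ i, Y i r ≤ ENNReal.ofReal (4 / δ * R i) := by
  by_contra hc
  push Not at hc
  set c : Fin 3 → ℝ≥0∞ := fun i => (ENNReal.ofReal (R i))⁻¹
  have hc0 : ∀ i, ENNReal.ofReal (R i) ≠ 0 := fun i => (ENNReal.ofReal_pos.2 (hR i)).ne'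
  have hlow : ∀ r ∈ Icc t (t + δ), ENNReal.ofReal (4 / δ) ≤ ∑ i, c i * Y i r := fun r hr => by
    obtain ⟨i, hi⟩ := hc r hr
    refine le_trans ?_ (Finset.single_le_sum (fun j _ => (zero_le : 0 ≤ c j * Y j r)) (Finset.mem_univ i))
    calc ENNReal.ofReal (4 / δ)
        = c i * ENNReal.ofReal (4 / δ * R i) := by
          simp only [c]
          rw [ENNReal.ofReal_mul (by positivity), mul_left_comm,
            ENNReal.inv_mul_cancel (hc0 i) ENNReal.ofReal_ne_top, mul_one]
      _ ≤ _ := mul_le_mul' le_rfl hi.le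
  have h1 : ENNReal.ofReal 4 ≤ 3 := by
    calc ENNReal.ofReal 4 = ∫⁻ _ in Icc t (t + δ), ENNReal.ofReal (4 / δ) := by
          rw [setLIntegral_const, Real.volume_Icc, ← ENNReal.ofReal_mul (by positivity)]
          congr 1; field_simp; ring
      _ ≤ ∫⁻ r in Icc t (t + δ), ∑ i, c i * Y i r := setLIntegral_mono' measurableSet_Icc hlow
      _ = ∑ i, c i * ∫⁻ r in Icc t (t + δ), Y i r := by
          rw [lintegral_finsetSum _ fun i _ => (hY i).const_mul _]
          exact Finset.sum_congr rfl fun i _ => lintegral_const_mul _ (hY i)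
      _ ≤ ∑ _i : Fin 3, (1 : ℝ≥0∞) := Finset.sum_le_sum fun i _ => by
          simp only [c]
          exact (mul_le_mul' le_rfl (hle i)).trans
            (ENNReal.inv_mul_cancel (hc0 i) ENNReal.ofReal_ne_top).le
      _ = 3 := by simp
  rw [show (4 : ℝ) = (4 : ℕ) by norm_num, ENNReal.ofReal_natCast] at h1
  norm_num at h1

/-- The spherical power integral of a function dominated by a potential. -/
lemma exists_lift (hn : 3 ≤ n) (m : ℕ) {P z w : ℝ} (hP : 0 ≤ P) (hz : 0 ≤ z) (hz1 : z < 1)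
    (hw : 0 < w) (C K : ℝ) (hC : 0 ≤ C) (hK : 0 ≤ K) :
    ∃ C' N : ℝ, 0 ≤ C' ∧ 0 ≤ N ∧ ∀ (g f : En n → ℝ≥0∞) (δ F r : ℝ), 0 < δ → δ ≤ 1 → 0 ≤ F →
      Measurable g →
      (∀ θ : sph n, f (r • (θ : En n)) ≤
        ENNReal.ofReal C * (pot m g (r • (θ : En n)) + ENNReal.ofReal (δ⁻¹ ^ (n + 1)))) →
      (∫⁻ θ, pot m g (r • (θ : En n)) ^ (1 / w) ∂sig n) ^ (w / (1 - z))
        ≤ ENNReal.ofReal (K * δ⁻¹ * (1 + F) ^ (P * z / (1 - z))) →
      ∫⁻ θ, f (r • (θ : En n)) ^ (1 / w) ∂sig n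
        ≤ ENNReal.ofReal (C' * δ⁻¹ ^ N * (1 + F) ^ (P * z / w)) := by
  have h2 : 0 < 1 - z := by linarith
  set e := (1 - z) / w with hedef
  have he : 0 < e := by positivity
  set l := 1 / w with hl
  have hl0 : 0 < l := by positivity
  set S := (sig n).real univ
  have hS : 0 ≤ S := measureReal_nonneg
  refine ⟨(2 * C) ^ l * (K ^ e + S), max e (((n : ℝ) + 1) * l), by positivity,
    le_max_of_le_left he.le, fun g f δ F r hδ hδ1 hF hg hf hI => ?_⟩
  have hD1 : 1 ≤ δ⁻¹ := (one_le_inv₀ hδ).2 hδ1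
  set D := δ⁻¹ ^ max e (((n : ℝ) + 1) * l)
  have hI' : ∫⁻ θ, pot m g (r • (θ : En n)) ^ l ∂sig n
      ≤ ENNReal.ofReal (K ^ e * D * (1 + F) ^ (P * z / w)) := by
    have h1 := ENNReal.rpow_le_rpow hI he.le
    rw [← ENNReal.rpow_mul, show w / (1 - z) * e = 1 by rw [hedef]; field_simp, ENNReal.rpow_one,
      ENNReal.ofReal_rpow_of_nonneg (by positivity) he.le] at h1
    refine h1.trans (ENNReal.ofReal_le_ofReal ?_)
    rw [Real.mul_rpow (by positivity) (by positivity), Real.mul_rpow hK (by positivity),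
      ← Real.rpow_mul (by linarith), show P * z / (1 - z) * e = P * z / w by
        rw [hedef]; field_simp]
    exact mul_le_mul_of_nonneg_right (mul_le_mul_of_nonneg_left
      (Real.rpow_le_rpow_of_exponent_le hD1 (le_max_left _ _)) (by positivity)) (by positivity)
  have hmeas : Measurable fun θ : sph n => pot m g (r • (θ : En n)) :=
    (measurable_pot m hg).comp (by fun_prop)
  calc ∫⁻ θ, f (r • (θ : En n)) ^ l ∂sig n
      ≤ ∫⁻ θ, ENNReal.ofReal ((2 * C) ^ l) * (pot m g (r • (θ : En n)) ^ l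
          + ENNReal.ofReal (δ⁻¹ ^ (n + 1)) ^ l) ∂sig n := by
        refine lintegral_mono fun θ => ?_
        refine (ENNReal.rpow_le_rpow (hf θ) hl0.le).trans ?_
        set a := pot m g (r • (θ : En n))
        set b := ENNReal.ofReal (δ⁻¹ ^ (n + 1))
        have hab : a + b ≤ 2 * max a b := by
          rw [two_mul]; exact add_le_add (le_max_left _ _) (le_max_right _ _)
        refine (ENNReal.rpow_le_rpow (mul_le_mul' le_rfl hab) hl0.le).trans ?_
        rw [← mul_assoc, show ENNReal.ofReal C * 2 = ENNReal.ofReal (2 * C) by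
          rw [ENNReal.ofReal_mul two_pos.le, mul_comm]; simp,
          ENNReal.mul_rpow_of_nonneg _ _ hl0.le,
          ENNReal.ofReal_rpow_of_nonneg (by positivity) hl0.le]
        refine mul_le_mul' le_rfl ?_
        rcases max_choice a b with h | h <;> rw [h]
        · exact le_self_add
        · exact le_add_self
    _ = ENNReal.ofReal ((2 * C) ^ l) * ((∫⁻ θ, pot m g (r • (θ : En n)) ^ l ∂sig n)
          + ENNReal.ofReal ((δ⁻¹ ^ (n + 1)) ^ l * S)) := by
        rw [lintegral_const_mul' _ _ ENNReal.ofReal_ne_top,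
          lintegral_add_right _ measurable_const, lintegral_const,
          ENNReal.ofReal_rpow_of_nonneg (by positivity) hl0.le, ← ofReal_measureReal,
          ← ENNReal.ofReal_mul (by positivity)]
    _ ≤ ENNReal.ofReal ((2 * C) ^ l) * (ENNReal.ofReal (K ^ e * D * (1 + F) ^ (P * z / w))
          + ENNReal.ofReal (S * D * (1 + F) ^ (P * z / w))) := by
        refine mul_le_mul' le_rfl (add_le_add hI' (ENNReal.ofReal_le_ofReal ?_))
        rw [← Real.rpow_natCast, ← Real.rpow_mul (by positivity), mul_comm, Nat.cast_add,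
          Nat.cast_one, mul_assoc]
        refine mul_le_mul_of_nonneg_left ?_ hS
        exact (Real.rpow_le_rpow_of_exponent_le hD1 (le_max_right _ _)).trans
          (le_mul_of_one_le_right (by positivity)
            (Real.one_le_rpow (by linarith) (by positivity)))
    _ = _ := by
        rw [← ENNReal.ofReal_add (by positivity) (by positivity),
          ← ENNReal.ofReal_mul (by positivity)]
        congr 1; ring

lemma measurable_sphPow (hn : 3 ≤ n) (m : ℕ) {g : En n → ℝ≥0∞} (hg : Measurable g) (l a : ℝ) :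
    Measurable fun r : ℝ => (∫⁻ θ, pot m g (r • (θ : En n)) ^ l ∂sig n) ^ a := by
  refine Measurable.pow_const ?_ a
  exact Measurable.lintegral_prod_right'
    (f := fun z : ℝ × sph n => pot m g (z.1 • (z.2 : En n)) ^ l)
    (((measurable_pot m hg).comp (by fun_prop)).pow_const l)

/-- The feedback inequality for the energy. -/
theorem exists_feedback (hn : 3 ≤ n) {p q A B : ℝ} (hA : -2 < A) (hB : -2 < B) (hq : 0 < q)
    (hqp : q ≤ p) (hpq : 1 < p * q)
    (hsub : (n : ℝ) - 2 < ((n : ℝ) + A) / (p + 1) + ((n : ℝ) + B) / (q + 1))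
    (hexp : ((n : ℝ) - 3) * (p * q - 1) < 2 * (p + 1)) :
    ∃ K N E : ℝ, 0 ≤ K ∧ 0 ≤ N ∧ 0 ≤ E ∧ E < 1 ∧ ∀ u v : En n → ℝ, Sol p q A B u v →
      ∀ t t' : ℝ, 1 ≤ t → t < t' → t' ≤ 2 →
        energy q B u t ≤ K * (t' - t)⁻¹ ^ N * (1 + energy q B u t') ^ E := by
  have hp : 0 < p := hq.trans_le hqp
  obtain ⟨z1, z2, w1, w2, hz1, hz2, hz1p, hz2q, hza, hEa, hma, hw1, hw2, hw, hw1z, hw2z, hm1, hm2,
    hEb⟩ := exists_exponents hn hq hqp hpq hexp
  have hn1 : ((n - 1 : ℕ) : ℝ) = (n : ℝ) - 1 := by rw [Nat.cast_sub (by omega)]; norm_num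
  have hn2 : ((n - 2 : ℕ) : ℝ) = (n : ℝ) - 2 := by rw [Nat.cast_sub (by omega)]; norm_num
  obtain ⟨Cn, hCn, hnorms⟩ := exists_src_norms (n := n) hn hA hB hq hqp hpq
  obtain ⟨Cu, hCu, hptu⟩ := exists_point_bound hn hA hB hp hq hpq
  obtain ⟨Cv, hCv, hptv⟩ := exists_point_bound hn hB hA hq hp (by linarith)
  obtain ⟨Cc, hCc, hcomp⟩ := exists_compare (n := n) (A := A) (B := B) hq hqp hpq
  obtain ⟨CP, hCP, hpoh⟩ := exists_pohozaev hn hA hB hp hq hsub
  obtain ⟨Ga, hGa, hga⟩ := exists_gain hn (n - 2) hp hz1 hz1p (w := 1 / (q + 1)) (by positivity) hza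
    (by rw [hn2]; exact hma) Cn Cn hCn hCn
  obtain ⟨G1, hG1, hg1⟩ := exists_gain hn (n - 1) hp hz1 hz1p hw1 hw1z
    (by rw [hn1]; exact hm1) Cn Cn hCn hCn
  obtain ⟨G2, hG2, hg2⟩ := exists_gain hn (n - 1) hq hz2 hz2q hw2 hw2z
    (by rw [hn1]; exact hm2) Cn Cn hCn hCn
  have hz1' : z1 < 1 := hz1p.trans_lt (by rw [div_lt_one (by linarith)]; linarith)
  have hz2' : z2 < 1 := hz2q.trans_lt (by rw [div_lt_one (by linarith)]; linarith)
  obtain ⟨La, Na, hLa, hNa, hla⟩ := exists_lift hn (n - 2) hp.le hz1 hz1' (w := 1 / (q + 1))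
    (by positivity) Cu (4 * (Ga + 1)) hCu (by positivity)
  obtain ⟨L1, N1, hL1, hN1, hl1⟩ := exists_lift hn (n - 1) hp.le hz1 hz1' hw1 Cu (4 * (G1 + 1))
    hCu (by positivity)
  obtain ⟨L2, N2, hL2, hN2, hl2⟩ := exists_lift hn (n - 1) hq.le hz2 hz2' hw2 Cv (4 * (G2 + 1))
    hCv (by positivity)
  set S := (sig n).real univ
  have hS : 0 ≤ S := measureReal_nonneg
  set Ea := p * z1 / (1 / (q + 1)) with hEad
  set Eb := p * z1 + q * z2 with hEbd
  have hEa1 : Ea < 1 := by
    have e : Ea = z1 * (p * (q + 1)) := by rw [hEad]; field_simp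
    rw [e]; exact hEa
  have hEa0 : 0 ≤ Ea := by positivity
  set E := max Ea Eb
  set Nb := N1 * w1 + N2 * w2
  set Nm := max Na Nb
  have hNm : 0 ≤ Nm := le_max_of_le_left hNa
  set K0 := L1 ^ w1 * L2 ^ w2 + (1 + Cc) * La + Cc * S
  refine ⟨CP * K0 * 4 ^ Nm, Nm, E, by positivity, hNm, le_max_of_le_left hEa0, max_lt hEa1 hEb,
    fun u v h t t' ht htt ht' => ?_⟩
  set δ := (t' - t) / 4 with hδd
  have hδ : 0 < δ := by rw [hδd]; linarith
  have hδ1 : δ ≤ 1 := by rw [hδd]; linarith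
  obtain ⟨hF, hu1, hv1, hup, hvp⟩ := hnorms u v h t' ht'
  set F := energy q B u t'
  set gu := cutSrc A p v t'
  set gv := cutSrc B q u t'
  have hgu : Measurable gu := measurable_cutSrc A p h.hvc t'
  have hgv : Measurable gv := measurable_cutSrc B q h.huc t'
  have hsub' : Icc t (t + δ) ⊆ Icc (1 / 4 : ℝ) 8 :=
    Icc_subset_Icc (by linarith) (by rw [hδd]; linarith)
  set Y : Fin 3 → ℝ → ℝ≥0∞ := ![
    fun r => (∫⁻ θ, pot (n - 2) gu (r • (θ : En n)) ^ (1 / (1 / (q + 1))) ∂sig n) ^ (1 / (q + 1) / (1 - z1)),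
    fun r => (∫⁻ θ, pot (n - 1) gu (r • (θ : En n)) ^ (1 / w1) ∂sig n) ^ (w1 / (1 - z1)),
    fun r => (∫⁻ θ, pot (n - 1) gv (r • (θ : En n)) ^ (1 / w2) ∂sig n) ^ (w2 / (1 - z2))]
  set R : Fin 3 → ℝ := ![(Ga + 1) * (1 + F) ^ (p * z1 / (1 - z1)),
    (G1 + 1) * (1 + F) ^ (p * z1 / (1 - z1)), (G2 + 1) * (1 + F) ^ (q * z2 / (1 - z2))]
  have hz8 : ∀ y : En n, 8 < ‖y‖ → gu y = 0 := fun y hy => cutSrc_zero A p v ht' hy
  have hz8' : ∀ y : En n, 8 < ‖y‖ → gv y = 0 := fun y hy => cutSrc_zero B q u ht' hy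
  have hGle : ∀ G e : ℝ, ENNReal.ofReal (G * (1 + F) ^ e) ≤ ENNReal.ofReal ((G + 1) * (1 + F) ^ e) :=
    fun G e => ENNReal.ofReal_le_ofReal (mul_le_mul_of_nonneg_right (by linarith) (by positivity))
  obtain ⟨r, hr, hgood⟩ := exists_mem_le (Y := Y) (R := R) (t := t) hδ
    (fun i => by fin_cases i <;> simp [R] <;> positivity)
    (fun i => by fin_cases i <;> simp [Y] <;> exact measurable_sphPow hn _ (by assumption) _ _)
    (fun i => by
      refine (lintegral_mono_set hsub').trans ?_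
      fin_cases i
      · exact (hga gu hgu hz8 F hF hu1 hup).trans (hGle _ _)
      · exact (hg1 gu hgu hz8 F hF hu1 hup).trans (hGle _ _)
      · exact (hg2 gv hgv hz8' F hF hv1 hvp).trans (hGle _ _))
  have hr0 : 0 < r := by linarith [hr.1]
  have hnr : ∀ θ : sph n, ‖r • (θ : En n)‖ = r := fun θ => by
    rw [norm_smul, norm_of_mem θ.2, mul_one, Real.norm_of_nonneg hr0.le]
  have hbd : ∀ θ : sph n, t ≤ ‖r • (θ : En n)‖ ∧ ‖r • (θ : En n)‖ ≤ t + δ := fun θ => by
    rw [hnr]; exact hr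
  have hfix : ∀ G e : ℝ, 4 / δ * ((G + 1) * (1 + F) ^ e) = 4 * (G + 1) * δ⁻¹ * (1 + F) ^ e :=
    fun G e => by ring
  have bA : ∫⁻ θ, ENNReal.ofReal (u (r • (θ : En n))) ^ (1 / (1 / (q + 1))) ∂sig n
      ≤ ENNReal.ofReal (La * δ⁻¹ ^ Na * (1 + F) ^ Ea) :=
    hla gu (fun x => ENNReal.ofReal (u x)) δ F r hδ hδ1 hF hgu
      (fun θ => (hptu u v h t t' ht htt ht' _ (hbd θ).1 (hbd θ).2).1)
      (by rw [← hfix]; exact hgood 0)
  have b1 : ∫⁻ θ, ENNReal.ofReal (‖fderiv ℝ u (r • (θ : En n))‖ + u (r • (θ : En n))) ^ (1 / w1) ∂sig n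
      ≤ ENNReal.ofReal (L1 * δ⁻¹ ^ N1 * (1 + F) ^ (p * z1 / w1)) :=
    hl1 gu (fun x => ENNReal.ofReal (‖fderiv ℝ u x‖ + u x)) δ F r hδ hδ1 hF hgu
      (fun θ => (hptu u v h t t' ht htt ht' _ (hbd θ).1 (hbd θ).2).2)
      (by rw [← hfix]; exact hgood 1)
  have b2 : ∫⁻ θ, ENNReal.ofReal (‖fderiv ℝ v (r • (θ : En n))‖ + v (r • (θ : En n))) ^ (1 / w2) ∂sig n
      ≤ ENNReal.ofReal (L2 * δ⁻¹ ^ N2 * (1 + F) ^ (q * z2 / w2)) :=
    hl2 gv (fun x => ENNReal.ofReal (‖fderiv ℝ v x‖ + v x)) δ F r hδ hδ1 hF hgv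
      (fun θ => (hptv v u h.swap t t' ht htt ht' _ (hbd θ).1 (hbd θ).2).2)
      (by rw [← hfix]; exact hgood 2)
  have hD1 : 1 ≤ δ⁻¹ := (one_le_inv₀ hδ).2 hδ1
  set D := δ⁻¹ ^ Nm
  set X := (1 + F) ^ E
  have hmono : ∀ {N' E' : ℝ}, N' ≤ Nm → E' ≤ E → δ⁻¹ ^ N' * (1 + F) ^ E' ≤ D * X := fun h1 h2 =>
    mul_le_mul (Real.rpow_le_rpow_of_exponent_le hD1 h1)
      (Real.rpow_le_rpow_of_exponent_le (by linarith) h2) (by positivity) (by positivity)
  have hu0 : ∀ x, 0 ≤ ‖fderiv ℝ u x‖ + u x := fun x => by have := h.hup x; positivity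
  have hv0 : ∀ x, 0 ≤ ‖fderiv ℝ v x‖ + v x := fun x => by have := h.hvp x; positivity
  have hcP : ∀ f : En n → ℝ, ContinuousOn f ({0}ᶜ : Set (En n)) →
      Continuous fun θ : sph n => f (r • (θ : En n)) := fun f hf =>
    hf.comp_continuous (by fun_prop) fun θ => smul_ne_zero hr0.ne' (ne_zero_of_mem_unit_sphere θ)
  have hsum : ∫⁻ θ, ENNReal.ofReal (bdry p q u v (r • (θ : En n))) ∂sig n
      ≤ ENNReal.ofReal (K0 * (D * X)) := by
    set fu : sph n → ℝ≥0∞ := fun θ =>
      ENNReal.ofReal (‖fderiv ℝ u (r • (θ : En n))‖ + u (r • (θ : En n)))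
    set fv : sph n → ℝ≥0∞ := fun θ =>
      ENNReal.ofReal (‖fderiv ℝ v (r • (θ : En n))‖ + v (r • (θ : En n)))
    set fa : sph n → ℝ≥0∞ := fun θ => ENNReal.ofReal (u (r • (θ : En n))) ^ (q + 1)
    have hmu : Measurable fu := ENNReal.measurable_ofReal.comp
      (hcP _ ((h.hu.continuousOn_fderiv_of_isOpen isOpen_compl_singleton (by norm_num)).norm.add
        h.huc.continuousOn)).measurable
    have hmv : Measurable fv := ENNReal.measurable_ofReal.comp
      (hcP _ ((h.hv.continuousOn_fderiv_of_isOpen isOpen_compl_singleton (by norm_num)).norm.add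
        h.hvc.continuousOn)).measurable
    have hma : Measurable fa :=
      ((ENNReal.measurable_ofReal.comp (hcP u h.huc.continuousOn).measurable)).pow_const _
    have hpt : ∀ θ : sph n, ENNReal.ofReal (bdry p q u v (r • (θ : En n)))
        ≤ fu θ * fv θ + ENNReal.ofReal (1 + Cc) * fa θ + ENNReal.ofReal Cc := fun θ => by
      simp only [fu, fv, fa]
      set x := r • (θ : En n)
      rw [← ENNReal.ofReal_mul (hu0 x), ENNReal.ofReal_rpow_of_nonneg (h.hup x).le (by linarith),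
        ← ENNReal.ofReal_mul (by positivity),
        ← ENNReal.ofReal_add (mul_nonneg (hu0 x) (hv0 x)) (by have := h.hup x; positivity),
        ← ENNReal.ofReal_add (add_nonneg (mul_nonneg (hu0 x) (hv0 x))
          (by have := h.hup x; positivity)) hCc]
      refine ENNReal.ofReal_le_ofReal ?_
      have hc := hcomp u v h x (by linarith [(hbd θ).1, ht]) (by
        have := (hbd θ).2; rw [hδd] at this; linarith)
      rw [bdry]
      linarith
    have hprod : ∫⁻ θ, fu θ * fv θ ∂sig n ≤ ENNReal.ofReal (L1 ^ w1 * L2 ^ w2 * (D * X)) := by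
      have e : ∀ θ, fu θ * fv θ = (fu θ ^ (1 / w1)) ^ w1 * (fv θ ^ (1 / w2)) ^ w2 := fun θ => by
        rw [← ENNReal.rpow_mul, ← ENNReal.rpow_mul, one_div_mul_cancel hw1.ne',
          one_div_mul_cancel hw2.ne', ENNReal.rpow_one, ENNReal.rpow_one]
      simp only [e]
      refine (ENNReal.lintegral_mul_norm_pow_le (hmu.pow_const _).aemeasurable
        (hmv.pow_const _).aemeasurable hw1.le hw2.le hw).trans ?_
      refine (mul_le_mul' (ENNReal.rpow_le_rpow b1 hw1.le)
        (ENNReal.rpow_le_rpow b2 hw2.le)).trans ?_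
      rw [ENNReal.ofReal_rpow_of_nonneg (by positivity) hw1.le,
        ENNReal.ofReal_rpow_of_nonneg (by positivity) hw2.le, ← ENNReal.ofReal_mul (by positivity)]
      refine ENNReal.ofReal_le_ofReal ?_
      rw [Real.mul_rpow (by positivity) (by positivity), Real.mul_rpow hL1 (by positivity),
        Real.mul_rpow (x := L2 * δ⁻¹ ^ N2) (by positivity) (by positivity),
        Real.mul_rpow hL2 (by positivity), ← Real.rpow_mul (by positivity),
        ← Real.rpow_mul (by linarith), ← Real.rpow_mul (by positivity),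
        ← Real.rpow_mul (by linarith), div_mul_cancel₀ _ hw1.ne', div_mul_cancel₀ _ hw2.ne']
      rw [show L1 ^ w1 * δ⁻¹ ^ (N1 * w1) * (1 + F) ^ (p * z1)
          * (L2 ^ w2 * δ⁻¹ ^ (N2 * w2) * (1 + F) ^ (q * z2))
        = L1 ^ w1 * L2 ^ w2 * (δ⁻¹ ^ (N1 * w1) * δ⁻¹ ^ (N2 * w2)
            * ((1 + F) ^ (p * z1) * (1 + F) ^ (q * z2))) by ring,
        ← Real.rpow_add (by positivity), ← Real.rpow_add (by linarith)]
      exact mul_le_mul_of_nonneg_left (hmono (le_max_right _ _) (le_max_right _ _)) (by positivity)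
    calc ∫⁻ θ, ENNReal.ofReal (bdry p q u v (r • (θ : En n))) ∂sig n
        ≤ ∫⁻ θ, (fu θ * fv θ + ENNReal.ofReal (1 + Cc) * fa θ + ENNReal.ofReal Cc) ∂sig n :=
          lintegral_mono hpt
      _ ≤ ENNReal.ofReal (L1 ^ w1 * L2 ^ w2 * (D * X)) + ENNReal.ofReal ((1 + Cc) * La * (D * X))
            + ENNReal.ofReal (Cc * S * (D * X)) := by
          rw [lintegral_add_right _ measurable_const, lintegral_add_right _ (hma.const_mul _),
            lintegral_const_mul _ hma, lintegral_const]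
          refine add_le_add (add_le_add hprod ?_) ?_
          · rw [mul_assoc (1 + Cc), ENNReal.ofReal_mul (by linarith : (0 : ℝ) ≤ 1 + Cc)]
            refine mul_le_mul' le_rfl ?_
            simp only [one_div_one_div] at bA
            refine bA.trans (ENNReal.ofReal_le_ofReal ?_)
            rw [mul_assoc]
            exact mul_le_mul_of_nonneg_left (hmono (le_max_left _ _) (le_max_left _ _)) hLa
          · rw [← ofReal_measureReal, ← ENNReal.ofReal_mul hCc]
            refine ENNReal.ofReal_le_ofReal (le_mul_of_one_le_right (by positivity) ?_)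
            exact one_le_mul_of_one_le_of_one_le (Real.one_le_rpow hD1 hNm)
              (Real.one_le_rpow (by linarith) (le_max_of_le_left hEa0))
      _ = _ := by
          rw [← ENNReal.ofReal_add (by positivity) (by positivity),
            ← ENNReal.ofReal_add (by positivity) (by positivity)]
          congr 1; simp only [K0]; ring
  have hgb : bdryInt p q u v r ≤ K0 * (D * X) := by
    rw [bdryInt, integral_eq_lintegral_of_nonneg_ae (Eventually.of_forall fun θ => bdry_nonneg h _)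
      (hcP _ (continuousOn_bdry h hp.le hq.le)).aestronglyMeasurable]
    exact ENNReal.toReal_le_of_le_ofReal (by positivity) hsum
  have hFt : energy q B u t ≤ energy q B u r :=
    setIntegral_mono_set (integrableOn_src hn hB (by linarith) h.huc r)
      (Eventually.of_forall fun y => by have := h.hup y; positivity)
      (Metric.closedBall_subset_closedBall hr.1).eventuallyLE
  refine hFt.trans ((hpoh u v h r ⟨by linarith [hr.1], by
    have := hr.2; rw [hδd] at this; linarith⟩).trans ((mul_le_mul_of_nonneg_left hgb hCP).trans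
      (le_of_eq ?_)))
  have hDe : D = 4 ^ Nm * (t' - t)⁻¹ ^ Nm := by
    simp only [D]
    rw [hδd, inv_div, div_eq_mul_inv, Real.mul_rpow (by norm_num) (inv_nonneg.2 (by linarith))]
  rw [hDe]; ring

/-- A universal bound on the energy of the unit ball. -/
theorem exists_energy_bound (hn : 3 ≤ n) {p q A B : ℝ} (hA : -2 < A) (hB : -2 < B) (hq : 0 < q)
    (hqp : q ≤ p) (hpq : 1 < p * q)
    (hsub : (n : ℝ) - 2 < ((n : ℝ) + A) / (p + 1) + ((n : ℝ) + B) / (q + 1))
    (hexp : ((n : ℝ) - 3) * (p * q - 1) < 2 * (p + 1)) :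
    ∃ C : ℝ, ∀ u v : En n → ℝ, Sol p q A B u v → energy q B u 1 ≤ C := by
  obtain ⟨K, N, E, hK, hN, hE, hE1, hfb⟩ := exists_feedback hn hA hB hq hqp hpq hsub hexp
  have h1E : 0 < 1 - E := by linarith
  set L := N / (1 - E)
  have hL : 0 ≤ L := by positivity
  set K2 := K * 2 ^ N * (2 : ℝ) ^ (L * E) * 2 ^ E
  refine ⟨max 1 (K2 ^ (1 - E)⁻¹), fun u v h => ?_⟩
  set f : ℝ → ℝ := fun t => (2 - t) ^ L * energy q B u t
  have hg0 : ∀ y, 0 ≤ ‖y‖ ^ B * u y ^ (q + 1) := fun y => by have := h.hup y; positivity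
  have hnn : ∀ t, 0 ≤ energy q B u t := fun t => integral_nonneg hg0
  have hmon : ∀ t, t ≤ 2 → energy q B u t ≤ energy q B u 2 := fun t ht =>
    setIntegral_mono_set (integrableOn_src hn hB (by linarith) h.huc 2)
      (Eventually.of_forall hg0) (Metric.closedBall_subset_closedBall ht).eventuallyLE
  have hbdd : BddAbove (f '' Ico 1 2) := ⟨energy q B u 2, by
    rintro _ ⟨t, ht, rfl⟩
    refine (mul_le_of_le_one_left (hnn t) ?_).trans (hmon t ht.2.le)
    exact Real.rpow_le_one (by linarith [ht.2]) (by linarith [ht.1]) hL⟩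
  set M := max 1 (sSup (f '' Ico 1 2))
  have hfM : ∀ t ∈ Ico (1 : ℝ) 2, f t ≤ M := fun t ht =>
    (le_csSup hbdd (mem_image_of_mem f ht)).trans (le_max_right _ _)
  have hM1 : 1 ≤ M := le_max_left _ _
  have hkey : ∀ t ∈ Ico (1 : ℝ) 2, f t ≤ K2 * M ^ E := by
    intro t ht
    set s := 2 - t with hsd
    have hs : 0 < s := by linarith [ht.2]
    have hs1 : s ≤ 1 := by linarith [ht.1]
    have hmid := hfM ((t + 2) / 2) ⟨by linarith [ht.1], by linarith [ht.2]⟩
    have hF := hfb u v h t ((t + 2) / 2) ht.1 (by linarith [ht.2]) (by linarith [ht.2])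
    set G := energy q B u ((t + 2) / 2)
    simp only [f] at hmid ⊢
    rw [show 2 - (t + 2) / 2 = s / 2 by rw [hsd]; ring] at hmid
    rw [show (t + 2) / 2 - t = s / 2 by rw [hsd]; ring] at hF
    have hs2 : 0 < (s / 2) ^ L := by positivity
    have h2 : 1 + G ≤ 2 * M * ((s / 2) ^ L)⁻¹ := by
      rw [← div_eq_mul_inv, le_div_iff₀ hs2]
      have : (s / 2) ^ L ≤ 1 := Real.rpow_le_one (by positivity) (by linarith) hL
      linarith
    have h3 : (1 + G) ^ E ≤ 2 ^ E * M ^ E * (2 ^ (L * E) * (s ^ (L * E))⁻¹) := by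
      refine (Real.rpow_le_rpow (by have := hnn ((t + 2) / 2); positivity) h2 hE).trans_eq ?_
      rw [Real.mul_rpow (by positivity) (by positivity), Real.mul_rpow two_pos.le (by linarith),
        Real.inv_rpow hs2.le, ← Real.rpow_mul (by positivity), Real.div_rpow hs.le two_pos.le,
        inv_div, div_eq_mul_inv]
    have h4 : (s / 2)⁻¹ ^ N = 2 ^ N * (s ^ N)⁻¹ := by
      rw [inv_div, Real.div_rpow two_pos.le hs.le, div_eq_mul_inv]
    have hLN : L = N + L * E := by
      have : L * (1 - E) = N := div_mul_cancel₀ _ h1E.ne'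
      linarith
    calc (2 - t) ^ L * energy q B u t
        ≤ s ^ L * (K * (2 ^ N * (s ^ N)⁻¹) * (2 ^ E * M ^ E * (2 ^ (L * E) * (s ^ (L * E))⁻¹))) := by
          refine mul_le_mul_of_nonneg_left (hF.trans ?_) (by positivity)
          rw [h4]
          exact mul_le_mul_of_nonneg_left h3 (by positivity)
      _ = K2 * M ^ E * (s ^ L * ((s ^ N)⁻¹ * (s ^ (L * E))⁻¹)) := by simp only [K2]; ring
      _ = _ := by
          have h5 : s ^ L = s ^ N * s ^ (L * E) := by
            rw [← Real.rpow_add hs]; exact congrArg (s ^ ·) hLN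
          rw [h5, ← mul_inv, mul_inv_cancel₀ (by positivity), mul_one]
  have hsup : sSup (f '' Ico 1 2) ≤ K2 * M ^ E :=
    csSup_le ⟨f 1, mem_image_of_mem f ⟨le_rfl, by norm_num⟩⟩ (by
      rintro _ ⟨t, ht, rfl⟩; exact hkey t ht)
  have hMle : M ≤ max 1 (K2 ^ (1 - E)⁻¹) := by
    rcases max_choice 1 (sSup (f '' Ico 1 2)) with h' | h' <;> simp only [M, h'] at *
    · exact le_max_left _ _
    · set S' := sSup (f '' Ico 1 2)
      refine le_max_of_le_right ?_
      have h6 : S' ^ (1 - E) ≤ K2 := by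
        rw [Real.rpow_sub (by linarith), Real.rpow_one, div_le_iff₀ (by positivity)]
        exact hsup
      have := Real.rpow_le_rpow (by positivity) h6 (inv_pos.2 h1E).le
      rwa [Real.rpow_rpow_inv (by linarith) h1E.ne'] at this
  have := hfM 1 ⟨le_rfl, by norm_num⟩
  simp only [f, show (2 : ℝ) - 1 = 1 by norm_num, Real.one_rpow, one_mul] at this
  exact this.trans hMle

/-- No solution in the feedback range. -/
theorem no_sol (hn : 3 ≤ n) {p q A B : ℝ} (hA : -2 < A) (hB : -2 < B) (hq : 0 < q)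
    (hqp : q ≤ p) (hpq : 1 < p * q)
    (hsub : (n : ℝ) - 2 < ((n : ℝ) + A) / (p + 1) + ((n : ℝ) + B) / (q + 1))
    (hexp : ((n : ℝ) - 3) * (p * q - 1) < 2 * (p + 1)) {u v : En n → ℝ}
    (h : Sol p q A B u v) : False := by
  have hp : 0 < p := hq.trans_le hqp
  obtain ⟨C, hC⟩ := exists_energy_bound hn hA hB hq hqp hpq hsub hexp
  have hd : 0 < p * q - 1 := by linarith
  set α := (2 + A + p * (2 + B)) / (p * q - 1) with hα
  set β := (2 + B + q * (2 + A)) / (p * q - 1) with hβ
  set γ := α + β + 2 - (n : ℝ) with hγd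
  have hγ : 0 < γ := by
    have h1 : (4 + A + B + p * (2 + B) + q * (2 + A)) / (p * q - 1) = α + β := by
      rw [hα, hβ]; ring
    have h2 : (n : ℝ) - 2 < (4 + A + B + p * (2 + B) + q * (2 + A)) / (p * q - 1) := by
      rw [lt_div_iff₀ hd]
      rw [div_add_div _ _ (by linarith) (by linarith), lt_div_iff₀ (by positivity)] at hsub
      nlinarith
    linarith
  have ha' : α * (p * q - 1) = 2 + A + p * (2 + B) := div_mul_cancel₀ _ hd.ne'
  have hb' : β * (p * q - 1) = 2 + B + q * (2 + A) := div_mul_cancel₀ _ hd.ne'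
  have eA : α + 2 + A = β * p :=
    mul_right_cancel₀ hd.ne' (by linear_combination ha' - p * hb')
  have eB : β + 2 + B = α * q :=
    mul_right_cancel₀ hd.ne' (by linear_combination hb' - q * ha')
  have eG : α * (q + 1) - B - (n : ℝ) = γ := by linear_combination -eB - hγd
  have hbound : ∀ R : ℝ, 1 ≤ R → R ^ γ * energy q B u 1 ≤ C := by
    intro R hR
    have hR0 : 0 < R := by linarith
    set u' : En n → ℝ := fun x => R ^ α * u (R • x) with hu'
    set v' : En n → ℝ := fun x => R ^ β * v (R • x) with hv'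
    have hs : Sol p q A B u' v' :=
      { hu := Fourth.scale_c2 h.hu _ hR0.ne'
        hv := Fourth.scale_c2 h.hv _ hR0.ne'
        huc := continuous_const.mul (h.huc.comp (continuous_const_smul R))
        hvc := continuous_const.mul (h.hvc.comp (continuous_const_smul R))
        hup := fun x => mul_pos (Real.rpow_pos_of_pos hR0 _) (h.hup _)
        hvp := fun x => mul_pos (Real.rpow_pos_of_pos hR0 _) (h.hvp _)
        e1 := fun x hx => by
          rw [hu', Fourth.scale_lap h.hu _ hR0.ne' hx, h.e1 _ (smul_ne_zero hR0.ne' hx), norm_smul,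
            Real.norm_of_nonneg hR0.le, Real.mul_rpow hR0.le (norm_nonneg x),
            Real.mul_rpow (by positivity) (h.hvp _).le, ← Real.rpow_mul hR0.le,
            ← Real.rpow_two]
          have e : R ^ α * R ^ (2 : ℝ) * R ^ A = R ^ (β * p) := by
            rw [← Real.rpow_add hR0, ← Real.rpow_add hR0]
            rw [eA]
          linear_combination (-(‖x‖ ^ A * v (R • x) ^ p)) * e
        e2 := fun x hx => by
          rw [hv', Fourth.scale_lap h.hv _ hR0.ne' hx, h.e2 _ (smul_ne_zero hR0.ne' hx), norm_smul,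
            Real.norm_of_nonneg hR0.le, Real.mul_rpow hR0.le (norm_nonneg x),
            Real.mul_rpow (by positivity) (h.hup _).le, ← Real.rpow_mul hR0.le,
            ← Real.rpow_two]
          have e : R ^ β * R ^ (2 : ℝ) * R ^ B = R ^ (α * q) := by
            rw [← Real.rpow_add hR0, ← Real.rpow_add hR0]
            rw [eB]
          linear_combination (-(‖x‖ ^ B * u (R • x) ^ q)) * e }
    have hF : R ^ γ * energy q B u R ≤ C := by
      refine le_of_eq_of_le ?_ (hC u' v' hs)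
      simp only [energy, hu']
      have e : ∀ x : En n, ‖x‖ ^ B * (R ^ α * u (R • x)) ^ (q + 1)
          = R ^ (α * (q + 1) - B) * (fun y : En n => ‖y‖ ^ B * u y ^ (q + 1)) (R • x) := fun x => by
        simp only [norm_smul, Real.norm_of_nonneg hR0.le, Real.mul_rpow hR0.le (norm_nonneg x),
          Real.mul_rpow (Real.rpow_nonneg hR0.le α) (h.hup _).le, ← Real.rpow_mul hR0.le]
        rw [show R ^ (α * (q + 1)) = R ^ (α * (q + 1) - B) * R ^ B by
          rw [← Real.rpow_add hR0]; ring_nf]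
        ring
      simp only [e]
      rw [integral_const_mul]
      show R ^ γ * _ = R ^ (α * (q + 1) - B) *
        ∫ a in Metric.closedBall (0 : En n) 1, (fun y : En n => ‖y‖ ^ B * u y ^ (q + 1)) (R • a)
      rw [Measure.setIntegral_comp_smul_of_pos (μ := volume)
          (fun y : En n => ‖y‖ ^ B * u y ^ (q + 1)) _ hR0,
        smul_closedBall _ _ zero_le_one, smul_zero, Real.norm_of_nonneg hR0.le, mul_one,
        finrank_euclideanSpace_fin, smul_eq_mul, ← mul_assoc, ← Real.rpow_natCast,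
        ← Real.rpow_neg hR0.le, ← Real.rpow_add hR0, ← sub_eq_add_neg, eG]
    refine le_trans (mul_le_mul_of_nonneg_left ?_ (by positivity)) hF
    exact setIntegral_mono_set (integrableOn_src hn hB (by linarith) h.huc R)
      (Eventually.of_forall fun y => by have := h.hup y; positivity)
      (Metric.closedBall_subset_closedBall hR).eventuallyLE
  have hpos : 0 < energy q B u 1 := by
    obtain ⟨z, hz, hmin⟩ := (isCompact_closedBall (0 : En n) 1).exists_isMinOn
      ⟨0, by simp⟩ h.huc.continuousOn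
    refine lt_of_lt_of_le ?_ (setIntegral_mono_on
      ((integrableOn_norm_rpow hn hB 1).mul_const (u z ^ (q + 1)))
      (integrableOn_src hn hB (by linarith) h.huc 1) measurableSet_closedBall fun y hy =>
        mul_le_mul_of_nonneg_left (Real.rpow_le_rpow (h.hup z).le (hmin hy) (by linarith))
          (Real.rpow_nonneg (norm_nonneg y) _))
    rw [integral_mul_const]
    exact mul_pos (integral_norm_rpow_pos hn hB one_pos) (Real.rpow_pos_of_pos (h.hup z) _)
  have hlim : Tendsto (fun R : ℝ => R ^ γ * energy q B u 1) atTop atTop :=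
    (tendsto_rpow_atTop hγ).atTop_mul_const hpos
  obtain ⟨R, hR⟩ := ((hlim.eventually (eventually_gt_atTop C)).and (eventually_ge_atTop 1)).exists
  linarith [hbound R hR.2, hR.1]

end Vale.Agent.P100.Feedback
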