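import Vale.Agent.P100.Feedback.Kernel
import Mathlib.MeasureTheory.Constructions.HaarToSphere
import Mathlib.MeasureTheory.Integral.MeanInequalities

/-!
Polar coordinates and mixed radial-spherical bounds for potentials.
-/

open Filter Topology Set MeasureTheory
open scoped ENNReal Pointwise

namespace Vale.Agent.P100.Feedback

variable {n : ℕ}

/-- The surface measure on the unit sphere. -/
noncomputable abbrev sig (n : ℕ) : Measure (sph n) := (volume : Measure (En n)).toSphere

lemma lintegral_polar (hn : 1 ≤ n) {f : En n → ℝ≥0∞} (hf : Measurable f) :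
    ∫⁻ x, f x = ∫⁻ r in Ioi (0 : ℝ),
      ENNReal.ofReal (r ^ (n - 1)) * ∫⁻ θ, f (r • (θ : En n)) ∂sig n := by
  have hE : Nontrivial (En n) := Module.nontrivial_of_finrank_pos (R := ℝ) (by simp; omega)
  have h0 : ∫⁻ x in ({0}ᶜ : Set (En n)), f x = ∫⁻ x, f x := by
    rw [restrict_compl_singleton]
  rw [← h0, ← lintegral_subtype_comap (measurableSet_singleton _).compl]
  set G : (sph n) × Ioi (0 : ℝ) → ℝ≥0∞ := fun z => f (z.2.1 • (z.1 : En n))
  have hG : Measurable G := hf.comp (by fun_prop)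
  have hmp := Measure.measurePreserving_homeomorphUnitSphereProd (volume : Measure (En n))
  have e : (fun x : ({0}ᶜ : Set (En n)) => f x)
      = fun x => G (homeomorphUnitSphereProd (En n) x) := by
    funext x
    have : ‖(x : En n)‖ ≠ 0 := norm_ne_zero_iff.2 x.2
    simp [G, homeomorphUnitSphereProd_apply_fst_coe, homeomorphUnitSphereProd_apply_snd_coe,
      smul_smul, mul_inv_cancel₀ this]
  rw [e, hmp.lintegral_comp hG, lintegral_prod_symm _ hG.aemeasurable, finrank_euclideanSpace_fin,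
    Measure.volumeIoiPow, lintegral_withDensity_eq_lintegral_mul _ (by fun_prop)
      hG.lintegral_prod_left']
  exact lintegral_subtype_comap measurableSet_Ioi
    fun r : ℝ => ENNReal.ofReal (r ^ (n - 1)) * ∫⁻ θ, f (r • (θ : En n)) ∂sig n

lemma exists_cap_bound (hn : 1 ≤ n) : ∃ C : ℝ, 0 ≤ C ∧ ∀ (θ₀ : sph n) (d : ℝ), 0 < d →
    sig n (Subtype.val ⁻¹' Metric.ball (θ₀ : En n) d) ≤ ENNReal.ofReal (C * d ^ (n - 1)) := by
  have : Nontrivial (En n) := Module.nontrivial_of_finrank_pos (R := ℝ) (by simp; omega)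
  set V := ((volume : Measure (En n)) (Metric.ball 0 1)).toReal
  have hV : (volume : Measure (En n)) (Metric.ball 0 1) = ENNReal.ofReal V :=
    (ENNReal.ofReal_toReal measure_ball_lt_top.ne).symm
  refine ⟨n * V * 2 * 2 ^ n, by positivity, fun θ₀ d hd => ?_⟩
  rcases lt_or_ge 1 d with h1 | h1
  · refine (measure_mono (subset_univ _)).trans ?_
    rw [Measure.toSphere_apply_univ, finrank_euclideanSpace_fin, hV, ← ENNReal.ofReal_natCast,
      ← ENNReal.ofReal_mul (Nat.cast_nonneg n)]
    refine ENNReal.ofReal_le_ofReal ?_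
    rw [show (n : ℝ) * V * 2 * 2 ^ n * d ^ (n - 1) = n * V * (2 * 2 ^ n * d ^ (n - 1)) by ring]
    refine le_mul_of_one_le_right (by positivity) ?_
    exact one_le_mul_of_one_le_of_one_le
      (one_le_mul_of_one_le_of_one_le one_le_two (one_le_pow₀ one_le_two)) (one_le_pow₀ h1.le)
  rw [Measure.toSphere_apply' _ (measurableSet_ball.preimage measurable_subtype_coe),
    finrank_euclideanSpace_fin]
  set N := ⌈1 / d⌉₊
  have hN : 0 < N := Nat.ceil_pos.2 (by positivity)
  have hsub : Ioo (0 : ℝ) 1 • (Subtype.val '' (Subtype.val ⁻¹' Metric.ball (θ₀ : En n) d :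
      Set (sph n))) ⊆ ⋃ i ∈ Finset.range N, Metric.ball (((i : ℝ) / N) • (θ₀ : En n)) (2 * d) := by
    rintro z ⟨t, ht, θ, ⟨θ', hθ', rfl⟩, rfl⟩
    set i := ⌊t * N⌋₊
    have hi : i < N := by
      rw [Nat.floor_lt (by have := ht.1; positivity)]
      exact mul_lt_of_lt_one_left (by exact_mod_cast hN) ht.2
    refine mem_iUnion₂.2 ⟨i, Finset.mem_range.2 hi, ?_⟩
    rw [Metric.mem_ball, dist_eq_norm]
    have e : t • (θ' : En n) - ((i : ℝ) / N) • (θ₀ : En n)
        = t • ((θ' : En n) - θ₀) + (t - (i : ℝ) / N) • (θ₀ : En n) := by module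
    have hθ'' : ‖(θ' : En n) - θ₀‖ < d := by
      rwa [mem_preimage, Metric.mem_ball, dist_eq_norm] at hθ'
    have hNR : (0 : ℝ) < N := by exact_mod_cast hN
    have f1 := Nat.floor_le (show 0 ≤ t * N by have := ht.1; positivity)
    have f2 := Nat.lt_floor_add_one (t * N)
    have f3 : |t - (i : ℝ) / N| ≤ d := by
      have f4 : 1 / (N : ℝ) ≤ d := by
        rw [div_le_iff₀ hNR, ← div_le_iff₀' hd]; exact Nat.le_ceil _
      have f5 : (i : ℝ) / N ≤ t := by rw [div_le_iff₀ hNR]; linarith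
      have f6 : t ≤ (i : ℝ) / N + 1 / N := by rw [← add_div, le_div_iff₀ hNR]; linarith
      rw [abs_of_nonneg (by linarith)]; linarith
    show ‖t • (θ' : En n) - ((i : ℝ) / N) • (θ₀ : En n)‖ < 2 * d
    rw [e]
    refine (norm_add_le _ _).trans_lt ?_
    rw [norm_smul, norm_smul, norm_of_mem θ₀.2, mul_one, Real.norm_eq_abs, Real.norm_eq_abs,
      abs_of_pos ht.1]
    nlinarith [mul_le_of_le_one_left (norm_nonneg ((θ' : En n) - θ₀)) ht.2.le]
  refine (mul_le_mul' le_rfl ((measure_mono hsub).trans (measure_biUnion_finset_le _ _))).trans ?_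
  simp only [Measure.addHaar_ball_of_pos _ _ (show 0 < 2 * d by positivity),
    finrank_euclideanSpace_fin, Finset.sum_const, Finset.card_range, nsmul_eq_mul]
  rw [hV, ← ENNReal.ofReal_mul (by positivity), ← ENNReal.ofReal_natCast, ← ENNReal.ofReal_natCast,
    ← ENNReal.ofReal_mul (Nat.cast_nonneg N), ← ENNReal.ofReal_mul (Nat.cast_nonneg n)]
  refine ENNReal.ofReal_le_ofReal ?_
  have hN2 : (N : ℝ) * d ≤ 2 := by
    have := Nat.ceil_lt_add_one (show 0 ≤ 1 / d by positivity)
    calc (N : ℝ) * d ≤ (1 / d + 1) * d := by gcongr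
      _ = 1 + d := by field_simp
      _ ≤ 2 := by linarith
  calc (n : ℝ) * ((N : ℝ) * ((2 * d) ^ n * V))
      = (n : ℝ) * V * 2 ^ n * d ^ (n - 1) * ((N : ℝ) * d) := by
        obtain ⟨k, rfl⟩ : ∃ k, n = k + 1 := ⟨n - 1, by omega⟩
        rw [Nat.add_sub_cancel]; ring
    _ ≤ (n : ℝ) * V * 2 ^ n * d ^ (n - 1) * 2 := mul_le_mul_of_nonneg_left hN2 (by positivity)
    _ = _ := by ring

lemma exists_slice_bound (hn : 1 ≤ n) : ∃ C : ℝ, 0 ≤ C ∧ ∀ (r : ℝ) (y : En n) (ρ : ℝ),
    1 / 4 ≤ r → 0 < ρ →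
      sig n {θ : sph n | y ∈ Metric.ball (r • (θ : En n)) ρ} ≤
        ENNReal.ofReal (C * ρ ^ (n - 1)) := by
  obtain ⟨C, hC, h⟩ := exists_cap_bound hn
  refine ⟨C * 8 ^ (n - 1), by positivity, fun r y ρ hr hρ => ?_⟩
  rcases eq_empty_or_nonempty {θ : sph n | y ∈ Metric.ball (r • (θ : En n)) ρ} with he | ⟨θ₀, hθ₀⟩
  · rw [he, measure_empty]; exact zero_le
  rw [show C * 8 ^ (n - 1) * ρ ^ (n - 1) = C * (8 * ρ) ^ (n - 1) by rw [mul_pow]; ring]
  refine (measure_mono fun θ hθ => ?_).trans (h θ₀ (8 * ρ) (by linarith))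
  rw [mem_ofPred_eq, Metric.mem_ball] at hθ hθ₀
  rw [mem_preimage, Metric.mem_ball, dist_eq_norm]
  have h2 := dist_triangle_left (r • (θ : En n)) (r • (θ₀ : En n)) y
  rw [dist_eq_norm, ← smul_sub, norm_smul, Real.norm_of_nonneg (by linarith)] at h2
  nlinarith [mul_le_mul_of_nonneg_right hr (norm_nonneg ((θ : En n) - θ₀))]

/-! ### Elementary series inequalities -/

lemma tsum_rpow_le {η l : ℝ} (hη0 : 0 < η) (hl : 1 ≤ l) (b : ℕ → ℝ≥0∞) :
    (∑' j, b j) ^ l ≤ (∑' j, ENNReal.ofReal η ^ j) ^ l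
      * ∑' j, (ENNReal.ofReal η ^ j)⁻¹ ^ l * b j ^ l := by
  set T := ∑' j, (ENNReal.ofReal η ^ j)⁻¹ ^ l * b j ^ l
  have hl0 : 0 < l := by linarith
  have hb : ∀ j, b j ≤ ENNReal.ofReal η ^ j * T ^ l⁻¹ := fun j => by
    have h := ENNReal.le_tsum (f := fun j => (ENNReal.ofReal η ^ j)⁻¹ ^ l * b j ^ l) j
    rw [← ENNReal.mul_rpow_of_nonneg _ _ hl0.le] at h
    have h2 := ENNReal.rpow_le_rpow h (inv_pos.2 hl0).le
    rw [ENNReal.rpow_rpow_inv hl0.ne'] at h2
    rwa [ENNReal.inv_mul_le_iff (pow_ne_zero _ (by simpa using hη0))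
      (ENNReal.pow_ne_top ENNReal.ofReal_ne_top)] at h2
  calc (∑' j, b j) ^ l ≤ (∑' j, ENNReal.ofReal η ^ j * T ^ l⁻¹) ^ l :=
        ENNReal.rpow_le_rpow (ENNReal.tsum_le_tsum hb) hl0.le
    _ = _ := by
        rw [ENNReal.tsum_mul_right, ENNReal.mul_rpow_of_nonneg _ _ hl0.le,
          ENNReal.rpow_inv_rpow hl0.ne']

lemma rpow_tsum_le {a : ℝ} (ha : 0 < a) (ha1 : a ≤ 1) (c : ℕ → ℝ≥0∞) :
    (∑' j, c j) ^ a ≤ ∑' j, c j ^ a := by
  set T := ∑' j, c j ^ a
  rcases eq_or_ne T ∞ with hT | hT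
  · rw [hT]; exact le_top
  have he : 0 ≤ (1 - a) / a := div_nonneg (by linarith) ha.le
  have hc : ∀ j, c j ≤ c j ^ a * T ^ ((1 - a) / a) := fun j => by
    calc c j = (c j ^ a) ^ (1 + (1 - a) / a) := by
          rw [← ENNReal.rpow_mul, show a * (1 + (1 - a) / a) = 1 by field_simp; ring,
            ENNReal.rpow_one]
      _ = c j ^ a * (c j ^ a) ^ ((1 - a) / a) := by
          rw [ENNReal.rpow_add_of_nonneg _ _ zero_le_one he, ENNReal.rpow_one]
      _ ≤ _ := mul_le_mul' le_rfl (ENNReal.rpow_le_rpow (ENNReal.le_tsum j) he)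
  calc (∑' j, c j) ^ a ≤ (T * T ^ ((1 - a) / a)) ^ a := by
        refine ENNReal.rpow_le_rpow ((ENNReal.tsum_le_tsum hc).trans ?_) ha.le
        rw [ENNReal.tsum_mul_right]
    _ = T := by
        conv_lhs => arg 1; arg 1; rw [← ENNReal.rpow_one T]
        rw [← ENNReal.rpow_add_of_nonneg _ _ zero_le_one he, ← ENNReal.rpow_mul,
          show (1 + (1 - a) / a) * a = 1 by field_simp; ring, ENNReal.rpow_one]

/-! ### The mixed bound -/

/-- The potential of a density against `‖·‖^(-m)`. -/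
noncomputable def pot (m : ℕ) (g : En n → ℝ≥0∞) (x : En n) : ℝ≥0∞ :=
  ∫⁻ y, ENNReal.ofReal (gam m (x - y)) * g y

lemma measurable_pot (m : ℕ) {g : En n → ℝ≥0∞} (hg : Measurable g) : Measurable (pot m g) := by
  refine Measurable.lintegral_prod_right' (f := fun z : En n × En n =>
    ENNReal.ofReal (gam m (z.1 - z.2)) * g z.2) ?_
  exact (ENNReal.measurable_ofReal.comp ((measurable_gam m).comp (by fun_prop))).mul
    (hg.comp measurable_snd)

lemma measurableSet_band (ρ : ℝ) :
    MeasurableSet {z : ℝ × En n | ‖z.2‖ ∈ Metric.ball z.1 ρ} := by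
  simp only [Metric.mem_ball, Real.dist_eq]
  exact measurableSet_lt (by fun_prop) measurable_const

/-- Mixed bound: `L^k` data give `L^l` on spheres with `L^k` in the radius. -/
theorem exists_mixed (hn : 2 ≤ n) (m : ℕ) {k l : ℝ} (hk : 1 ≤ k) (hl : k ≤ l)
    (hm : (m : ℝ) < ((n : ℝ) - 1) * (1 - 1 / k + 1 / l) + 1) :
    ∃ C : ℝ≥0∞, C ≠ ∞ ∧ ∀ g : En n → ℝ≥0∞, Measurable g → (∀ y, 8 < ‖y‖ → g y = 0) →
      ∫⁻ r in Icc (1 / 4 : ℝ) 8, (∫⁻ θ, pot m g (r • (θ : En n)) ^ l ∂sig n) ^ (k / l)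
        ≤ C * ∫⁻ y, g y ^ k := by
  have hk0 : 0 < k := by linarith
  have hl0 : 0 < l := by linarith
  have hkl : 1 ≤ l / k := (one_le_div hk0).2 hl
  have hkl' : k / l ≤ 1 := (div_le_one hl0).2 hl
  obtain ⟨Cs, hCs, hslice⟩ := exists_slice_bound (n := n) (by omega)
  have : Nontrivial (En n) := Module.nontrivial_of_finrank_pos (R := ℝ) (by simp; omega)
  set V := ((volume : Measure (En n)) (Metric.ball 0 1)).toReal
  have hV : (volume : Measure (En n)) (Metric.ball 0 1) = ENNReal.ofReal V :=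
    (ENNReal.ofReal_toReal measure_ball_lt_top.ne).symm
  have hV0 : 0 ≤ V := ENNReal.toReal_nonneg
  set h := ((n : ℝ) - 1) * (1 - 1 / k + 1 / l) + 1 - m with hhd
  have hh : 0 < h := by linarith
  set η : ℝ := 2 ^ (-(h / 2)) with hηd
  have hη : 0 < η := by positivity
  have hη1 : η < 1 := Real.rpow_lt_one_of_one_lt_of_neg (by norm_num) (by linarith)
  set Eg := ∑' j : ℕ, ENNReal.ofReal η ^ j
  have hEg : Eg ≠ ∞ := by
    simp only [Eg]
    rw [ENNReal.tsum_geometric, ENNReal.inv_ne_top, ne_eq, tsub_eq_zero_iff_le, not_le,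
      ENNReal.ofReal_lt_one]
    exact hη1
  set ρ : ℕ → ℝ := fun j => 17 / 2 ^ j with hρd
  have hρ : ∀ j, 0 < ρ j := fun j => by positivity
  set a : ℕ → ℝ := fun j => 2 ^ m * ((ρ j) ^ m)⁻¹
  -- coefficients
  set D : ℕ → ℝ := fun j => (a j * (ρ j ^ n * V) ^ (1 - 1 / k)) ^ l * (Cs * ρ j ^ (n - 1))
  have hD : ∀ j, 0 ≤ D j := fun j => by positivity
  set W : ℕ → ℝ≥0∞ := fun j =>
    ((ENNReal.ofReal η ^ j)⁻¹ ^ l * ENNReal.ofReal (D j)) ^ (k / l) * ENNReal.ofReal (2 * ρ j)
  have hWsum : ∑' j, W j ≠ ∞ := by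
    set θ : ℝ := 2 ^ (-(k * h / 2))
    set K : ℝ := ((2 ^ m * ((17 : ℝ) ^ m)⁻¹ * ((17 : ℝ) ^ n * V) ^ (1 - 1 / k)) ^ l
        * (Cs * 17 ^ (n - 1))) ^ (k / l) * (2 * 17)
    have hW : ∀ j, W j = ENNReal.ofReal K * ENNReal.ofReal θ ^ j := fun j => by
      have hj : (0 : ℝ) < 2 ^ j := by positivity
      simp only [W]
      rw [ENNReal.inv_rpow, ← ENNReal.ofReal_pow hη.le, ENNReal.ofReal_rpow_of_nonneg
        (by positivity) hl0.le, ← ENNReal.ofReal_inv_of_pos (by positivity),
        ← ENNReal.ofReal_mul (by positivity), ENNReal.ofReal_rpow_of_nonneg (by positivity)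
        (by positivity), ← ENNReal.ofReal_mul (by positivity), ← ENNReal.ofReal_pow (by positivity),
        ← ENNReal.ofReal_mul (by positivity)]
      congr 1
      set t : ℝ := (2 : ℝ) ^ j with htd
      have hρj : ρ j = 17 * t⁻¹ := div_eq_mul_inv _ _
      have hηj : η ^ j = t⁻¹ ^ (h / 2) := by
        rw [hηd, Real.rpow_neg two_pos.le, ← inv_pow, ← Real.inv_rpow two_pos.le,
          ← Real.rpow_natCast, ← Real.rpow_mul (by norm_num), mul_comm, Real.rpow_mul (by norm_num),
          Real.rpow_natCast, inv_pow]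
      have hθj : θ ^ j = t⁻¹ ^ (k * h / 2) := by
        simp only [θ]
        rw [Real.rpow_neg two_pos.le, ← inv_pow, ← Real.inv_rpow two_pos.le,
          ← Real.rpow_natCast, ← Real.rpow_mul (by norm_num), mul_comm, Real.rpow_mul (by norm_num),
          Real.rpow_natCast, inv_pow]
      have hs : 0 < t⁻¹ := by positivity
      simp only [D, a, K, hρj, hθj, hηj]
      generalize t⁻¹ = s at hs
      rw [mul_pow, mul_pow, mul_pow, mul_inv, ← Real.rpow_natCast s m, ← Real.rpow_natCast s n,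
        ← Real.rpow_natCast s (n - 1), ← Real.rpow_neg hs.le, ← Real.rpow_mul hs.le,
        ← Real.rpow_neg hs.le]
      have e1 : ((17 : ℝ) ^ n * s ^ (n : ℝ) * V) ^ (1 - 1 / k)
          = ((17 : ℝ) ^ n * V) ^ (1 - 1 / k) * s ^ ((n : ℝ) * (1 - 1 / k)) := by
        rw [mul_right_comm, Real.mul_rpow (by positivity) (by positivity), ← Real.rpow_mul hs.le]
      rw [e1, show (2 : ℝ) ^ m * (((17 : ℝ) ^ m)⁻¹ * s ^ (-(m : ℝ)))
            * (((17 : ℝ) ^ n * V) ^ (1 - 1 / k) * s ^ ((n : ℝ) * (1 - 1 / k)))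
          = (2 : ℝ) ^ m * ((17 : ℝ) ^ m)⁻¹ * ((17 : ℝ) ^ n * V) ^ (1 - 1 / k)
            * (s ^ (-(m : ℝ)) * s ^ ((n : ℝ) * (1 - 1 / k))) by ring,
        ← Real.rpow_add hs, Real.mul_rpow (by positivity) (by positivity), ← Real.rpow_mul hs.le,
        Real.mul_rpow (x := (2 : ℝ) ^ m * ((17 : ℝ) ^ m)⁻¹ * ((17 : ℝ) ^ n * V) ^ (1 - 1 / k))
          (z := l) (by positivity) (by positivity), ← Real.rpow_mul hs.le]
      have hP0 : 0 ≤ ((2 : ℝ) ^ m * ((17 : ℝ) ^ m)⁻¹ * ((17 : ℝ) ^ n * V) ^ (1 - 1 / k)) ^ l := by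
        positivity
      generalize ((2 : ℝ) ^ m * ((17 : ℝ) ^ m)⁻¹ * ((17 : ℝ) ^ n * V) ^ (1 - 1 / k)) ^ l = P
        at hP0 ⊢
      set e0 := (-(m : ℝ) + (n : ℝ) * (1 - 1 / k)) * l
      rw [show P * s ^ e0 * (Cs * ((17 : ℝ) ^ (n - 1) * s ^ ((n - 1 : ℕ) : ℝ)))
          = P * (Cs * (17 : ℝ) ^ (n - 1)) * (s ^ e0 * s ^ ((n - 1 : ℕ) : ℝ)) by ring,
        ← Real.rpow_add hs]
      generalize hP : P * (Cs * (17 : ℝ) ^ (n - 1)) = Q
      have hQ : 0 ≤ Q := by rw [← hP]; positivity
      rw [Real.mul_rpow hQ (by positivity), ← Real.rpow_mul hs.le,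
        show ∀ x y z : ℝ, x * (y * z) * (2 * (17 * s)) = y * (2 * 17) * (x * z * s) from
          fun x y z => by ring,
        ← Real.rpow_add hs, ← Real.rpow_add_one hs.ne']
      congr 2
      simp only [e0, hhd]
      rw [Nat.cast_sub (by omega)]
      push_cast
      field_simp
      ring
    simp only [hW]
    rw [ENNReal.tsum_mul_left, ENNReal.tsum_geometric]
    refine ENNReal.mul_ne_top ENNReal.ofReal_ne_top ?_
    rw [ENNReal.inv_ne_top, ne_eq, tsub_eq_zero_iff_le, not_le, ENNReal.ofReal_lt_one]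
    exact Real.rpow_lt_one_of_one_lt_of_neg (by norm_num) (by linarith [mul_pos hk0 hh])
  refine ⟨Eg ^ k * ∑' j, W j, ENNReal.mul_ne_top (ENNReal.rpow_ne_top_of_nonneg hk0.le hEg) hWsum,
    fun g hg hg8 => ?_⟩
  set gk : En n → ℝ≥0∞ := fun y => g y ^ k
  have hgk : Measurable gk := hg.pow_const k
  set G : ℕ → En n → ℝ≥0∞ := fun j x => ∫⁻ y in Metric.ball x (ρ j), g y with hGd
  set N : ℕ → ℝ → ℝ≥0∞ := fun j r =>
    ∫⁻ y, {z : ℝ × En n | ‖z.2‖ ∈ Metric.ball z.1 (ρ j)}.indicator (fun z => gk z.2) (r, y)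
  have hNm : ∀ j, Measurable (N j) := fun j =>
    ((hgk.comp measurable_snd).indicator (measurableSet_band (ρ j))).lintegral_prod_right'
  have hGm : ∀ j, Measurable (G j) := fun j => by
    have : G j = fun x => ∫⁻ y, {z : En n × En n | z.2 ∈ Metric.ball z.1 (ρ j)}.indicator
        (fun z => g z.2) (x, y) := funext fun x => by
      simp only [hGd]
      rw [← lintegral_indicator measurableSet_ball]
      rfl
    rw [this]
    refine ((hg.comp measurable_snd).indicator ?_).lintegral_prod_right'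
    simp only [Metric.mem_ball]
    exact measurableSet_lt (by fun_prop) measurable_const
  -- pointwise dyadic bound
  have hpot : ∀ x : En n, ‖x‖ ≤ 8 → pot m g x ≤ ∑' j, ENNReal.ofReal (a j) * G j x := fun x hx => by
    have hne : ∀ᵐ y : En n, y ≠ x := by rw [ae_iff]; simp
    calc pot m g x ≤ ∫⁻ y, ∑' j, ENNReal.ofReal (a j) * (Metric.ball x (ρ j)).indicator g y := by
          refine lintegral_mono_ae ?_
          filter_upwards [hne] with y hy
          by_cases h8 : 8 < ‖y‖
          · simp [hg8 y h8]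
          push Not at h8
          have := gam_le_tsum m (show (0 : ℝ) < 17 by norm_num) (sub_ne_zero.2 (Ne.symm hy))
            (by linarith [norm_sub_le x y])
          refine (mul_le_mul' this le_rfl).trans (le_of_eq ?_)
          rw [← ENNReal.tsum_mul_right]
          refine tsum_congr fun j => ?_
          rw [mul_assoc]
          congr 1
          by_cases hyb : y ∈ Metric.ball x (ρ j)
          · rw [Set.indicator_of_mem hyb, Set.indicator_of_mem, Pi.one_apply, one_mul]
            rwa [Metric.mem_ball, dist_zero_right, ← dist_eq_norm, dist_comm, ← Metric.mem_ball]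
          · rw [Set.indicator_of_notMem hyb, Set.indicator_of_notMem, zero_mul]
            rwa [Metric.mem_ball, dist_zero_right, ← dist_eq_norm, dist_comm, ← Metric.mem_ball]
      _ = _ := by
          rw [lintegral_tsum fun j => ((hg.indicator measurableSet_ball).const_mul _).aemeasurable]
          refine tsum_congr fun j => ?_
          rw [lintegral_const_mul _ (hg.indicator measurableSet_ball),
            lintegral_indicator measurableSet_ball]
  -- bound of one piece on one sphere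
  have hpiece : ∀ j r, 1 / 4 ≤ r →
      ∫⁻ θ, (ENNReal.ofReal (a j) * G j (r • (θ : En n))) ^ l ∂sig n
        ≤ ENNReal.ofReal (D j) * N j r ^ (l / k) := by
    intro j r hr
    set X : sph n → ℝ≥0∞ := fun θ => ∫⁻ y in Metric.ball (r • (θ : En n)) (ρ j), gk y with hXd
    set c : ℝ≥0∞ := ENNReal.ofReal (ρ j ^ n * V) ^ (1 - 1 / k)
    have hG1 : ∀ θ : sph n, G j (r • (θ : En n)) ≤ c * X θ ^ (1 / k) := fun θ => by
      have hk1 : 1 / k ≤ 1 := (div_le_one hk0).2 hk
      have := ENNReal.lintegral_mul_norm_pow_le (μ := volume.restrict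
        (Metric.ball (r • (θ : En n)) (ρ j))) (f := gk) (g := fun _ => (1 : ℝ≥0∞)) hgk.aemeasurable
        aemeasurable_const (show 0 ≤ 1 / k by positivity) (show 0 ≤ 1 - 1 / k by linarith)
        (by ring)
      simp only [gk, one_div, ← ENNReal.rpow_mul, mul_inv_cancel₀ hk0.ne', ENNReal.rpow_one,
        ENNReal.one_rpow, mul_one, lintegral_one, Measure.restrict_apply_univ,
        Measure.addHaar_ball_of_pos _ _ (hρ j), finrank_euclideanSpace_fin, hV,
        ← ENNReal.ofReal_mul (show (0 : ℝ) ≤ ρ j ^ n by positivity)] at this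
      rw [mul_comm]
      simp only [hXd, c, gk, one_div]
      exact this
    have hX : ∀ θ, X θ ≤ N j r := fun θ => by
      simp only [hXd, N]
      rw [← lintegral_indicator measurableSet_ball]
      refine lintegral_mono fun y => ?_
      by_cases hy : y ∈ Metric.ball (r • (θ : En n)) (ρ j)
      · rw [Set.indicator_of_mem hy, Set.indicator_of_mem]
        rw [mem_ofPred_eq, Metric.mem_ball, Real.dist_eq]
        rw [Metric.mem_ball, dist_eq_norm] at hy
        have h1 := abs_norm_sub_norm_le y (r • (θ : En n))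
        rw [norm_smul, norm_of_mem θ.2, mul_one, Real.norm_of_nonneg (by linarith : 0 ≤ r)] at h1
        linarith
      · rw [Set.indicator_of_notMem hy]; exact zero_le
    have hXint : ∫⁻ θ, X θ ∂sig n ≤ ENNReal.ofReal (Cs * ρ j ^ (n - 1)) * N j r := by
      have hm2 : Measurable (Function.uncurry fun (θ : sph n) (y : En n) =>
          (Metric.ball (r • (θ : En n)) (ρ j)).indicator gk y) := by
        refine Measurable.ite ?_ (hgk.comp measurable_snd) measurable_const
        simp only [Metric.mem_ball]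
        exact measurableSet_lt (by fun_prop) measurable_const
      simp only [hXd, ← lintegral_indicator measurableSet_ball]
      rw [lintegral_lintegral_swap hm2.aemeasurable, ← lintegral_const_mul']
      swap
      · exact ENNReal.ofReal_ne_top
      refine lintegral_mono fun y => ?_
      by_cases hy : ‖y‖ ∈ Metric.ball r (ρ j)
      · rw [Set.indicator_of_mem (show (r, y) ∈ {z : ℝ × En n | ‖z.2‖ ∈ Metric.ball z.1 (ρ j)}
          from hy)]
        calc ∫⁻ θ, (Metric.ball (r • (θ : En n)) (ρ j)).indicator gk y ∂sig n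
            = ∫⁻ θ, {θ : sph n | y ∈ Metric.ball (r • (θ : En n)) (ρ j)}.indicator
                (fun _ => gk y) θ ∂sig n := rfl
          _ ≤ gk y * sig n {θ : sph n | y ∈ Metric.ball (r • (θ : En n)) (ρ j)} :=
              lintegral_indicator_const_le _ _
          _ ≤ _ := by rw [mul_comm]; exact mul_le_mul' (hslice r y (ρ j) hr (hρ j)) le_rfl
      · rw [lintegral_congr (g := fun _ => 0) fun θ => Set.indicator_of_notMem (fun h => hy ?_) _]
        · simp
        · rw [Metric.mem_ball, Real.dist_eq]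
          rw [Metric.mem_ball, dist_eq_norm] at h
          have h1 := abs_norm_sub_norm_le y (r • (θ : En n))
          rw [norm_smul, norm_of_mem θ.2, mul_one, Real.norm_of_nonneg (by linarith : 0 ≤ r)] at h1
          linarith
    calc ∫⁻ θ, (ENNReal.ofReal (a j) * G j (r • (θ : En n))) ^ l ∂sig n
        ≤ ∫⁻ θ, (ENNReal.ofReal (a j) * c) ^ l * N j r ^ (l / k - 1) * X θ ∂sig n := by
          refine lintegral_mono fun θ => ?_
          refine (ENNReal.rpow_le_rpow (mul_le_mul' le_rfl (hG1 θ)) hl0.le).trans ?_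
          rw [← mul_assoc, ENNReal.mul_rpow_of_nonneg _ _ hl0.le, ← ENNReal.rpow_mul,
            mul_assoc ((_ : ℝ≥0∞) ^ l), show 1 / k * l = (l / k - 1) + 1 by field_simp; ring,
            ENNReal.rpow_add_of_nonneg _ _ (by linarith) zero_le_one, ENNReal.rpow_one]
          exact mul_le_mul' le_rfl (mul_le_mul' (ENNReal.rpow_le_rpow (hX θ) (by linarith)) le_rfl)
      _ ≤ (ENNReal.ofReal (a j) * c) ^ l * N j r ^ (l / k - 1)
          * (ENNReal.ofReal (Cs * ρ j ^ (n - 1)) * N j r) := by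
          rw [lintegral_const_mul]
          · exact mul_le_mul' le_rfl hXint
          · simp only [hXd, ← lintegral_indicator measurableSet_ball]
            refine Measurable.lintegral_prod_right' (f := fun z : sph n × En n =>
              (Metric.ball (r • (z.1 : En n)) (ρ j)).indicator gk z.2) ?_
            refine Measurable.ite ?_ (hgk.comp measurable_snd) measurable_const
            simp only [Metric.mem_ball]
            exact measurableSet_lt (by fun_prop) measurable_const
      _ = _ := by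
          have hk1 : 1 / k ≤ 1 := (div_le_one hk0).2 hk
          simp only [c, D]
          rw [ENNReal.ofReal_rpow_of_nonneg (by positivity) (by linarith),
            ← ENNReal.ofReal_mul (by positivity), ENNReal.ofReal_rpow_of_nonneg (by positivity) hl0.le,
            ENNReal.ofReal_mul (p := (a j * (ρ j ^ n * V) ^ (1 - 1 / k)) ^ l) (by positivity)]
          conv_rhs => rw [show l / k = (l / k - 1) + 1 by ring,
            ENNReal.rpow_add_of_nonneg _ _ (by linarith) zero_le_one, ENNReal.rpow_one]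
          ring
  -- assemble
  have hN : ∀ j, ∫⁻ r in Icc (1 / 4 : ℝ) 8, N j r ≤ ENNReal.ofReal (2 * ρ j) * ∫⁻ y, gk y := by
    intro j
    refine (setLIntegral_le_lintegral _ _).trans ?_
    simp only [N]
    rw [lintegral_lintegral_swap (f := fun r y =>
      {z : ℝ × En n | ‖z.2‖ ∈ Metric.ball z.1 (ρ j)}.indicator (fun z => gk z.2) (r, y))
      ((hgk.comp measurable_snd).indicator (measurableSet_band (ρ j))).aemeasurable,
      ← lintegral_const_mul _ hgk]
    refine lintegral_mono fun y => ?_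
    calc ∫⁻ r, {z : ℝ × En n | ‖z.2‖ ∈ Metric.ball z.1 (ρ j)}.indicator (fun z => gk z.2) (r, y)
        = ∫⁻ r, (Metric.ball ‖y‖ (ρ j)).indicator (fun _ => gk y) r := by
          refine lintegral_congr fun r => ?_
          simp only [Set.indicator, mem_ofPred_eq, Metric.mem_ball]
          simp [dist_comm r]
      _ ≤ gk y * volume (Metric.ball ‖y‖ (ρ j)) := lintegral_indicator_const_le _ _
      _ = _ := by rw [Real.volume_ball, mul_comm]
  calc ∫⁻ r in Icc (1 / 4 : ℝ) 8, (∫⁻ θ, pot m g (r • (θ : En n)) ^ l ∂sig n) ^ (k / l)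
      ≤ ∫⁻ r in Icc (1 / 4 : ℝ) 8, Eg ^ k * ∑' j,
          ((ENNReal.ofReal η ^ j)⁻¹ ^ l * ENNReal.ofReal (D j)) ^ (k / l) * N j r := by
        refine setLIntegral_mono' measurableSet_Icc fun r hr => ?_
        have h1 : ∫⁻ θ, pot m g (r • (θ : En n)) ^ l ∂sig n
            ≤ Eg ^ l * ∑' j, (ENNReal.ofReal η ^ j)⁻¹ ^ l * ENNReal.ofReal (D j)
                * N j r ^ (l / k) := by
          calc ∫⁻ θ, pot m g (r • (θ : En n)) ^ l ∂sig n
              ≤ ∫⁻ θ, Eg ^ l * ∑' j, (ENNReal.ofReal η ^ j)⁻¹ ^ l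
                  * (ENNReal.ofReal (a j) * G j (r • (θ : En n))) ^ l ∂sig n := by
                refine lintegral_mono fun θ => ?_
                refine (ENNReal.rpow_le_rpow (hpot _ ?_) hl0.le).trans
                  (tsum_rpow_le hη (hk.trans hl) _)
                rw [norm_smul, norm_of_mem θ.2, mul_one,
                  Real.norm_of_nonneg (by linarith [hr.1] : 0 ≤ r)]
                exact hr.2
            _ = Eg ^ l * ∑' j, (ENNReal.ofReal η ^ j)⁻¹ ^ l
                  * ∫⁻ θ, (ENNReal.ofReal (a j) * G j (r • (θ : En n))) ^ l ∂sig n := by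
                have hmj : ∀ j, Measurable fun θ : sph n =>
                    (ENNReal.ofReal (a j) * G j (r • (θ : En n))) ^ l := fun j =>
                  (((hGm j).comp (by fun_prop)).const_mul _).pow_const l
                rw [lintegral_const_mul _ (Measurable.ennreal_tsum fun j => (hmj j).const_mul _),
                  lintegral_tsum fun j => ((hmj j).const_mul _).aemeasurable]
                congr 1
                exact tsum_congr fun j => lintegral_const_mul _ (hmj j)
            _ ≤ _ := by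
                refine mul_le_mul' le_rfl (ENNReal.tsum_le_tsum fun j => ?_)
                rw [mul_assoc]
                exact mul_le_mul' le_rfl (hpiece j r hr.1)
        refine (ENNReal.rpow_le_rpow h1 (by positivity)).trans ?_
        rw [ENNReal.mul_rpow_of_nonneg _ _ (by positivity), ← ENNReal.rpow_mul,
          mul_div_cancel₀ _ hl0.ne']
        refine mul_le_mul' le_rfl ((rpow_tsum_le (div_pos hk0 hl0) hkl' _).trans
          (ENNReal.tsum_le_tsum fun j => ?_))
        rw [ENNReal.mul_rpow_of_nonneg _ _ (by positivity), ← ENNReal.rpow_mul,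
          show l / k * (k / l) = 1 by field_simp, ENNReal.rpow_one]
    _ = Eg ^ k * ∑' j, ((ENNReal.ofReal η ^ j)⁻¹ ^ l * ENNReal.ofReal (D j)) ^ (k / l)
          * ∫⁻ r in Icc (1 / 4 : ℝ) 8, N j r := by
        rw [lintegral_const_mul _ (Measurable.ennreal_tsum fun j => (hNm j).const_mul _),
          lintegral_tsum fun j => ((hNm j).const_mul _).aemeasurable]
        congr 1
        exact tsum_congr fun j => lintegral_const_mul _ (hNm j)
    _ ≤ Eg ^ k * ∑' j, W j * ∫⁻ y, gk y := by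
        refine mul_le_mul' le_rfl (ENNReal.tsum_le_tsum fun j => ?_)
        simp only [W]
        rw [mul_assoc]
        exact mul_le_mul' le_rfl (hN j)
    _ = _ := by rw [ENNReal.tsum_mul_right, mul_assoc]

end Vale.Agent.P100.Feedback
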