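import Vale.Agent.P100.Feedback.Weak
import Vale.Agent.P100.Feedback.Mixed
import Mathlib.Analysis.Calculus.FDeriv.Measurable
import Mathlib.MeasureTheory.Integral.IntervalIntegral.FundThmCalculus

/-!
The Pohozaev inequality on balls.
-/

open Filter Topology Set MeasureTheory
open scoped ENNReal InnerProductSpace

namespace Vale.Agent.P100.Feedback

variable {n : ℕ}

/-- The weighted energy in a ball. -/
noncomputable def energy (q B : ℝ) (u : En n → ℝ) (t : ℝ) : ℝ :=
  ∫ x in Metric.closedBall (0 : En n) t, ‖x‖ ^ B * u x ^ (q + 1)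

/-- The boundary density. -/
noncomputable def bdry (p q : ℝ) (u v : En n → ℝ) (x : En n) : ℝ :=
  (‖fderiv ℝ u x‖ + u x) * (‖fderiv ℝ v x‖ + v x) + u x ^ (q + 1) + v x ^ (p + 1)

/-- The boundary density integrated over the sphere of radius `r`. -/
noncomputable def bdryInt (p q : ℝ) (u v : En n → ℝ) (r : ℝ) : ℝ :=
  ∫ θ, bdry p q u v (r • (θ : En n)) ∂sig n

/-- The scalar part of the Pohozaev field. -/
noncomputable def eDen (p q A B : ℝ) (u v : En n → ℝ) (x : En n) : ℝ :=
  -(∑ j, pd j u x * pd j v x) + ‖x‖ ^ A * v x ^ (p + 1) / (p + 1)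
    + ‖x‖ ^ B * u x ^ (q + 1) / (q + 1)

/-- The Pohozaev field. -/
noncomputable def pField (p q A B a b : ℝ) (u v : En n → ℝ) (i : Fin n) (x : En n) : ℝ :=
  eDen p q A B u v x * x i + rd u x * pd i v x + rd v x * pd i u x
    + a * (v x * pd i u x) + b * (u x * pd i v x)

lemma bdry_nonneg {p q A B : ℝ} {u v : En n → ℝ} (h : Sol p q A B u v) (x : En n) :
    0 ≤ bdry p q u v x := by
  have := h.hup x
  have := h.hvp x
  unfold bdry; positivity

lemma continuousOn_bdry {p q A B : ℝ} {u v : En n → ℝ} (h : Sol p q A B u v) (hp : 0 ≤ p)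
    (hq : 0 ≤ q) : ContinuousOn (bdry p q u v) ({0}ᶜ : Set (En n)) :=
  ((((h.hu.continuousOn_fderiv_of_isOpen isOpen_compl_singleton (by norm_num)).norm.add
    h.huc.continuousOn).mul ((h.hv.continuousOn_fderiv_of_isOpen isOpen_compl_singleton
      (by norm_num)).norm.add h.hvc.continuousOn)).add
    (h.huc.rpow_const fun _ => Or.inr (by linarith)).continuousOn).add
    (h.hvc.rpow_const fun _ => Or.inr (by linarith)).continuousOn

lemma hasFDerivAt_coord (i : Fin n) (x : En n) :
    HasFDerivAt (fun y : En n => y i) (EuclideanSpace.proj i : En n →L[ℝ] ℝ) x :=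
  (EuclideanSpace.proj i : En n →L[ℝ] ℝ).hasFDerivAt

lemma hasFDerivAt_rd' {f : En n → ℝ} {x : En n} (hf : ContDiffAt ℝ 2 f x) :
    HasFDerivAt (rd f) ((fderiv ℝ f x).comp (ContinuousLinearMap.id ℝ (En n))
      + (hes f x).flip x) x :=
  (hasFDerivAt_fderiv' hf).clm_apply (hasFDerivAt_id x)

lemma hasFDerivAt_norm_rpow' (A : ℝ) {x : En n} (hx : x ≠ 0) :
    ∃ L : En n →L[ℝ] ℝ, HasFDerivAt (fun y => ‖y‖ ^ A) L x ∧ L x = A * ‖x‖ ^ A := by
  have h1 : HasFDerivAt (sqd (0 : En n)) (fderiv ℝ (sqd 0) x) x :=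
    ((contDiff_sqd (m := 1) 0).differentiable (by norm_num) x).hasFDerivAt
  have hs : sqd 0 x ≠ 0 := by simp [sqd, hx]
  have h2 := h1.rpow_const (p := A / 2) (Or.inl hs)
  have e : (fun y : En n => sqd 0 y ^ (A / 2)) = fun y => ‖y‖ ^ A := funext fun y => by
    rw [sqd, sub_zero, ← Real.rpow_natCast ‖y‖ 2, ← Real.rpow_mul (norm_nonneg y)]
    congr 1; push_cast; ring
  rw [e] at h2
  refine ⟨_, h2, ?_⟩
  rw [smul_apply, fderiv_sqd, sub_zero, real_inner_self_eq_norm_sq, smul_eq_mul,
    Real.rpow_sub_one hs, ← congrFun e x]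
  rw [show ‖x‖ ^ 2 = sqd 0 x by simp [sqd]]
  field_simp

lemma hasFDerivAt_eDen {p q A B : ℝ} (hp : 0 ≤ p) (hq : 0 ≤ q) {u v : En n → ℝ}
    (h : Sol p q A B u v) {x : En n} (hx : x ≠ 0) :
    ∃ L : En n →L[ℝ] ℝ, HasFDerivAt (eDen p q A B u v) L x ∧
      L x = -(∑ j, (hes u x x (eb j) * pd j v x + pd j u x * hes v x x (eb j)))
        + (A * ‖x‖ ^ A * v x ^ (p + 1) / (p + 1) + ‖x‖ ^ A * v x ^ p * rd v x)
        + (B * ‖x‖ ^ B * u x ^ (q + 1) / (q + 1) + ‖x‖ ^ B * u x ^ q * rd u x) := by
  have hu2 := h.hu.at hx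
  have hv2 := h.hv.at hx
  obtain ⟨LA, hA, eA⟩ := hasFDerivAt_norm_rpow' A hx
  obtain ⟨LB, hB, eB⟩ := hasFDerivAt_norm_rpow' B hx
  have h1 := HasFDerivAt.fun_sum (u := Finset.univ) fun j (_ : j ∈ Finset.univ) =>
    (hasFDerivAt_pd hu2 j).mul (hasFDerivAt_pd hv2 j)
  have h2 := (hA.mul ((h.hv.hasFDerivAt hx).rpow_const (p := p + 1)
    (Or.inl (h.hvp x).ne'))).mul_const (p + 1)⁻¹
  have h3 := (hB.mul ((h.hu.hasFDerivAt hx).rpow_const (p := q + 1)
    (Or.inl (h.hup x).ne'))).mul_const (q + 1)⁻¹
  refine ⟨_, (h1.neg.add h2).add h3, ?_⟩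
  simp only [add_apply, neg_apply, smul_apply, FunLike.coe_sum, Finset.sum_apply,
    ContinuousLinearMap.coe_comp, Function.comp_apply, ContinuousLinearMap.apply_apply, smul_eq_mul,
    eA, eB, rd, add_sub_cancel_right]
  have hp1 : p + 1 ≠ 0 := by linarith
  have hq1 : q + 1 ≠ 0 := by linarith
  field_simp
  rw [Finset.sum_congr rfl fun j _ => show pd j u x * hes v x x (eb j) + pd j v x * hes u x x (eb j)
    = hes u x x (eb j) * pd j v x + pd j u x * hes v x x (eb j) by ring]
  ring

/-- The divergence of the Pohozaev field. -/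
lemma div_pField {p q A B a b : ℝ} (hp : 0 < p) (hq : 0 < q) (ha : a = ((n : ℝ) + A) / (p + 1))
    (hb : b = (n : ℝ) - 2 - a) {u v : En n → ℝ} (h : Sol p q A B u v) {x : En n} (hx : x ≠ 0) :
    ∑ i, fderiv ℝ (pField p q A B a b u v i) x (eb i)
      = (((n : ℝ) + B) / (q + 1) - b) * (‖x‖ ^ B * u x ^ (q + 1)) := by
  have hu2 := h.hu.at hx
  have hv2 := h.hv.at hx
  obtain ⟨L, hL, eL⟩ := hasFDerivAt_eDen hp.le hq.le h hx
  have hP : ∀ i, fderiv ℝ (pField p q A B a b u v i) x (eb i) =
      x i * L (eb i) + eDen p q A B u v x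
      + (rd u x * fderiv ℝ (pd i v) x (eb i) + pd i v x * (pd i u x + hes u x x (eb i)))
      + (rd v x * fderiv ℝ (pd i u) x (eb i) + pd i u x * (pd i v x + hes v x x (eb i)))
      + a * (v x * fderiv ℝ (pd i u) x (eb i) + pd i u x * pd i v x)
      + b * (u x * fderiv ℝ (pd i v) x (eb i) + pd i v x * pd i u x) := fun i => by
    have hh : HasFDerivAt (pField p q A B a b u v i) _ x :=
      ((((hL.mul (hasFDerivAt_coord i x)).add
        ((hasFDerivAt_rd' hu2).mul (hasFDerivAt_pd hv2 i))).add
        ((hasFDerivAt_rd' hv2).mul (hasFDerivAt_pd hu2 i))).add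
        (((h.hv.hasFDerivAt hx).mul (hasFDerivAt_pd hu2 i)).const_mul a)).add
        (((h.hu.hasFDerivAt hx).mul (hasFDerivAt_pd hv2 i)).const_mul b)
    rw [hh.fderiv, fderiv_pd_apply hu2, fderiv_pd_apply hv2]
    simp [pd, eb, EuclideanSpace.basisFun_apply, hes_symm hu2 _ x, hes_symm hv2 _ x]
    ring
  have e1 : ∀ i, hes u x x (eb i) * pd i v x + pd i u x * hes v x x (eb i)
      = pd i v x * hes u x x (eb i) + pd i u x * hes v x x (eb i) := fun i => by ring
  simp only [hP, Finset.sum_add_distrib, mul_add, ← Finset.mul_sum, sum_pd_pd hu2, sum_pd_pd hv2,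
    ← apply_eq_sum, Finset.sum_const, Finset.card_univ, Fintype.card_fin, nsmul_eq_mul, eL,
    h.e1 x hx, h.e2 x hx, e1]
  have e2 : ∑ i, pd i v x * pd i u x = ∑ i, pd i u x * pd i v x :=
    Finset.sum_congr rfl fun i _ => mul_comm _ _
  rw [e2, eDen]
  have evp : v x ^ (p + 1) = v x ^ p * v x := Real.rpow_add_one (h.hvp x).ne' p
  have euq : u x ^ (q + 1) = u x ^ q * u x := Real.rpow_add_one (h.hup x).ne' q
  rw [evp, euq, hb, ha]
  have hp1 : p + 1 ≠ 0 := by linarith
  have hq1 : q + 1 ≠ 0 := by linarith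
  field_simp
  ring

lemma contDiffOn_pField {p q A B a b : ℝ} {u v : En n → ℝ} (h : Sol p q A B u v) (i : Fin n) :
    ContDiffOn ℝ (1 : ℕ) (pField p q A B a b u v i) ({0}ᶜ : Set (En n)) := by
  have hpu := fun j => contDiffOn_pd isOpen_compl_singleton h.hu j
  have hpv := fun j => contDiffOn_pd isOpen_compl_singleton h.hv j
  have hn' : ∀ C : ℝ, ContDiffOn ℝ (1 : ℕ) (fun y : En n => ‖y‖ ^ C) ({0}ᶜ : Set (En n)) :=
    fun C y hy => (((contDiffAt_norm ℝ hy).rpow_const_of_ne
      (norm_ne_zero_iff.2 hy))).contDiffWithinAt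
  have hu1 : ContDiffOn ℝ (1 : ℕ) u ({0}ᶜ : Set (En n)) := h.hu.of_le (by norm_num)
  have hv1 : ContDiffOn ℝ (1 : ℕ) v ({0}ᶜ : Set (En n)) := h.hv.of_le (by norm_num)
  have hE : ContDiffOn ℝ (1 : ℕ) (eDen p q A B u v) ({0}ᶜ : Set (En n)) :=
    ((ContDiffOn.sum fun j _ => (hpu j).mul (hpv j)).neg.add
      (((hn' A).mul (hv1.rpow_const_of_ne fun y _ => (h.hvp y).ne')).div_const _)).add
      (((hn' B).mul (hu1.rpow_const_of_ne fun y _ => (h.hup y).ne')).div_const _)
  have hrd : ∀ f : En n → ℝ, C2 f → ContDiffOn ℝ (1 : ℕ) (rd f) ({0}ᶜ : Set (En n)) := fun f hf =>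
    (hf.fderiv_of_isOpen isOpen_compl_singleton (by norm_num)).clm_apply contDiffOn_id
  exact ((((hE.mul (EuclideanSpace.proj i : En n →L[ℝ] ℝ).contDiff.contDiffOn).add
    ((hrd u h.hu).mul (hpv i))).add ((hrd v h.hv).mul (hpu i))).add
    (contDiffOn_const.mul (hv1.mul (hpu i)))).add (contDiffOn_const.mul (hu1.mul (hpv i)))

lemma abs_pField_le {p q A B a b : ℝ} (hp : 0 ≤ p) (hq : 0 ≤ q) {u v : En n → ℝ}
    (h : Sol p q A B u v) (i : Fin n) (x : En n) :
    |pField p q A B a b u v i x| ≤
      ‖x‖ * (((n : ℝ) + 2) * (‖fderiv ℝ u x‖ * ‖fderiv ℝ v x‖)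
        + ‖x‖ ^ A * v x ^ (p + 1) + ‖x‖ ^ B * u x ^ (q + 1))
      + |a| * (v x * ‖fderiv ℝ u x‖) + |b| * (u x * ‖fderiv ℝ v x‖) := by
  have hd : ∀ (f : En n → ℝ) j, |pd j f x| ≤ ‖fderiv ℝ f x‖ := fun f j => by
    have := (fderiv ℝ f x).le_opNorm (eb j)
    rwa [(EuclideanSpace.basisFun (Fin n) ℝ).orthonormal.1 j, mul_one] at this
  have hr : ∀ f : En n → ℝ, |rd f x| ≤ ‖fderiv ℝ f x‖ * ‖x‖ := fun f => (fderiv ℝ f x).le_opNorm x
  have hxi : |x i| ≤ ‖x‖ := by simpa using PiLp.norm_apply_le x i
  have hu0 := (h.hup x).le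
  have hv0 := (h.hvp x).le
  have hsA : 0 ≤ ‖x‖ ^ A * v x ^ (p + 1) := by positivity
  have hsB : 0 ≤ ‖x‖ ^ B * u x ^ (q + 1) := by positivity
  have hE : |eDen p q A B u v x| ≤ (n : ℝ) * (‖fderiv ℝ u x‖ * ‖fderiv ℝ v x‖)
      + ‖x‖ ^ A * v x ^ (p + 1) + ‖x‖ ^ B * u x ^ (q + 1) := by
    refine (abs_add_le _ _).trans (add_le_add ((abs_add_le _ _).trans (add_le_add ?_ ?_)) ?_)
    · rw [abs_neg]
      refine (Finset.abs_sum_le_sum_abs _ _).trans ((Finset.sum_le_card_nsmul _ _
        (‖fderiv ℝ u x‖ * ‖fderiv ℝ v x‖) fun j _ => ?_).trans (le_of_eq (by simp)))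
      rw [abs_mul]
      exact mul_le_mul (hd u j) (hd v j) (abs_nonneg _) (norm_nonneg _)
    · rw [abs_of_nonneg (by positivity)]; exact div_le_self hsA (by linarith)
    · rw [abs_of_nonneg (by positivity)]; exact div_le_self hsB (by linarith)
  refine ((abs_add_le _ _).trans (add_le_add ((abs_add_le _ _).trans (add_le_add
    ((abs_add_le _ _).trans (add_le_add ((abs_add_le _ _).trans (add_le_add
      (b := |eDen p q A B u v x| * |x i|) (abs_mul _ _).le (abs_mul _ _).le)) (abs_mul _ _).le))
      (abs_mul a _).le)) (abs_mul b _).le)).trans ?_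
  rw [abs_mul (v x), abs_mul (u x), abs_of_nonneg hu0, abs_of_nonneg hv0]
  have k1 := mul_le_mul hE hxi (abs_nonneg _) (by positivity)
  have k2 := mul_le_mul (hr u) (hd v i) (abs_nonneg _) (by positivity)
  have k3 := mul_le_mul (hr v) (hd u i) (abs_nonneg _) (by positivity)
  have k4 := mul_le_mul_of_nonneg_left (mul_le_mul_of_nonneg_left (hd u i) hv0) (abs_nonneg a)
  have k5 := mul_le_mul_of_nonneg_left (mul_le_mul_of_nonneg_left (hd v i) hu0) (abs_nonneg b)
  linarith

section
variable (hn : 3 ≤ n)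
include hn

/-- The gradient is `O(1/‖x‖)` at the origin. -/
lemma grad_near_zero {p q A B : ℝ} (hA : -2 < A) (hp : 0 ≤ p) {u v : En n → ℝ}
    (h : Sol p q A B u v) :
    ∃ C : ℝ, 0 ≤ C ∧ ∀ x : En n, x ≠ 0 → ‖x‖ ≤ 1 → ‖fderiv ℝ u x‖ ≤ C / ‖x‖ := by
  obtain ⟨Cg, hCg, hg⟩ := exists_grad_bound hn
  obtain ⟨M1, hM1⟩ := (isCompact_closedBall (0 : En n) 2).exists_bound_of_continuousOn
    (h.hvc.rpow_const fun _ => Or.inr hp).continuousOn
  obtain ⟨M2, hM2⟩ := (isCompact_closedBall (0 : En n) 2).exists_bound_of_continuousOn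
    h.huc.continuousOn
  set K := max ((1 / 2 : ℝ) ^ A) ((3 / 2) ^ A)
  set V := volume.real (Metric.closedBall (0 : En n) 1)
  set J := ∫ z in Metric.closedBall (0 : En n) 1, gam (n - 1) z
  have hJ : 0 ≤ J := integral_nonneg fun z => gam_nonneg _ _
  have hV : 0 ≤ V := measureReal_nonneg
  have hM1' : 0 ≤ M1 := (norm_nonneg _).trans (hM1 0 (by simp))
  have hM2' : 0 ≤ M2 := (norm_nonneg _).trans (hM2 0 (by simp))
  have hK : 0 ≤ K := le_max_of_le_left (by positivity)
  refine ⟨Cg * (M1 * K * J / 2 + 3 ^ n * 6 * M2 * V), by positivity, fun x hx hx1 => ?_⟩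
  set r := ‖x‖ with hr
  have hr0 : 0 < r := norm_pos_iff.2 hx
  have hball : ∀ y ∈ Metric.closedBall x (3 * (r / 6)), r / 2 ≤ ‖y‖ ∧ ‖y‖ ≤ 3 / 2 * r := by
    intro y hy
    rw [Metric.mem_closedBall, dist_eq_norm] at hy
    have h1 := norm_le_norm_add_norm_sub' y x
    have h2 := norm_le_norm_add_norm_sub' x y
    rw [norm_sub_rev] at h2
    constructor <;> linarith
  have hs : Metric.closedBall x (3 * (r / 6)) ⊆ ({0}ᶜ : Set (En n)) := fun y hy h0 => by
    have := (hball y hy).1
    rw [mem_singleton_iff.1 h0, norm_zero] at this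
    linarith
  refine (hg _ u isOpen_compl_singleton h.hu x (r / 6) (by positivity) hs).trans ?_
  rw [mul_div_assoc]
  refine mul_le_mul_of_nonneg_left ?_ hCg
  rw [show 3 * (r / 6) = r / 2 by ring] at hball hs ⊢
  have hgi : IntegrableOn (fun y => gam (n - 1) (x - y)) (Metric.closedBall x (r / 2)) :=
    integrableOn_gam_shift (by omega) x _
  have hJr : ∫ y in Metric.closedBall x (r / 2), gam (n - 1) (x - y) = r / 2 * J := by
    rw [← integral_indicator measurableSet_closedBall,
      integral_shift_scale _ x (show 0 < r / 2 by positivity)]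
    simp only [J]
    rw [← integral_indicator measurableSet_closedBall, ← integral_const_mul, ← integral_const_mul]
    refine integral_congr_ae (Eventually.of_forall fun z => ?_)
    show (r / 2) ^ n * (Metric.closedBall x (r / 2)).indicator (fun y => gam (n - 1) (x - y))
      (x + (r / 2) • z) = r / 2 * (Metric.closedBall (0 : En n) 1).indicator (gam (n - 1)) z
    have hmem : x + (r / 2) • z ∈ Metric.closedBall x (r / 2) ↔ z ∈ Metric.closedBall (0 : En n) 1 := by
      rw [Metric.mem_closedBall, Metric.mem_closedBall, dist_eq_norm, add_sub_cancel_left, norm_smul,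
        dist_zero_right, Real.norm_of_nonneg (by positivity), mul_le_iff_le_one_right (by positivity)]
    by_cases hz : z ∈ Metric.closedBall (0 : En n) 1
    · rw [Set.indicator_of_mem hz, Set.indicator_of_mem (hmem.2 hz), sub_add_cancel_left, gam_neg,
        gam, gam, norm_smul, Real.norm_of_nonneg (show 0 ≤ r / 2 by positivity), mul_pow, mul_inv]
      obtain ⟨k, rfl⟩ : ∃ k, n = k + 1 := ⟨n - 1, by omega⟩
      rw [Nat.add_sub_cancel, pow_succ]
      field_simp
    · rw [Set.indicator_of_notMem hz, Set.indicator_of_notMem (mt hmem.1 hz), mul_zero, mul_zero]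
  have hlc : ContinuousOn (lap u) (Metric.closedBall x (r / 2)) :=
    (continuousOn_lap isOpen_compl_singleton h.hu).mono hs
  have t1 : ∫ y in Metric.closedBall x (r / 2), gam (n - 1) (x - y) * |lap u y|
      ≤ M1 * K * J / 2 / r := by
    refine le_trans (setIntegral_mono_on (integrableOn_gam_mul (by omega) x hlc.abs)
      (hgi.mul_const (M1 * (K * r ^ (-2 : ℝ)))) measurableSet_closedBall fun y hy => ?_) ?_
    · refine mul_le_mul_of_nonneg_left ?_ (gam_nonneg _ _)
      obtain ⟨h1, h2⟩ := hball y hy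
      rw [h.e1 y (hs hy), abs_neg, abs_of_nonneg (h.src_nonneg y), mul_comm]
      refine mul_le_mul ((le_abs_self _).trans ?_) ?_ (by positivity) hM1'
      · have := hM1 y (by rw [Metric.mem_closedBall, dist_zero_right]; linarith)
        simpa using this
      · calc ‖y‖ ^ A = r ^ A * (‖y‖ / r) ^ A := by
              rw [← Real.mul_rpow hr0.le (by positivity), mul_div_cancel₀ _ hr0.ne']
          _ ≤ r ^ (-2 : ℝ) * K := mul_le_mul (Real.rpow_le_rpow_of_exponent_ge hr0 hx1 hA.le)
              (rpow_le_max' (by rw [le_div_iff₀ hr0]; linarith) (by rw [div_le_iff₀ hr0]; linarith))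
              (by positivity) (by positivity)
          _ = _ := mul_comm _ _
    · rw [integral_mul_const, hJr, Real.rpow_neg hr0.le, Real.rpow_two]
      refine le_of_eq ?_
      field_simp
  have t2 : ((r / 6) ^ (n + 1))⁻¹ * ∫ y in Metric.closedBall x (r / 2), |u y|
      ≤ 3 ^ n * 6 * M2 * V / r := by
    have h1 : ∫ y in Metric.closedBall x (r / 2), |u y| ≤ (r / 2) ^ n * V * M2 := by
      refine le_trans (setIntegral_mono_on ((h.huc.abs.continuousOn).integrableOn_compact
        (isCompact_closedBall _ _)) (integrableOn_const (C := M2) measure_closedBall_lt_top.ne)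
        measurableSet_closedBall fun y hy => ?_) (le_of_eq ?_)
      · exact (Real.norm_eq_abs _).symm.le.trans (hM2 y (by
          have := (hball y hy).2
          rw [Metric.mem_closedBall, dist_zero_right]; linarith))
      · rw [setIntegral_const, smul_eq_mul]
        congr 1
        simp only [V, measureReal_def, Measure.addHaar_closedBall' _ x (show 0 ≤ r / 2 by positivity),
          finrank_euclideanSpace_fin, ENNReal.toReal_mul]
        rw [ENNReal.toReal_ofReal (by positivity)]
    refine (mul_le_mul_of_nonneg_left h1 (by positivity)).trans (le_of_eq ?_)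
    rw [show r / 2 = 3 * (r / 6) by ring, mul_pow, pow_succ]
    field_simp
  rw [add_div]
  exact add_le_add t1 t2
where
  rpow_le_max' {r A : ℝ} (h1 : 1 / 2 ≤ r) (h2 : r ≤ 3 / 2) :
      r ^ A ≤ max ((1 / 2 : ℝ) ^ A) ((3 / 2) ^ A) := by
    rcases le_total 0 A with hA | hA
    · exact (Real.rpow_le_rpow (by linarith) h2 hA).trans (le_max_right _ _)
    · exact (Real.rpow_le_rpow_of_nonpos (by norm_num) h1 hA).trans (le_max_left _ _)

/-- The smoothed Pohozaev inequality. -/
lemma flux_le {p q A B a b κ : ℝ} (hA : -2 < A) (hB : -2 < B) (hp : 0 < p) (hq : 0 < q)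
    (ha : a = ((n : ℝ) + A) / (p + 1)) (hb : b = (n : ℝ) - 2 - a)
    (hκ : κ = ((n : ℝ) + B) / (q + 1) - b) (hκ0 : 0 < κ)
    {u v : En n → ℝ} (h : Sol p q A B u v) {r : ℝ} (hr1 : 1 ≤ r) {d : ℝ} (hd : 0 < d) :
    κ * energy q B u r ≤
      ∫ x, bump (1 + (‖x‖ - r) / d) / d * ∑ i, |pField p q A B a b u v i x| := by
  have hnt : Nontrivial (En n) := Module.nontrivial_of_finrank_pos (R := ℝ) (by simp; omega)
  set g : En n → ℝ := fun x => ‖x‖ ^ B * u x ^ (q + 1) with hg
  have hgi : ∀ R, IntegrableOn g (Metric.closedBall 0 R) := fun R =>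
    integrableOn_src hn hB (by linarith) h.huc R
  have hg0 : ∀ x, 0 ≤ g x := fun x => by have := h.hup x; positivity
  set P := fun i => pField p q A B a b u v i with hP
  have hPc : ∀ i, ContinuousOn (P i) ({0}ᶜ : Set (En n)) := fun i =>
    (contDiffOn_pField h i).continuousOn
  set T : En n → ℝ := fun x => ∑ i, |P i x|
  have hTc : ContinuousOn T ({0}ᶜ : Set (En n)) := continuousOn_finsetSum _ fun i _ => (hPc i).abs
  have hT0 : ∀ x, 0 ≤ T x := fun x => Finset.sum_nonneg fun i _ => abs_nonneg _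
  have hgz : ∀ x, x ≠ 0 → ∑ i, fderiv ℝ (P i) x (eb i) = κ * g x := fun x hx => by
    rw [hκ]; exact div_pField hp hq ha hb h hx
  set F := energy q B u r
  set bh : En n → ℝ := fun x => bump (1 + (‖x‖ - r) / d) / d
  have hbh0 : ∀ x, 0 ≤ bh x := fun x => div_nonneg (bump_nonneg _) hd.le
  have hbhz : ∀ x : En n, ‖x‖ < r ∨ r + d < ‖x‖ → bh x = 0 := fun x hx => by
    simp only [bh]
    rw [bump_eq_zero, zero_div]
    rcases hx with hx | hx
    · left; have : (‖x‖ - r) / d < 0 := div_neg_of_neg_of_pos (by linarith) hd; linarith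
    · right; have : 1 < (‖x‖ - r) / d := by rw [lt_div_iff₀ hd]; linarith
      linarith
  set e : ℕ → ℝ := fun k => epsSeq k / 4
  have he0 : ∀ k, 0 < e k := fun k => by have := epsSeq_pos k; positivity
  have he1 : ∀ k, 2 * e k ≤ r := fun k => by
    have : epsSeq k ≤ 1 := by
      rw [epsSeq, div_le_one (by positivity)]; linarith [(Nat.cast_nonneg k : (0 : ℝ) ≤ k)]
    simp only [e]; linarith
  have hlim : ∀ x : En n, x ≠ 0 → ∀ᶠ k in atTop, 2 * e k < ‖x‖ := fun x hx => by
    have h := epsSeq_tendsto.const_mul ((1 : ℝ) / 2)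
    rw [mul_zero] at h
    filter_upwards [h.eventually (gt_mem_nhds (norm_pos_iff.2 hx))] with k hk
    simp only [e]; linarith
  set φ : ℕ → ℝ → ℝ := fun k s => step (s / e k) - step (1 + (s - r) / d)
  set Z : ℕ → En n → ℝ := fun k x => φ k ‖x‖
  set be : ℕ → En n → ℝ := fun k x => bump (‖x‖ / e k) / e k
  have hφs : ∀ k, ContDiff ℝ 1 (φ k) := fun k =>
    ((contDiff_step (m := 1)).comp (contDiff_id.div_const _)).sub
      ((contDiff_step (m := 1)).comp
        (contDiff_const.add ((contDiff_id.sub contDiff_const).div_const _)))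
  have hφd : ∀ k s, HasDerivAt (φ k) (bump (s / e k) / e k - bump (1 + (s - r) / d) / d) s :=
    fun k s => by
      have h1 := (hasDerivAt_step (s / e k)).comp s ((hasDerivAt_id' s).div_const (e k))
      have h2 := (hasDerivAt_step (1 + (s - r) / d)).comp s
        ((((hasDerivAt_id' s).sub_const r).div_const d).const_add 1)
      rw [mul_one_div] at h1 h2
      exact h1.sub h2
  have hZ0 : ∀ k (x : En n), ‖x‖ ≤ e k ∨ r + d ≤ ‖x‖ → Z k x = 0 := fun k x hx => by
    simp only [Z, φ]
    rcases hx with hx | hx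
    · rw [step_zero ((div_le_one (he0 k)).2 hx), step_zero, sub_zero]
      have : (‖x‖ - r) / d ≤ 0 :=
        div_nonpos_of_nonpos_of_nonneg (by linarith [he1 k, he0 k]) hd.le
      linarith
    · rw [step_one, step_one, sub_self]
      · have : 1 ≤ (‖x‖ - r) / d := by rw [le_div_iff₀ hd]; linarith
        linarith
      · rw [le_div_iff₀ (he0 k)]; linarith [he1 k]
  have hZc : ∀ k, ContDiff ℝ (1 : ℕ) (Z k) := fun k => contDiff_iff_contDiffAt.2 fun x => by
    rcases eq_or_ne x 0 with rfl | hx
    · refine (contDiffAt_const (c := (0 : ℝ))).congr_of_eventuallyEq ?_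
      filter_upwards [Metric.closedBall_mem_nhds (0 : En n) (he0 k)] with y hy
      exact hZ0 k y (Or.inl (by simpa using hy))
    · exact (hφs k).contDiffAt.comp x (contDiffAt_norm ℝ hx)
  have hZs : ∀ k, tsupport (Z k) ⊆ {x : En n | e k ≤ ‖x‖ ∧ ‖x‖ ≤ r + d} := fun k =>
    closure_minimal (fun x hx => by
      by_contra hc
      rw [mem_ofPred_eq, not_and_or, not_le, not_le] at hc
      exact hx (hZ0 k x (hc.imp le_of_lt le_of_lt)))
      ((isClosed_le continuous_const continuous_norm).inter
        (isClosed_le continuous_norm continuous_const))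
  have hZs' : ∀ k, tsupport (Z k) ⊆ ({0}ᶜ : Set (En n)) := fun k x hx h0 => by
    have := (hZs k hx).1
    rw [mem_singleton_iff.1 h0, norm_zero] at this
    linarith [he0 k]
  have hZp : ∀ k x, 0 ≤ Z k x := fun k x => by
    simp only [Z, φ]
    rcases le_total ‖x‖ r with hx | hx
    · rw [step_zero (t := 1 + (‖x‖ - r) / d), sub_zero]
      · exact step_nonneg _
      · have : (‖x‖ - r) / d ≤ 0 := div_nonpos_of_nonpos_of_nonneg (by linarith) hd.le
        linarith
    · rw [step_one (t := ‖x‖ / e k)]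
      · linarith [step_le_one (1 + (‖x‖ - r) / d)]
      · rw [le_div_iff₀ (he0 k)]; linarith [he1 k]
  have hZ1 : ∀ k x, Z k x ≤ 1 := fun k x => by
    simp only [Z, φ]; linarith [step_le_one (‖x‖ / e k), step_nonneg (1 + (‖x‖ - r) / d)]
  have hbhi : Integrable fun x => bh x * T x := by
    have hs : tsupport bh ⊆ {x : En n | r ≤ ‖x‖ ∧ ‖x‖ ≤ r + d} :=
      closure_minimal (fun x hx => by
        by_contra hc
        rw [mem_ofPred_eq, not_and_or, not_le, not_le] at hc
        exact hx (hbhz x hc))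
        ((isClosed_le continuous_const continuous_norm).inter
          (isClosed_le continuous_norm continuous_const))
    refine ((continuous_mul_supp isOpen_compl_singleton hTc
      ((contDiff_bump.continuous.comp (by fun_prop)).div_const d) (hs.trans fun x hx h0 => ?_)).congr
      fun x => mul_comm _ _).integrable_of_hasCompactSupport
      (HasCompactSupport.intro (isCompact_closedBall (0 : En n) (r + d)) fun x hx => ?_)
    · have := hx.1
      rw [mem_singleton_iff.1 h0, norm_zero] at this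
      linarith
    · rw [Metric.mem_closedBall, dist_zero_right, not_le] at hx
      show bh x * T x = 0
      rw [hbhz x (Or.inr hx), zero_mul]
  have hbei : ∀ k, Integrable fun x => be k x * T x := fun k => by
    have hz : ∀ x : En n, ‖x‖ < e k ∨ 2 * e k < ‖x‖ → be k x = 0 := fun x hx => by
      simp only [be]
      rw [bump_eq_zero, zero_div]
      rcases hx with hx | hx
      · left; rwa [div_lt_one (he0 k)]
      · right; rwa [lt_div_iff₀ (he0 k)]
    have hs : tsupport (be k) ⊆ {x : En n | e k ≤ ‖x‖ ∧ ‖x‖ ≤ 2 * e k} :=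
      closure_minimal (fun x hx => by
        by_contra hc
        rw [mem_ofPred_eq, not_and_or, not_le, not_le] at hc
        exact hx (hz x hc))
        ((isClosed_le continuous_const continuous_norm).inter
          (isClosed_le continuous_norm continuous_const))
    refine ((continuous_mul_supp isOpen_compl_singleton hTc
      ((contDiff_bump.continuous.comp (by fun_prop)).div_const (e k))
      (hs.trans fun x hx h0 => ?_)).congr
      fun x => mul_comm _ _).integrable_of_hasCompactSupport
      (HasCompactSupport.intro (isCompact_closedBall (0 : En n) (2 * e k)) fun x hx => ?_)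
    · have := hx.1
      rw [mem_singleton_iff.1 h0, norm_zero] at this
      linarith [he0 k]
    · rw [Metric.mem_closedBall, dist_zero_right, not_le] at hx
      show be k x * T x = 0
      rw [hz x (Or.inr hx), zero_mul]
  have hmain : ∀ k, κ * ∫ x, Z k x * g x ≤ (∫ x, be k x * T x) + ∫ x, bh x * T x := fun k => by
    set W : Fin n → En n → ℝ := fun i x => P i x * Z k x
    have hW : ∀ i, ContDiff ℝ (1 : ℕ) (W i) := fun i =>
      contDiff_mul_supp isOpen_compl_singleton (contDiffOn_pField h i) (hZc k) (hZs' k)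
    have hWc : ∀ i, HasCompactSupport (W i) := fun i =>
      HasCompactSupport.intro (isCompact_closedBall (0 : En n) (r + d)) fun x hx => by
        rw [Metric.mem_closedBall, dist_zero_right, not_le] at hx
        simp [W, hZ0 k x (Or.inr hx.le)]
    have hWi : ∀ i, Integrable fun x => fderiv ℝ (W i) x (eb i) := fun i =>
      (((hW i).continuous_fderiv (by norm_num)).clm_apply
        continuous_const).integrable_of_hasCompactSupport ((hWc i).fderiv_apply ℝ (eb i))
    have hsum : ∫ x, ∑ i, fderiv ℝ (W i) x (eb i) = 0 := by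
      rw [integral_finsetSum _ fun i _ => hWi i]
      exact Finset.sum_eq_zero fun i _ => integral_fderiv_eq_zero (hW i) (hWc i) (eb i)
    have hZg : Integrable fun x => Z k x * g x := by
      refine (integrableOn_iff_integrable_of_support_subset fun x hx => ?_).1
        ((hgi (r + d)).continuousOn_mul (hZc k).continuous.continuousOn (isCompact_closedBall 0 _))
      have := (hZs k (subset_tsupport _ (Function.support_mul_subset_left (Z k) g hx))).2
      simpa using this
    have hpt : ∀ x, x ≠ 0 →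
        κ * (Z k x * g x) ≤ ∑ i, fderiv ℝ (W i) x (eb i) + (be k x * T x + bh x * T x) := by
      intro x hx
      have hnd := ((contDiffAt_norm ℝ hx : ContDiffAt ℝ 1 _ x).differentiableAt
        (by norm_num)).hasFDerivAt
      have hZd : HasFDerivAt (Z k) _ x := (hφd k ‖x‖).comp_hasFDerivAt x hnd
      have eW : ∀ i, fderiv ℝ (W i) x (eb i) = Z k x * fderiv ℝ (P i) x (eb i)
          + P i x * ((bump (‖x‖ / e k) / e k - bump (1 + (‖x‖ - r) / d) / d)
            * fderiv ℝ (fun y : En n => ‖y‖) x (eb i)) := fun i => by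
        have hPd := ((contDiffOn_pField (a := a) (b := b) h i).contDiffAt
          (isOpen_compl_singleton.mem_nhds hx)).differentiableAt (by norm_num)
        have hh : HasFDerivAt (W i) _ x := (hPd.hasFDerivAt).mul hZd
        rw [hh.fderiv]
        simp
        ring
      simp only [eW, Finset.sum_add_distrib, ← Finset.mul_sum, hgz x hx]
      have hb : |∑ i, P i x * ((bump (‖x‖ / e k) / e k - bump (1 + (‖x‖ - r) / d) / d)
            * fderiv ℝ (fun y : En n => ‖y‖) x (eb i))| ≤ be k x * T x + bh x * T x := by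
        refine (Finset.abs_sum_le_sum_abs _ _).trans ?_
        simp only [T]
        rw [Finset.mul_sum, Finset.mul_sum, ← Finset.sum_add_distrib]
        refine Finset.sum_le_sum fun i _ => ?_
        rw [abs_mul, abs_mul, ← add_mul, mul_comm]
        refine mul_le_mul_of_nonneg_right ?_ (abs_nonneg _)
        have h1 : |fderiv ℝ (fun y : En n => ‖y‖) x (eb i)| ≤ 1 := by
          have hn1 := norm_fderiv_le_of_lipschitz ℝ (x₀ := x)
            (lipschitzWith_one_norm (E := En n))
          have hn2 := (fderiv ℝ (fun y : En n => ‖y‖) x).le_opNorm (eb i)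
          rw [(EuclideanSpace.basisFun (Fin n) ℝ).orthonormal.1 i, mul_one,
            Real.norm_eq_abs] at hn2
          exact hn2.trans (by simpa using hn1)
        refine (mul_le_of_le_one_right (abs_nonneg _) h1).trans ((abs_sub _ _).trans ?_)
        rw [abs_of_nonneg (div_nonneg (bump_nonneg _) (he0 k).le),
          abs_of_nonneg (div_nonneg (bump_nonneg _) hd.le)]
      linarith [(abs_le.1 hb).1]
    calc κ * ∫ x, Z k x * g x = ∫ x, κ * (Z k x * g x) := (integral_const_mul _ _).symm
      _ ≤ ∫ x, (∑ i, fderiv ℝ (W i) x (eb i) + (be k x * T x + bh x * T x)) :=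
        integral_mono_ae (hZg.const_mul κ)
          ((integrable_finsetSum _ fun i _ => hWi i).add ((hbei k).add hbhi))
          (by filter_upwards [ae_ne (by omega) (0 : En n)] with x hx using hpt x hx)
      _ = _ := by
        rw [integral_add (g := fun x => be k x * T x + bh x * T x)
            (integrable_finsetSum _ fun i _ => hWi i) ((hbei k).add hbhi),
          integral_add (hbei k) hbhi, hsum, zero_add]
  have hsi : ∀ k, IntegrableOn (fun x => Z k x * g x) (Metric.closedBall 0 r) := fun k =>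
    (hgi r).continuousOn_mul (hZc k).continuous.continuousOn (isCompact_closedBall 0 r)
  have t1 : Tendsto (fun k => ∫ x in Metric.closedBall 0 r, Z k x * g x) atTop (𝓝 F) := by
    refine tendsto_integral_of_dominated_convergence g (fun k => (hsi k).aestronglyMeasurable)
      (hgi r) (fun k => Eventually.of_forall fun x => ?_) ?_
    · rw [Real.norm_of_nonneg (mul_nonneg (hZp k x) (hg0 x))]
      exact mul_le_of_le_one_left (hg0 x) (hZ1 k x)
    · filter_upwards [ae_restrict_of_ae (ae_ne (by omega) (0 : En n)),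
        ae_restrict_mem measurableSet_closedBall] with x hx hxr
      refine tendsto_const_nhds.congr' ?_
      filter_upwards [hlim x hx] with k hk
      rw [Metric.mem_closedBall, dist_zero_right] at hxr
      simp only [Z, φ]
      rw [step_one (t := ‖x‖ / e k) (by rw [le_div_iff₀ (he0 k)]; linarith),
        step_zero (t := 1 + (‖x‖ - r) / d) (by
          have : (‖x‖ - r) / d ≤ 0 := div_nonpos_of_nonpos_of_nonneg (by linarith) hd.le
          linarith), sub_zero, one_mul]
  obtain ⟨Cu, hCu, hgu⟩ := grad_near_zero hn hA hp.le h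
  obtain ⟨Cv, hCv, hgv⟩ := grad_near_zero hn hB hq.le h.swap
  obtain ⟨Mb, hMb⟩ := exists_bump_le
  have hMb0 : 0 ≤ Mb := (bump_nonneg 0).trans (hMb 0)
  obtain ⟨Mu, hMu⟩ := (isCompact_closedBall (0 : En n) 1).exists_bound_of_continuousOn
    (f := fun x => u x + v x + u x ^ (q + 1) + v x ^ (p + 1))
    (((h.huc.add h.hvc).add (h.huc.rpow_const fun _ => Or.inr (by linarith))).add
      (h.hvc.rpow_const fun _ => Or.inr (by linarith))).continuousOn
  have hMu0 : 0 ≤ Mu := (norm_nonneg _).trans (hMu 0 (by simp))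
  set D := ((n : ℝ) + 2) * Cu * Cv + |a| * Mu * Cu + |b| * Mu * Cv
  have t2 : Tendsto (fun k => ∫ x, be k x * T x) atTop (𝓝 0) := by
    rw [← integral_zero (En n) ℝ]
    refine tendsto_integral_of_dominated_convergence
      ((Metric.closedBall (0 : En n) 1).indicator fun x =>
        2 * Mb * n * (D * gam 2 x + Mu * ‖x‖ ^ A + Mu * ‖x‖ ^ B))
      (fun k => (hbei k).1) ?_ (fun k => ?_) ?_
    · exact (integrable_indicator_iff measurableSet_closedBall).2
        ((((integrableOn_gam (by omega) 1).const_mul D).add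
          ((integrableOn_norm_rpow hn hA 1).const_mul Mu)).add
          ((integrableOn_norm_rpow hn hB 1).const_mul Mu) |>.const_mul _)
    · filter_upwards [ae_ne (by omega) (0 : En n)] with x hx
      rw [Real.norm_of_nonneg (mul_nonneg (div_nonneg (bump_nonneg _) (he0 k).le) (hT0 x))]
      have hx0 : 0 < ‖x‖ := norm_pos_iff.2 hx
      have he14 : e k ≤ 1 / 4 := by
        have : epsSeq k ≤ 1 := by
          rw [epsSeq, div_le_one (by positivity)]; linarith [(Nat.cast_nonneg k : (0 : ℝ) ≤ k)]
        simp only [e]; linarith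
      rcases lt_or_ge (2 * e k) ‖x‖ with h2 | h2
      · rw [bump_eq_zero (Or.inr ((lt_div_iff₀ (he0 k)).2 h2)), zero_div, zero_mul]
        refine Set.indicator_nonneg (fun y _ => ?_) x
        have := gam_nonneg 2 y
        positivity
      have hx1 : ‖x‖ ≤ 1 := by linarith
      rw [Set.indicator_of_mem (by simpa using hx1)]
      have hbe : be k x ≤ 2 * Mb / ‖x‖ := by
        simp only [be]
        rw [div_le_div_iff₀ (he0 k) hx0]
        nlinarith [hMb (‖x‖ / e k), bump_nonneg (‖x‖ / e k)]
      have hm := hMu x (by simpa using hx1)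
      have hu0 := (h.hup x).le
      have hv0 := (h.hvp x).le
      rw [Real.norm_of_nonneg (by positivity)] at hm
      have : 0 ≤ u x ^ (q + 1) := by positivity
      have : 0 ≤ v x ^ (p + 1) := by positivity
      have hTb : T x ≤ (n : ℝ) * ((D / ‖x‖) + Mu * (‖x‖ * ‖x‖ ^ A) + Mu * (‖x‖ * ‖x‖ ^ B)) := by
        refine (Finset.sum_le_card_nsmul _ _ ((D / ‖x‖) + Mu * (‖x‖ * ‖x‖ ^ A)
          + Mu * (‖x‖ * ‖x‖ ^ B)) fun i _ => ?_).trans (le_of_eq (by simp; ring))
        refine (abs_pField_le hp.le hq.le h i x).trans ?_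
        calc ‖x‖ * (((n : ℝ) + 2) * (‖fderiv ℝ u x‖ * ‖fderiv ℝ v x‖) + ‖x‖ ^ A * v x ^ (p + 1)
                + ‖x‖ ^ B * u x ^ (q + 1)) + |a| * (v x * ‖fderiv ℝ u x‖)
                + |b| * (u x * ‖fderiv ℝ v x‖)
            ≤ ‖x‖ * (((n : ℝ) + 2) * (Cu / ‖x‖ * (Cv / ‖x‖)) + ‖x‖ ^ A * Mu + ‖x‖ ^ B * Mu)
                + |a| * (Mu * (Cu / ‖x‖)) + |b| * (Mu * (Cv / ‖x‖)) := by
              gcongr <;> first | exact hgu x hx hx1 | exact hgv x hx hx1 | linarith
          _ = _ := by simp only [D]; field_simp; ring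
      refine (mul_le_mul hbe hTb (hT0 x) (by positivity)).trans (le_of_eq ?_)
      rw [gam]
      field_simp
    · filter_upwards [ae_ne (by omega) (0 : En n)] with x hx
      refine tendsto_const_nhds.congr' ?_
      filter_upwards [hlim x hx] with k hk
      simp only [be]
      rw [bump_eq_zero (Or.inr ((lt_div_iff₀ (he0 k)).2 hk)), zero_div, zero_mul]
  refine le_of_tendsto_of_tendsto (t1.const_mul κ) (by simpa using t2.add_const (∫ x, bh x * T x))
    (Eventually.of_forall fun k => le_trans (mul_le_mul_of_nonneg_left ?_ hκ0.le) (hmain k))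
  have hZg : Integrable fun x => Z k x * g x := by
    refine (integrableOn_iff_integrable_of_support_subset fun x hx => ?_).1
      ((hgi (r + d)).continuousOn_mul (hZc k).continuous.continuousOn (isCompact_closedBall 0 _))
    have := (hZs k (subset_tsupport _ (Function.support_mul_subset_left (Z k) g hx))).2
    simpa using this
  exact setIntegral_le_integral hZg (Eventually.of_forall fun x => mul_nonneg (hZp k x) (hg0 x))

/-- The Pohozaev inequality. -/
theorem exists_pohozaev {p q A B : ℝ} (hA : -2 < A) (hB : -2 < B) (hp : 0 < p) (hq : 0 < q)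
    (hsub : (n : ℝ) - 2 < ((n : ℝ) + A) / (p + 1) + ((n : ℝ) + B) / (q + 1)) :
    ∃ C : ℝ, 0 ≤ C ∧ ∀ u v : En n → ℝ, Sol p q A B u v → ∀ r ∈ Icc (1 : ℝ) 2,
      energy q B u r ≤ C * bdryInt p q u v r := by
  have hnt : Nontrivial (En n) := Module.nontrivial_of_finrank_pos (R := ℝ) (by simp; omega)
  set a := ((n : ℝ) + A) / (p + 1) with ha
  set b := (n : ℝ) - 2 - a with hb
  set κ := ((n : ℝ) + B) / (q + 1) - b with hκ
  have hκ0 : 0 < κ := by rw [hκ, hb]; linarith
  set kA' := max ((1 : ℝ) ^ A) (3 ^ A)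
  set kB' := max ((1 : ℝ) ^ B) (3 ^ B)
  have hkA : 0 ≤ kA' := le_max_of_le_left (by positivity)
  have hkB : 0 ≤ kB' := le_max_of_le_left (by positivity)
  set C0 := (n : ℝ) * (3 * ((n : ℝ) + 2 + kA' + kB') + |a| + |b|)
  refine ⟨C0 * 3 ^ (n - 1) / κ, by positivity, fun u v h r hr => ?_⟩
  obtain ⟨hr1, hr2⟩ := hr
  set P := fun i => pField p q A B a b u v i with hP
  have hPc : ∀ i, ContinuousOn (P i) ({0}ᶜ : Set (En n)) := fun i =>
    (contDiffOn_pField h i).continuousOn
  set T : En n → ℝ := fun x => ∑ i, |P i x|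
  have hT0 : ∀ x, 0 ≤ T x := fun x => Finset.sum_nonneg fun i _ => abs_nonneg _
  have hTG : ∀ x : En n, 1 ≤ ‖x‖ → ‖x‖ ≤ 3 → T x ≤ C0 * bdry p q u v x := fun x h1 h2 => by
    refine (Finset.sum_le_card_nsmul _ _
      ((3 * ((n : ℝ) + 2 + kA' + kB') + |a| + |b|) * bdry p q u v x) fun i _ => ?_).trans
      (le_of_eq (by simp [C0]; ring))
    refine (abs_pField_le hp.le hq.le h i x).trans ?_
    have hu0 := (h.hup x).le
    have hv0 := (h.hvp x).le
    have hdu := norm_nonneg (fderiv ℝ u x)
    have hdv := norm_nonneg (fderiv ℝ v x)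
    set du := ‖fderiv ℝ u x‖
    set dv := ‖fderiv ℝ v x‖
    have hU : 0 ≤ u x ^ (q + 1) := by positivity
    have hV : 0 ≤ v x ^ (p + 1) := by positivity
    set G := bdry p q u v x with hG
    have hGe : G = (du + u x) * (dv + v x) + u x ^ (q + 1) + v x ^ (p + 1) := rfl
    have e1 : du * dv ≤ G := by rw [hGe]; nlinarith
    have e2 : v x * du ≤ G := by rw [hGe]; nlinarith
    have e3 : u x * dv ≤ G := by rw [hGe]; nlinarith
    have e4 : v x ^ (p + 1) ≤ G := by rw [hGe]; nlinarith
    have e5 : u x ^ (q + 1) ≤ G := by rw [hGe]; nlinarith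
    have wA : ‖x‖ ^ A ≤ kA' := by
      rcases le_total 0 A with hA0 | hA0
      · exact (Real.rpow_le_rpow (by positivity) h2 hA0).trans (le_max_right _ _)
      · exact (Real.rpow_le_rpow_of_nonpos one_pos h1 hA0).trans (le_max_left _ _)
    have wB : ‖x‖ ^ B ≤ kB' := by
      rcases le_total 0 B with hB0 | hB0
      · exact (Real.rpow_le_rpow (by positivity) h2 hB0).trans (le_max_right _ _)
      · exact (Real.rpow_le_rpow_of_nonpos one_pos h1 hB0).trans (le_max_left _ _)
    have hG0 : 0 ≤ G := hU.trans e5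
    calc ‖x‖ * (((n : ℝ) + 2) * (du * dv) + ‖x‖ ^ A * v x ^ (p + 1) + ‖x‖ ^ B * u x ^ (q + 1))
          + |a| * (v x * du) + |b| * (u x * dv)
        ≤ 3 * (((n : ℝ) + 2) * G + kA' * G + kB' * G) + |a| * G + |b| * G := by gcongr
      _ = _ := by ring
  set F := energy q B u r
  set gb := bdryInt p q u v
  have key : ∀ d : ℝ, 0 < d → κ * F ≤ ∫ x, bump (1 + (‖x‖ - r) / d) / d * T x :=
    fun d hd => flux_le hn hA hB hp hq ha hb hκ hκ0 h hr1 hd
  -- the limit in the width
  have hbc := continuousOn_bdry h hp.le hq.le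
  set S : ℝ → ℝ := fun s => gb (max s (1 / 2))
  have hS : Continuous S := by
    refine continuous_parametric_integral_of_continuous (μ := sig n)
      (f := fun (s : ℝ) (θ : sph n) => bdry p q u v ((max s (1 / 2)) • (θ : En n))) ?_ isCompact_univ
      |>.congr fun s => ?_
    · exact hbc.comp_continuous (by fun_prop) fun z =>
        smul_ne_zero (by have := le_max_right z.1 (1 / 2 : ℝ); intro h0; linarith)
          (ne_zero_of_mem_unit_sphere z.2)
    · simp [gb, bdryInt, S]
  have hSr : S r = gb r := by simp only [S]; rw [max_eq_left (by linarith)]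
  refine le_of_forall_pos_le_add fun η hη => ?_
  set η' := η * κ / (C0 * 3 ^ (n - 1) + 1)
  have hC0 : 0 ≤ C0 := by positivity
  have hη' : 0 < η' := by positivity
  obtain ⟨δ, hδ, hδ'⟩ := Metric.eventually_nhds_iff.1
    (hS.continuousAt.eventually (gt_mem_nhds (show S r < S r + η' by linarith)))
  set d := min (δ / 2) 1
  have hd : 0 < d := lt_min (by linarith) one_pos
  have hgb0 : ∀ s, 0 ≤ gb s := fun s => integral_nonneg fun θ => bdry_nonneg h _
  have hbm : Measurable (bdry p q u v) := by
    have h1 := h.huc.measurable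
    have h2 := h.hvc.measurable
    exact ((((measurable_fderiv ℝ u).norm.add h1).mul ((measurable_fderiv ℝ v).norm.add h2)).add
      (h1.pow_const _)).add (h2.pow_const _)
  set bs : ℝ → ℝ := fun s => bump (1 + (s - r) / d) / d
  have hbs0 : ∀ s, 0 ≤ bs s := fun s => div_nonneg (bump_nonneg _) hd.le
  have hbsz : ∀ s, s < r ∨ r + d < s → bs s = 0 := fun s hx => by
    simp only [bs]
    rw [bump_eq_zero, zero_div]
    rcases hx with hx | hx
    · left; have : (s - r) / d < 0 := div_neg_of_neg_of_pos (by linarith) hd; linarith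
    · right; have : 1 < (s - r) / d := by rw [lt_div_iff₀ hd]; linarith
      linarith
  have hbsc : Continuous bs := (contDiff_bump.continuous.comp (by fun_prop)).div_const d
  have hint : ∫⁻ s, ENNReal.ofReal (bs s) ≤ 1 := by
    have e : ∫ s, bs s = 1 := by
      rw [← setIntegral_eq_integral_of_forall_compl_eq_zero (s := Icc r (r + d)) fun s hs => hbsz s (by
        rw [mem_Icc, not_and_or, not_le, not_le] at hs; exact hs),
        integral_Icc_eq_integral_Ioc, ← intervalIntegral.integral_of_le (by linarith)]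
      have hd' : ∀ s ∈ uIcc r (r + d), HasDerivAt (fun s => step (1 + (s - r) / d)) (bs s) s :=
        fun s _ => by
          have h2 := (hasDerivAt_step (1 + (s - r) / d)).comp s
            ((((hasDerivAt_id' s).sub_const r).div_const d).const_add 1)
          rw [mul_one_div] at h2
          exact h2
      rw [intervalIntegral.integral_eq_sub_of_hasDerivAt hd' (hbsc.intervalIntegrable _ _),
        add_sub_cancel_left, div_self hd.ne', sub_self, zero_div, add_zero,
        step_one (by norm_num), step_zero le_rfl, sub_zero]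
    rw [← ofReal_integral_eq_lintegral_ofReal _ (Eventually.of_forall hbs0), e, ENNReal.ofReal_one]
    exact hbsc.integrable_of_hasCompactSupport (HasCompactSupport.intro isCompact_Icc fun s hs =>
      hbsz s (by rw [mem_Icc, not_and_or, not_le, not_le] at hs; exact hs))
  have hbound : ∫ x, bs ‖x‖ * T x ≤ C0 * 3 ^ (n - 1) * (gb r + η') := by
    rw [integral_eq_lintegral_of_nonneg_ae
      (Eventually.of_forall fun x => mul_nonneg (hbs0 _) (hT0 x))]
    swap
    · refine (((hbsc.comp continuous_norm).measurable.mul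
        (Finset.measurable_sum _ fun i _ => ?_))).aestronglyMeasurable
      exact continuous_abs.measurable.comp (measurable_of_continuousOn_compl_singleton 0 (hPc i))
    refine ENNReal.toReal_le_of_le_ofReal (by have := hgb0 r; positivity) ?_
    calc ∫⁻ x, ENNReal.ofReal (bs ‖x‖ * T x)
        ≤ ∫⁻ x, ENNReal.ofReal (C0 * (bs ‖x‖ * bdry p q u v x)) := by
          refine lintegral_mono fun x => ENNReal.ofReal_le_ofReal ?_
          by_cases hx : ‖x‖ < r ∨ r + d < ‖x‖
          · simp [hbsz _ hx]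
          push Not at hx
          have hd1 : d ≤ 1 := min_le_right _ _
          rw [mul_left_comm]
          exact mul_le_mul_of_nonneg_left (hTG x (by linarith) (by linarith)) (hbs0 _)
      _ = ∫⁻ s in Ioi (0 : ℝ), ENNReal.ofReal (s ^ (n - 1)) *
            ∫⁻ θ, ENNReal.ofReal (C0 * (bs ‖s • (θ : En n)‖ * bdry p q u v (s • (θ : En n)))) ∂sig n :=
          lintegral_polar (by omega) (ENNReal.measurable_ofReal.comp
            (((hbsc.comp continuous_norm).measurable.mul hbm).const_mul C0))
      _ ≤ ∫⁻ s in Ioi (0 : ℝ), ENNReal.ofReal (C0 * 3 ^ (n - 1) * (gb r + η'))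
            * ENNReal.ofReal (bs s) := by
          refine setLIntegral_mono' measurableSet_Ioi fun s hs => ?_
          rw [mem_Ioi] at hs
          simp only [norm_smul, Real.norm_of_nonneg hs.le, norm_of_mem (Subtype.prop _), mul_one]
          by_cases hx : s < r ∨ r + d < s
          · simp [hbsz _ hx]
          push Not at hx
          have hc : Continuous fun θ : sph n => C0 * (bs s * bdry p q u v (s • (θ : En n))) :=
            continuous_const.mul (continuous_const.mul (hbc.comp_continuous (by fun_prop) fun θ =>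
              smul_ne_zero hs.ne' (ne_zero_of_mem_unit_sphere θ)))
          rw [← ofReal_integral_eq_lintegral_ofReal
            (hc.integrable_of_hasCompactSupport (HasCompactSupport.of_compactSpace _))
            (Eventually.of_forall fun θ => mul_nonneg hC0 (mul_nonneg (hbs0 _) (bdry_nonneg h _))),
            integral_const_mul, integral_const_mul, ← ENNReal.ofReal_mul (by positivity),
            ← ENNReal.ofReal_mul (by have := hgb0 r; positivity)]
          refine ENNReal.ofReal_le_ofReal ?_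
          have hgs : gb s ≤ gb r + η' := by
            have hdd : d ≤ δ / 2 := min_le_left _ _
            have := hδ' (y := s) (by rw [Real.dist_eq, abs_of_nonneg (by linarith)]; linarith)
            rw [hSr] at this
            simp only [S] at this
            rw [max_eq_left (by linarith)] at this
            exact this.le
          have hs3 : s ^ (n - 1) ≤ 3 ^ (n - 1) := by
            have hd1 : d ≤ 1 := min_le_right _ _
            exact pow_le_pow_left₀ hs.le (by linarith) _
          calc s ^ (n - 1) * (C0 * (bs s * gb s)) ≤ 3 ^ (n - 1) * (C0 * (bs s * (gb r + η'))) :=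
                mul_le_mul hs3 (mul_le_mul_of_nonneg_left (mul_le_mul_of_nonneg_left hgs (hbs0 _)) hC0)
                  (mul_nonneg hC0 (mul_nonneg (hbs0 _) (hgb0 _))) (by positivity)
            _ = _ := by ring
      _ ≤ _ := by
          rw [lintegral_const_mul' _ _ ENNReal.ofReal_ne_top]
          exact mul_le_of_le_one_right' ((setLIntegral_le_lintegral _ _).trans hint)
  have h5 := (key d hd).trans hbound
  have h6 : C0 * 3 ^ (n - 1) * η' ≤ η * κ := by
    simp only [η']
    rw [mul_div_assoc', div_le_iff₀ (by positivity)]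
    nlinarith [mul_pos hη hκ0]
  rw [div_mul_eq_mul_div, div_add' _ _ _ hκ0.ne', le_div_iff₀ hκ0]
  linarith

end

end Vale.Agent.P100.Feedback
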