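import Vale.Agent.P100.Feedback.Pohozaev
import Vale.Agent.P100.Feedback.Compare

/-!
Bounds on a well chosen sphere in terms of the energy of a slightly larger ball.
-/

open Filter Topology Set MeasureTheory
open scoped ENNReal

namespace Vale.Agent.P100.Feedback

variable {n : ℕ}

/-- The source, cut off to the shell `1/2 < ‖y‖ ≤ t`. -/
noncomputable def cutSrc (A p : ℝ) (v : En n → ℝ) (t : ℝ) (y : En n) : ℝ≥0∞ :=
  {y : En n | 1 / 2 < ‖y‖ ∧ ‖y‖ ≤ t}.indicator
    (fun y => ENNReal.ofReal (‖y‖ ^ A * v y ^ p)) y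

lemma measurableSet_cut (t : ℝ) : MeasurableSet {y : En n | 1 / 2 < ‖y‖ ∧ ‖y‖ ≤ t} :=
  (measurableSet_lt measurable_const measurable_norm).inter
    (measurableSet_le measurable_norm measurable_const)

lemma measurable_cutSrc (A p : ℝ) {v : En n → ℝ} (hv : Continuous v) (t : ℝ) :
    Measurable (cutSrc A p v t) :=
  (ENNReal.measurable_ofReal.comp
    ((measurable_norm_rpow A).mul (hv.measurable.pow_const p))).indicator (measurableSet_cut t)

lemma cutSrc_zero (A p : ℝ) (v : En n → ℝ) {t : ℝ} (ht : t ≤ 2) {y : En n} (hy : 8 < ‖y‖) :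
    cutSrc A p v t y = 0 := by
  refine Set.indicator_of_notMem (fun h => ?_) _
  linarith [h.2]

/-- Hölder interpolation of `L^k` between `L^1` and `L^(k₀)`. -/
lemma lintegral_interp {g : En n → ℝ≥0∞} (hg : Measurable g) {P z : ℝ} (hP : 0 < P) (hz : 0 ≤ z)
    (hz1 : z ≤ 1 / (P + 1)) :
    ∫⁻ y, g y ^ (1 / (1 - z)) ≤ (∫⁻ y, g y) ^ (1 - P * z / (1 - z))
      * (∫⁻ y, g y ^ ((P + 1) / P)) ^ (P * z / (1 - z)) := by
  have h1 : 1 / (P + 1) < 1 := by rw [div_lt_one (by linarith)]; linarith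
  have h2 : 0 < 1 - z := by linarith
  set τ := P * z / (1 - z) with hτ
  have hτ0 : 0 ≤ τ := by positivity
  have hτ1 : τ ≤ 1 := by
    rw [hτ, div_le_one h2]
    rw [le_div_iff₀ (by linarith)] at hz1
    linarith
  refine le_trans (le_of_eq (lintegral_congr fun y => ?_)) (ENNReal.lintegral_mul_norm_pow_le
    hg.aemeasurable (hg.pow_const _).aemeasurable (show 0 ≤ 1 - τ by linarith) hτ0 (by ring))
  show g y ^ (1 / (1 - z)) = g y ^ (1 - τ) * (g y ^ ((P + 1) / P)) ^ τ
  rw [← ENNReal.rpow_mul, ← ENNReal.rpow_add_of_nonneg _ _ (by linarith) (by positivity)]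
  congr 1
  rw [hτ]; field_simp; ring

/-- From the mixed bound: the radial integral of a spherical norm of a potential. -/
lemma exists_gain (hn : 3 ≤ n) (m : ℕ) {P z w : ℝ} (hP : 0 < P) (hz : 0 ≤ z)
    (hz1 : z ≤ 1 / (P + 1)) (hw : 0 < w) (hw1 : w ≤ 1 - z)
    (hm : (m : ℝ) < ((n : ℝ) - 1) * (z + w) + 1) (L M : ℝ) (hL : 0 ≤ L) (hM : 0 ≤ M) :
    ∃ C : ℝ, 0 ≤ C ∧ ∀ g : En n → ℝ≥0∞, Measurable g → (∀ y, 8 < ‖y‖ → g y = 0) →
      ∀ F : ℝ, 0 ≤ F → ∫⁻ y, g y ≤ ENNReal.ofReal L →
      ∫⁻ y, g y ^ ((P + 1) / P) ≤ ENNReal.ofReal (M * (1 + F)) →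
      ∫⁻ r in Icc (1 / 4 : ℝ) 8,
          (∫⁻ θ, pot m g (r • (θ : En n)) ^ (1 / w) ∂sig n) ^ (w / (1 - z))
        ≤ ENNReal.ofReal (C * (1 + F) ^ (P * z / (1 - z))) := by
  have h1 : 1 / (P + 1) < 1 := by rw [div_lt_one (by linarith)]; linarith
  have h2 : 0 < 1 - z := by linarith
  set τ := P * z / (1 - z) with hτ
  have hτ0 : 0 ≤ τ := by positivity
  have hτ1 : τ ≤ 1 := by
    rw [hτ, div_le_one h2]
    rw [le_div_iff₀ (by linarith)] at hz1
    linarith
  obtain ⟨C, hC, hmix⟩ := exists_mixed (n := n) (by omega) m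
    (k := 1 / (1 - z)) (l := 1 / w) (by rw [le_div_iff₀ h2]; linarith)
    (one_div_le_one_div_of_le hw hw1)
    (by rw [one_div_one_div, one_div_one_div, show 1 - (1 - z) + w = z + w by ring]; exact hm)
  refine ⟨C.toReal * (L ^ (1 - τ) * M ^ τ),
    mul_nonneg ENNReal.toReal_nonneg (mul_nonneg (Real.rpow_nonneg hL _) (Real.rpow_nonneg hM _)),
    fun g hg hg8 F hF h₁ h₂ => ?_⟩
  have he : 1 / (1 - z) / (1 / w) = w / (1 - z) := by field_simp
  have := hmix g hg hg8
  rw [he] at this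
  refine (this.trans (mul_le_mul' le_rfl ((lintegral_interp hg hP hz hz1).trans (mul_le_mul'
    (ENNReal.rpow_le_rpow h₁ (by linarith)) (ENNReal.rpow_le_rpow h₂ hτ0))))).trans (le_of_eq ?_)
  rw [← ENNReal.ofReal_toReal hC, ENNReal.ofReal_rpow_of_nonneg hL (by linarith),
    ENNReal.ofReal_rpow_of_nonneg (by positivity) hτ0, ← ENNReal.ofReal_mul (by positivity),
    ← ENNReal.ofReal_mul ENNReal.toReal_nonneg, Real.mul_rpow hM (by linarith),
    ENNReal.toReal_ofReal ENNReal.toReal_nonneg]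
  congr 1
  ring

section
variable (hn : 3 ≤ n)
include hn

/-- Pointwise bounds by potentials of the cut off source. -/
lemma exists_point_bound {p q A B : ℝ} (hA : -2 < A) (hB : -2 < B) (hp : 0 < p) (hq : 0 < q)
    (hpq : 1 < p * q) :
    ∃ C : ℝ, 0 ≤ C ∧ ∀ u v : En n → ℝ, Sol p q A B u v → ∀ t t' : ℝ, 1 ≤ t → t < t' → t' ≤ 2 →
      ∀ x : En n, t ≤ ‖x‖ → ‖x‖ ≤ t + (t' - t) / 4 →
        ENNReal.ofReal (u x) ≤ ENNReal.ofReal C *
            (pot (n - 2) (cutSrc A p v t') x + ENNReal.ofReal (((t' - t) / 4)⁻¹ ^ (n + 1))) ∧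
        ENNReal.ofReal (‖fderiv ℝ u x‖ + u x) ≤ ENNReal.ofReal C *
            (pot (n - 1) (cutSrc A p v t') x + ENNReal.ofReal (((t' - t) / 4)⁻¹ ^ (n + 1))) := by
  obtain ⟨Ca, hCa, hap⟩ := exists_apriori hn hA hB hp hq hpq
  obtain ⟨Cv, hCv, hval⟩ := exists_val_bound hn
  obtain ⟨Cg, hCg, hgrad⟩ := exists_grad_bound hn
  refine ⟨(Cv + Cg) * (1 + 3 ^ (n + 1)) * (1 + Ca), by positivity,
    fun u v h t t' ht htt ht' x hx1 hx2 => ?_⟩
  set δ := (t' - t) / 4 with hδd
  have hδ : 0 < δ := by simp only [hδd]; linarith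
  have hδ4 : δ ≤ 1 / 4 := by simp only [hδd]; linarith
  set K := (Cv + Cg) * (1 + 3 ^ (n + 1)) * (1 + Ca)
  set sh := {y : En n | 1 / 8 ≤ ‖y‖ ∧ ‖y‖ ≤ 4}
  have hcb : ∀ y ∈ Metric.closedBall x δ, 1 / 2 < ‖y‖ ∧ ‖y‖ ≤ t' ∧ y ≠ 0 := fun y hy => by
    rw [Metric.mem_closedBall, dist_eq_norm] at hy
    have h1 := norm_le_norm_add_norm_sub' y x
    have h2 := norm_le_norm_add_norm_sub' x y
    rw [norm_sub_rev] at h2
    refine ⟨by linarith, by linarith, fun h0 => ?_⟩
    rw [h0, norm_zero] at h2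
    simp [h0] at hy
    linarith
  have hsub : Metric.closedBall x δ ⊆ ({0}ᶜ : Set (En n)) := fun y hy => (hcb y hy).2.2
  have hlc : ContinuousOn (lap u) (Metric.closedBall x δ) :=
    (continuousOn_lap isOpen_compl_singleton h.hu).mono hsub
  set I := fun m : ℕ => ∫ y in Metric.closedBall x δ, gam m (x - y) * |lap u y|
  have hI : ∀ m < n, ENNReal.ofReal (I m) ≤ pot m (cutSrc A p v t') x := fun m hm => by
    rw [ofReal_integral_eq_lintegral_ofReal (integrableOn_gam_mul hm x hlc.abs)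
      (Eventually.of_forall fun y => mul_nonneg (gam_nonneg _ _) (abs_nonneg _)),
      ← lintegral_indicator measurableSet_closedBall]
    refine lintegral_mono fun y => ?_
    by_cases hy : y ∈ Metric.closedBall x δ
    · rw [Set.indicator_of_mem hy]
      obtain ⟨h1, h2, h0⟩ := hcb y hy
      rw [h.e1 y h0, abs_neg, abs_of_nonneg (h.src_nonneg y), cutSrc,
        Set.indicator_of_mem (show y ∈ {y : En n | 1 / 2 < ‖y‖ ∧ ‖y‖ ≤ t'} from ⟨h1, h2⟩),
        ENNReal.ofReal_mul (gam_nonneg _ _)]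
    · rw [Set.indicator_of_notMem hy]; exact zero_le
  have hW : ∫ y in Metric.closedBall x δ, |u y| ≤ Ca := by
    refine le_trans ?_ (hap u v h).2
    have hi : IntegrableOn u sh := (h.huc.continuousOn.integrableOn_compact
      (isCompact_closedBall (0 : En n) 4)).mono_set fun y hy => by simpa using hy.2
    rw [setIntegral_congr_fun measurableSet_closedBall fun y _ => abs_of_pos (h.hup y)]
    exact setIntegral_mono_set hi (Eventually.of_forall fun y => (h.hup y).le)
      (HasSubset.Subset.eventuallyLE fun y hy =>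
        ⟨by linarith [(hcb y hy).1], by linarith [(hcb y hy).2.1]⟩)
  have hW0 : 0 ≤ ∫ y in Metric.closedBall x δ, |u y| := integral_nonneg fun y => abs_nonneg _
  set D := δ⁻¹ ^ (n + 1)
  have hD1 : 1 ≤ δ⁻¹ := (one_le_inv₀ hδ).2 (by linarith)
  have hI0 : ∀ m, 0 ≤ I m := fun m =>
    integral_nonneg fun y => mul_nonneg (gam_nonneg _ _) (abs_nonneg _)
  have hv1 : u x ≤ K * (I (n - 2) + D) ∧ u x ≤ Cv * (I (n - 2) + D * Ca) := by
    have h1 := hval _ u isOpen_compl_singleton h.hu x δ hδ hsub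
    rw [abs_of_pos (h.hup x), ← inv_pow] at h1
    have h2 : u x ≤ Cv * (I (n - 2) + D * Ca) := h1.trans (mul_le_mul_of_nonneg_left
      (add_le_add le_rfl (mul_le_mul (pow_le_pow_right₀ hD1 (by omega)) hW hW0 (by positivity))) hCv)
    refine ⟨h2.trans ?_, h2⟩
    have e1 : I (n - 2) + D * Ca ≤ (1 + Ca) * (I (n - 2) + D) := by
      have := mul_nonneg hCa (hI0 (n - 2))
      have : 0 ≤ D := by positivity
      nlinarith
    refine (mul_le_mul_of_nonneg_left e1 hCv).trans ?_
    rw [← mul_assoc]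
    refine mul_le_mul_of_nonneg_right (mul_le_mul_of_nonneg_right ?_ (by positivity))
      (add_nonneg (hI0 _) (by positivity))
    calc Cv ≤ (Cv + Cg) * 1 := by linarith
      _ ≤ _ := mul_le_mul_of_nonneg_left (le_add_of_nonneg_right (by positivity)) (by positivity)
  have hmono : I (n - 2) ≤ I (n - 1) := by
    refine setIntegral_mono_on (integrableOn_gam_mul (by omega) x hlc.abs)
      (integrableOn_gam_mul (by omega) x hlc.abs) measurableSet_closedBall fun y hy => ?_
    refine mul_le_mul_of_nonneg_right ?_ (abs_nonneg _)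
    rcases eq_or_ne (x - y) 0 with h0 | h0
    · simp [gam, h0, zero_pow (show n - 2 ≠ 0 by omega), zero_pow (show n - 1 ≠ 0 by omega)]
    · have hxy : ‖x - y‖ ≤ 1 := by
        rw [Metric.mem_closedBall, dist_comm, dist_eq_norm] at hy
        linarith
      exact inv_anti₀ (pow_pos (norm_pos_iff.2 h0) _)
        (pow_le_pow_of_le_one (norm_nonneg _) hxy (by omega))
  have hg1 : ‖fderiv ℝ u x‖ + u x ≤ K * (I (n - 1) + D) := by
    have h3 : 3 * (δ / 3) = δ := by ring
    have h1 := hgrad _ u isOpen_compl_singleton h.hu x (δ / 3) (by positivity) (by rwa [h3])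
    rw [h3, ← inv_pow, show (δ / 3)⁻¹ = 3 * δ⁻¹ by rw [inv_div, div_eq_mul_inv], mul_pow] at h1
    have h2 : ‖fderiv ℝ u x‖ ≤ Cg * (I (n - 1) + 3 ^ (n + 1) * D * Ca) := h1.trans
      (mul_le_mul_of_nonneg_left (add_le_add le_rfl
        (mul_le_mul_of_nonneg_left hW (by positivity))) hCg)
    have h4 : u x ≤ Cv * (I (n - 1) + D * Ca) :=
      hv1.2.trans (mul_le_mul_of_nonneg_left (add_le_add hmono le_rfl) hCv)
    refine (add_le_add h2 h4).trans ?_
    have hD : 0 ≤ D := by positivity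
    have h5 : (1 : ℝ) ≤ 1 + 3 ^ (n + 1) := le_add_of_nonneg_right (by positivity)
    have e1 : I (n - 1) + 3 ^ (n + 1) * D * Ca ≤ (1 + 3 ^ (n + 1)) * (1 + Ca) * (I (n - 1) + D) := by
      calc I (n - 1) + 3 ^ (n + 1) * D * Ca
          ≤ 1 * 1 * I (n - 1) + (1 + 3 ^ (n + 1)) * (1 + Ca) * D := by
            have : 3 ^ (n + 1) * D * Ca ≤ (1 + 3 ^ (n + 1)) * (1 + Ca) * D := by
              rw [mul_right_comm]; gcongr <;> linarith
            linarith
        _ ≤ _ := by
            rw [mul_add ((1 + 3 ^ (n + 1)) * (1 + Ca))]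
            exact add_le_add (mul_le_mul_of_nonneg_right
              (mul_le_mul h5 (by linarith) zero_le_one (by positivity)) (hI0 _)) le_rfl
    have e2 : I (n - 1) + D * Ca ≤ (1 + 3 ^ (n + 1)) * (1 + Ca) * (I (n - 1) + D) := by
      refine le_trans ?_ e1
      rw [mul_assoc]
      exact add_le_add le_rfl (le_mul_of_one_le_left (by positivity) (one_le_pow₀ (by norm_num)))
    refine (add_le_add (mul_le_mul_of_nonneg_left e1 hCg)
      (mul_le_mul_of_nonneg_left e2 hCv)).trans (le_of_eq ?_)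
    ring
  constructor
  · refine (ENNReal.ofReal_le_ofReal hv1.1).trans ?_
    rw [ENNReal.ofReal_mul (by positivity), ENNReal.ofReal_add (hI0 _) (by positivity)]
    exact mul_le_mul' le_rfl (add_le_add (hI _ (by omega)) le_rfl)
  · refine (ENNReal.ofReal_le_ofReal hg1).trans ?_
    rw [ENNReal.ofReal_mul (by positivity), ENNReal.ofReal_add (hI0 _) (by positivity)]
    exact mul_le_mul' le_rfl (add_le_add (hI _ (by omega)) le_rfl)

/-- Bounds on the two norms of the cut off source. -/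
lemma exists_src_norms {p q A B : ℝ} (hA : -2 < A) (hB : -2 < B) (hq : 0 < q) (hqp : q ≤ p)
    (hpq : 1 < p * q) :
    ∃ C : ℝ, 0 ≤ C ∧ ∀ u v : En n → ℝ, Sol p q A B u v → ∀ t : ℝ, t ≤ 2 →
      0 ≤ energy q B u t ∧
      ∫⁻ y, cutSrc A p v t y ≤ ENNReal.ofReal C ∧
      ∫⁻ y, cutSrc B q u t y ≤ ENNReal.ofReal C ∧
      ∫⁻ y, cutSrc A p v t y ^ ((p + 1) / p) ≤ ENNReal.ofReal (C * (1 + energy q B u t)) ∧
      ∫⁻ y, cutSrc B q u t y ^ ((q + 1) / q) ≤ ENNReal.ofReal (C * (1 + energy q B u t)) := by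
  have hp : 0 < p := hq.trans_le hqp
  obtain ⟨Cu, hCu, hapu⟩ := exists_apriori hn hA hB hp hq hpq
  obtain ⟨Cv, hCv, hapv⟩ := exists_apriori hn hB hA hq hp (by linarith)
  obtain ⟨Cc, hCc, hcomp⟩ := exists_compare (n := n) (A := A) (B := B) hq hqp hpq
  set V := volume.real (Metric.closedBall (0 : En n) 2)
  have hV : 0 ≤ V := measureReal_nonneg
  set a := max ((1 / 2 : ℝ) ^ (A * ((p + 1) / p))) (2 ^ (A * ((p + 1) / p)))
  set b := max ((1 / 2 : ℝ) ^ (B * ((q + 1) / q))) (2 ^ (B * ((q + 1) / q)))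
  set c := min ((1 / 2 : ℝ) ^ B) (2 ^ B)
  have hc : 0 < c := lt_min (by positivity) (by positivity)
  have ha : 0 ≤ a := le_max_of_le_left (by positivity)
  have hb : 0 ≤ b := le_max_of_le_left (by positivity)
  refine ⟨max (max Cu Cv) (max (a * Cc * (1 / c + V)) (b / c)), le_max_of_le_left
    (le_max_of_le_left hCu), fun u v h t ht => ?_⟩
  set C := max (max Cu Cv) (max (a * Cc * (1 / c + V)) (b / c))
  set F := energy q B u t
  set cut := {y : En n | 1 / 2 < ‖y‖ ∧ ‖y‖ ≤ t}
  have hcut : MeasurableSet cut := measurableSet_cut t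
  have hcs : cut ⊆ Metric.closedBall 0 t := fun y hy => by simpa using hy.2
  have hcs4 : cut ⊆ Metric.closedBall 0 4 := fun y hy => by
    have := hy.2
    rw [Metric.mem_closedBall, dist_zero_right]
    linarith
  have hgi : IntegrableOn (fun y => ‖y‖ ^ B * u y ^ (q + 1)) (Metric.closedBall 0 t) :=
    integrableOn_src hn hB (by linarith) h.huc t
  have hg0 : ∀ y, 0 ≤ ‖y‖ ^ B * u y ^ (q + 1) := fun y => by have := h.hup y; positivity
  have hF : 0 ≤ F := integral_nonneg hg0
  have hC0 : 0 ≤ C := le_max_of_le_left (le_max_of_le_left hCu)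
  have l1 : ∀ (E P : ℝ) (f : En n → ℝ), 0 ≤ P → -2 < E → Continuous f → (∀ y, 0 < f y) →
      ∫ y in Metric.closedBall (0 : En n) 4, ‖y‖ ^ E * f y ^ P ≤ C →
      ∫⁻ y, cutSrc E P f t y ≤ ENNReal.ofReal C := by
    intro E P f hP hE hf hf0 hle
    refine le_trans ?_ (ENNReal.ofReal_le_ofReal hle)
    simp only [cutSrc]
    rw [lintegral_indicator hcut, ofReal_integral_eq_lintegral_ofReal
      (integrableOn_src hn hE hP hf 4)
      (Eventually.of_forall fun y => by have := hf0 y; positivity)]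
    exact lintegral_mono_set hcs4
  have hFeq : ∫⁻ y in cut, ENNReal.ofReal (‖y‖ ^ B * u y ^ (q + 1)) ≤ ENNReal.ofReal F := by
    simp only [F, energy]
    rw [ofReal_integral_eq_lintegral_ofReal hgi (Eventually.of_forall hg0)]
    exact lintegral_mono_set hcs
  have hU : ∀ y ∈ cut, u y ^ (q + 1) ≤ 1 / c * (‖y‖ ^ B * u y ^ (q + 1)) := fun y hy => by
    have := h.hup y
    rw [← mul_assoc]
    refine le_mul_of_one_le_left (by positivity) ?_
    rw [one_div_mul_eq_div, one_le_div hc]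
    exact min_le_rpow (by norm_num) hy.1.le (hy.2.trans ht)
  refine ⟨hF, l1 A p v hp.le hA h.hvc h.hvp ((hapv v u h.swap).1.trans
      (le_max_of_le_left (le_max_right _ _))),
    l1 B q u hq.le hB h.huc h.hup ((hapu u v h).1.trans (le_max_of_le_left (le_max_left _ _))),
    ?_, ?_⟩
  · have e : ∀ y, cutSrc A p v t y ^ ((p + 1) / p) ≤ cut.indicator (fun y =>
        ENNReal.ofReal (a * Cc / c) * ENNReal.ofReal (‖y‖ ^ B * u y ^ (q + 1))
          + ENNReal.ofReal (a * Cc)) y := fun y => by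
      by_cases hy : y ∈ cut
      · rw [cutSrc, Set.indicator_of_mem hy, Set.indicator_of_mem hy,
          ENNReal.ofReal_rpow_of_nonneg (h.src_nonneg y) (by positivity),
          ← ENNReal.ofReal_mul (by positivity), ← ENNReal.ofReal_add (by have := hg0 y; positivity)
            (by positivity)]
        refine ENNReal.ofReal_le_ofReal ?_
        have hv := h.hvp y
        rw [Real.mul_rpow (by positivity) (by positivity), ← Real.rpow_mul (norm_nonneg y),
          ← Real.rpow_mul hv.le, mul_div_cancel₀ _ hp.ne']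
        calc ‖y‖ ^ (A * ((p + 1) / p)) * v y ^ (p + 1) ≤ a * (Cc * (u y ^ (q + 1) + 1)) :=
              mul_le_mul (rpow_le_max (by norm_num) hy.1.le (hy.2.trans ht))
                (hcomp u v h y (by linarith [hy.1]) (by linarith [hy.2])) (by positivity) ha
          _ ≤ a * (Cc * (1 / c * (‖y‖ ^ B * u y ^ (q + 1)) + 1)) := by
              gcongr; exact hU y hy
          _ = _ := by ring
      · rw [cutSrc, Set.indicator_of_notMem hy, Set.indicator_of_notMem hy,
          ENNReal.zero_rpow_of_pos (by positivity)]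
    refine (lintegral_mono e).trans ?_
    rw [lintegral_indicator hcut, lintegral_add_right _ measurable_const, setLIntegral_const,
      lintegral_const_mul' _ _ ENNReal.ofReal_ne_top]
    have hvol : volume cut ≤ ENNReal.ofReal V := by
      refine (measure_mono fun y hy => ?_).trans
        (ofReal_measureReal measure_closedBall_lt_top.ne).symm.le
      rw [Metric.mem_closedBall, dist_zero_right]
      linarith [hy.2]
    refine (add_le_add (mul_le_mul' le_rfl hFeq) (mul_le_mul' le_rfl hvol)).trans ?_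
    rw [← ENNReal.ofReal_mul (by positivity), ← ENNReal.ofReal_mul (by positivity),
      ← ENNReal.ofReal_add (by positivity) (by positivity)]
    refine ENNReal.ofReal_le_ofReal ?_
    calc a * Cc / c * F + a * Cc * V ≤ a * Cc * (1 / c + V) * (1 + F) := by
          have h1 : 0 ≤ a * Cc * V * F := by positivity
          have h2 : 0 ≤ a * Cc / c := by positivity
          have e : a * Cc * (1 / c + V) * (1 + F)
              = a * Cc / c * F + a * Cc * V + (a * Cc / c + a * Cc * V * F) := by ring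
          linarith
      _ ≤ C * (1 + F) := mul_le_mul_of_nonneg_right
          (le_max_of_le_right (le_max_left _ _)) (by linarith)
  · have e : ∀ y, cutSrc B q u t y ^ ((q + 1) / q) ≤ cut.indicator (fun y =>
        ENNReal.ofReal (b / c) * ENNReal.ofReal (‖y‖ ^ B * u y ^ (q + 1))) y := fun y => by
      by_cases hy : y ∈ cut
      · rw [cutSrc, Set.indicator_of_mem hy, Set.indicator_of_mem hy,
          ENNReal.ofReal_rpow_of_nonneg (h.swap.src_nonneg y) (by positivity),
          ← ENNReal.ofReal_mul (by positivity)]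
        refine ENNReal.ofReal_le_ofReal ?_
        have hu := h.hup y
        rw [Real.mul_rpow (by positivity) (by positivity), ← Real.rpow_mul (norm_nonneg y),
          ← Real.rpow_mul hu.le, mul_div_cancel₀ _ hq.ne']
        calc ‖y‖ ^ (B * ((q + 1) / q)) * u y ^ (q + 1)
            ≤ b * (1 / c * (‖y‖ ^ B * u y ^ (q + 1))) :=
              mul_le_mul (rpow_le_max (by norm_num) hy.1.le (hy.2.trans ht)) (hU y hy)
                (by positivity) hb
          _ = _ := by ring
      · rw [cutSrc, Set.indicator_of_notMem hy, Set.indicator_of_notMem hy,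
          ENNReal.zero_rpow_of_pos (by positivity)]
    refine (lintegral_mono e).trans ?_
    rw [lintegral_indicator hcut, lintegral_const_mul' _ _ ENNReal.ofReal_ne_top]
    refine (mul_le_mul' le_rfl hFeq).trans ?_
    rw [← ENNReal.ofReal_mul (by positivity)]
    refine ENNReal.ofReal_le_ofReal ?_
    exact mul_le_mul (le_max_of_le_right (le_max_right _ _)) (by linarith) hF hC0

end

end Vale.Agent.P100.Feedback
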