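import Vale.Agent.P100.Feedback.Bounds

/-!
The weak form of the equations across the origin, and the universal integral bounds that follow
from the lower bounds on balls.
-/

open Filter Topology Set MeasureTheory
open scoped ENNReal

namespace Vale.Agent.P100.Feedback

variable {n : ℕ}

/-- A positive entire solution of the system, stated with `lap`. -/
structure Sol (p q A B : ℝ) (u v : En n → ℝ) : Prop where
  hu : C2 u
  hv : C2 v
  huc : Continuous u
  hvc : Continuous v
  hup : ∀ x, 0 < u x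
  hvp : ∀ x, 0 < v x
  e1 : ∀ x, x ≠ 0 → lap u x = -(‖x‖ ^ A * v x ^ p)
  e2 : ∀ x, x ≠ 0 → lap v x = -(‖x‖ ^ B * u x ^ q)

lemma Sol.swap {p q A B : ℝ} {u v : En n → ℝ} (h : Sol p q A B u v) : Sol q p B A v u :=
  ⟨h.hv, h.hu, h.hvc, h.huc, h.hvp, h.hup, h.e2, h.e1⟩

lemma Sol.src_nonneg {p q A B : ℝ} {u v : En n → ℝ} (h : Sol p q A B u v) (x : En n) :
    0 ≤ ‖x‖ ^ A * v x ^ p :=
  mul_nonneg (Real.rpow_nonneg (norm_nonneg x) _) (Real.rpow_nonneg (h.hvp x).le _)

lemma measurable_norm_rpow (B : ℝ) : Measurable fun x : En n => ‖x‖ ^ B :=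
  measurable_norm.pow_const B

section
variable (hn : 3 ≤ n)
include hn

lemma integrableOn_norm_rpow {B : ℝ} (hB : -2 < B) (R : ℝ) :
    IntegrableOn (fun x : En n => ‖x‖ ^ B) (Metric.closedBall 0 R) := by
  refine Integrable.mono' ((integrableOn_gam (m := 2) (by omega) R).add
    (integrableOn_const (C := (|R| + 1) ^ |B|) measure_closedBall_lt_top.ne))
    (measurable_norm_rpow B).aestronglyMeasurable ?_
  filter_upwards [ae_restrict_of_ae (ae_ne (by omega) (0 : En n)),
    ae_restrict_mem measurableSet_closedBall] with x hx0 hx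
  rw [Metric.mem_closedBall, dist_zero_right] at hx
  have h0 : 0 < ‖x‖ := norm_pos_iff.2 hx0
  rw [Real.norm_of_nonneg (Real.rpow_nonneg h0.le _), Pi.add_apply]
  rcases le_total ‖x‖ 1 with h1 | h1
  · refine le_add_of_le_of_nonneg ?_ (by positivity)
    have := Real.rpow_le_rpow_of_exponent_ge h0 h1 hB.le
    rwa [Real.rpow_neg h0.le, Real.rpow_two] at this
  · refine le_add_of_nonneg_of_le (gam_nonneg _ _) ?_
    calc ‖x‖ ^ B ≤ ‖x‖ ^ |B| := Real.rpow_le_rpow_of_exponent_le h1 (le_abs_self B)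
      _ ≤ (|R| + 1) ^ |B| :=
          Real.rpow_le_rpow h0.le (by linarith [le_abs_self R]) (abs_nonneg B)

lemma integrableOn_src {B q : ℝ} (hB : -2 < B) (hq : 0 ≤ q) {u : En n → ℝ} (hu : Continuous u)
    (R : ℝ) : IntegrableOn (fun x => ‖x‖ ^ B * u x ^ q) (Metric.closedBall 0 R) :=
  (integrableOn_norm_rpow hn hB R).mul_continuousOn
    (hu.rpow_const fun _ => Or.inr hq).continuousOn (isCompact_closedBall 0 R)

lemma integral_norm_rpow_pos {B : ℝ} (hB : -2 < B) {R : ℝ} (hR : 0 < R) :
    0 < ∫ x in Metric.closedBall (0 : En n) R, ‖x‖ ^ B := by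
  rw [setIntegral_pos_iff_support_of_nonneg_ae
    (Eventually.of_forall fun x => Real.rpow_nonneg (norm_nonneg x) B)
    (integrableOn_norm_rpow hn hB R)]
  have hsub : Metric.ball (0 : En n) R \ {0} ⊆
      Function.support (fun x : En n => ‖x‖ ^ B) ∩ Metric.closedBall 0 R := fun x hx =>
    ⟨(Real.rpow_pos_of_pos (norm_pos_iff.2 hx.2) B).ne', Metric.ball_subset_closedBall hx.1⟩
  refine lt_of_lt_of_le ?_ (measure_mono hsub)
  have : Nontrivial (En n) := Module.nontrivial_of_finrank_pos (R := ℝ) (by simp; omega)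
  rw [measure_sdiff_null (measure_singleton _)]
  exact Metric.measure_ball_pos volume 0 hR

/-- The equation holds weakly across the origin. -/
lemma weak_eq {u f : En n → ℝ} (huc : Continuous u) (hu : C2 u)
    (hl : ∀ x, x ≠ 0 → lap u x = -f x)
    (hf : ∀ R, IntegrableOn f (Metric.closedBall 0 R)) {ψ : En n → ℝ} (hψ : ContDiff ℝ 2 ψ)
    (hc : HasCompactSupport ψ) : -∫ x, u x * lap ψ x = ∫ x, ψ x * f x := by
  obtain ⟨C, hC0, hC⟩ := exists_hole_bound (n := n)
  have hlψ : Continuous (lap ψ) :=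
    continuousOn_univ.1 (continuousOn_lap isOpen_univ hψ.contDiffOn)
  have hpψ : ∀ i, Continuous (pd i ψ) := fun i => (contDiff_pd hψ i).continuous
  obtain ⟨R, hR2, hR⟩ : ∃ R, 2 ≤ R ∧ tsupport ψ ⊆ Metric.closedBall 0 R := by
    obtain ⟨R, hR⟩ := hc.isCompact.isBounded.subset_closedBall 0
    exact ⟨max R 2, le_max_right _ _,
      hR.trans (Metric.closedBall_subset_closedBall (le_max_left _ _))⟩
  set cb := Metric.closedBall (0 : En n) R
  have hz : ∀ x, x ∉ cb → ψ x = 0 ∧ lap ψ x = 0 ∧ ∀ i, pd i ψ x = 0 := fun x hx =>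
    ⟨image_eq_zero_of_notMem_tsupport fun h => hx (hR h),
      image_eq_zero_of_notMem_tsupport fun h => hx (hR (tsupport_lap_subset ψ h)),
      fun i => image_eq_zero_of_notMem_tsupport fun h => hx (hR (tsupport_pd_subset ψ i h))⟩
  obtain ⟨M, hM⟩ := (isCompact_closedBall (0 : En n) R).exists_bound_of_continuousOn
    (f := fun x => |u x| * (|lap ψ x| + |ψ x| + ∑ i, |pd i ψ x|))
    (huc.abs.mul (((hlψ.abs).add hψ.continuous.abs).add
      (continuous_finsetSum _ fun i _ => (hpψ i).abs))).continuousOn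
  have hM0 : 0 ≤ M := (norm_nonneg _).trans (hM 0 (Metric.mem_closedBall_self (by linarith)))
  have hh1 : ∀ (k : ℕ) (x : En n), |hole (epsSeq k) x| ≤ 1 := fun k x => by
    rw [hole, abs_of_nonneg (step_nonneg _)]; exact step_le_one _
  have hlim : ∀ x : En n, x ≠ 0 → ∀ᶠ k in atTop, 2 * epsSeq k ≤ ‖x‖ := fun x hx => by
    have h := (epsSeq_tendsto.const_mul 2)
    rw [mul_zero] at h
    exact (h.eventually (gt_mem_nhds (norm_pos_iff.2 hx))).mono fun k hk => hk.le
  set φ : ℕ → En n → ℝ := fun k x => ψ x * hole (epsSeq k) x with hφ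
  have hφ2 : ∀ k, ContDiff ℝ 2 (φ k) := fun k => hψ.mul (contDiff_hole _)
  have hφz : ∀ k x, x ∉ cb → φ k x = 0 := fun k x hx => by simp [hφ, (hz x hx).1]
  have hφc : ∀ k, HasCompactSupport (φ k) := fun k =>
    HasCompactSupport.intro (isCompact_closedBall 0 R) (hφz k)
  have hφs : ∀ k, tsupport (φ k) ⊆ ({0}ᶜ : Set (En n)) := fun k x hx hx0 => by
    rw [mem_singleton_iff] at hx0
    subst hx0
    refine absurd hx (notMem_tsupport_iff_eventuallyEq.2 ?_)
    have he : ∀ᶠ y : En n in 𝓝 0, ‖y‖ ^ 2 < epsSeq k ^ 2 :=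
      (continuous_norm.pow 2).continuousAt.eventually (gt_mem_nhds (show
        ‖(0 : En n)‖ ^ 2 < epsSeq k ^ 2 by have := epsSeq_pos k; simp only [norm_zero, ne_eq,
          OfNat.ofNat_ne_zero, not_false_eq_true, zero_pow]; positivity))
    filter_upwards [he] with y hy
    have : hole (epsSeq k) y = 0 := by
      refine step_zero ?_
      rw [div_le_one (by have := epsSeq_pos k; positivity), sqd, sub_zero]
      exact hy.le
    simp [hφ, this]
  have hkey : ∀ k, -∫ x, u x * lap (φ k) x = ∫ x, φ k x * f x := fun k => by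
    rw [integral_lap_comm isOpen_compl_singleton hu (hφ2 k) (hφc k) (hφs k), ← integral_neg]
    refine integral_congr_ae ?_
    filter_upwards [ae_ne (by omega) (0 : En n)] with x hx
    rw [hl x hx]; ring
  have t1 : Tendsto (fun k => ∫ x, u x * lap (φ k) x) atTop (𝓝 (∫ x, u x * lap ψ x)) := by
    refine tendsto_integral_of_dominated_convergence
      (cb.indicator fun x => M + M * C * (6 * gam 2 x + 6)) (fun k => ?_) ?_ (fun k => ?_) ?_
    · exact (huc.mul (continuousOn_univ.1
        (continuousOn_lap isOpen_univ (hφ2 k).contDiffOn))).aestronglyMeasurable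
    · exact (integrable_indicator_iff measurableSet_closedBall).2
        ((integrableOn_const measure_closedBall_lt_top.ne).add
          ((((integrableOn_gam (by omega) R).const_mul 6).add
            (integrableOn_const measure_closedBall_lt_top.ne)).const_mul (M * C)))
    · filter_upwards [ae_ne (by omega) (0 : En n)] with x hx
      set ε := epsSeq k with hεd
      have hε : 0 < ε := epsSeq_pos k
      have hε1 : ε ≤ 1 := by
        rw [hεd, epsSeq, div_le_one (by positivity)]; linarith [(Nat.cast_nonneg k : (0 : ℝ) ≤ k)]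
      obtain ⟨b1, b2, b3⟩ := hC ε hε x
      rw [lap_mul hψ.contDiffAt (contDiff_hole _).contDiffAt]
      by_cases hxc : x ∈ cb
      swap
      · obtain ⟨h1, h2, h3⟩ := hz x hxc
        simp [h1, h2, h3, Set.indicator_of_notMem hxc]
      rw [Set.indicator_of_mem hxc]
      have hm := hM x hxc
      rw [Real.norm_of_nonneg (mul_nonneg (abs_nonneg _) (by positivity))] at hm
      have hS : 0 ≤ ∑ i, |pd i ψ x| := Finset.sum_nonneg fun i _ => abs_nonneg _
      have hg0 := gam_nonneg 2 x
      have hlap : |lap (hole ε) x| ≤ C * (4 * gam 2 x) := by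
        by_cases h2 : 2 * ε ≤ ‖x‖
        · rw [(b3 h2).1, abs_zero]; positivity
        · refine b1.trans ?_
          rw [gam, div_eq_mul_inv]
          refine mul_le_mul_of_nonneg_left ?_ hC0
          have hx0 : 0 < ‖x‖ := norm_pos_iff.2 hx
          rw [← div_eq_mul_inv, inv_eq_one_div, div_le_div_iff₀ (by positivity) (by positivity)]
          nlinarith
      have hpd : ∀ i, |pd i (hole ε) x| ≤ C * (gam 2 x + 1) * 2 := fun i => by
        by_cases h2 : 2 * ε ≤ ‖x‖
        · rw [(b3 h2).2.1 i, abs_zero]; positivity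
        · refine (b2 i).trans ?_
          rw [div_eq_mul_inv, mul_assoc]
          refine mul_le_mul_of_nonneg_left ?_ hC0
          have hx0 : 0 < ‖x‖ := norm_pos_iff.2 hx
          have h4 : (ε * ε)⁻¹ ≤ 4 * gam 2 x := by
            rw [gam, ← div_eq_mul_inv, inv_eq_one_div,
              div_le_div_iff₀ (by positivity) (by positivity)]
            nlinarith
          rw [mul_inv] at h4
          nlinarith [sq_nonneg (ε⁻¹ - 2)]
      rw [norm_mul, Real.norm_eq_abs, Real.norm_eq_abs]
      have e1 : |ψ x * lap (hole ε) x + hole ε x * lap ψ x + 2 * ∑ i, pd i ψ x * pd i (hole ε) x|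
          ≤ |ψ x| * (C * (4 * gam 2 x)) + |lap ψ x|
            + 2 * ((∑ i, |pd i ψ x|) * (C * (gam 2 x + 1) * 2)) := by
        refine (abs_add_le _ _).trans (add_le_add ((abs_add_le _ _).trans (add_le_add ?_ ?_)) ?_)
        · rw [abs_mul]; exact mul_le_mul_of_nonneg_left hlap (abs_nonneg _)
        · rw [abs_mul]; exact mul_le_of_le_one_left (abs_nonneg _) (hh1 k x)
        · rw [abs_mul, abs_two, Finset.sum_mul]
          refine mul_le_mul_of_nonneg_left ((Finset.abs_sum_le_sum_abs _ _).trans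
            (Finset.sum_le_sum fun i _ => ?_)) two_pos.le
          rw [abs_mul]; exact mul_le_mul_of_nonneg_left (hpd i) (abs_nonneg _)
      refine (mul_le_mul_of_nonneg_left e1 (abs_nonneg _)).trans ?_
      have m1 : |u x| * |ψ x| ≤ M := le_trans (mul_le_mul_of_nonneg_left
        (by linarith [abs_nonneg (lap ψ x)]) (abs_nonneg _)) hm
      have m2 : |u x| * |lap ψ x| ≤ M := le_trans (mul_le_mul_of_nonneg_left
        (by linarith [abs_nonneg (ψ x)]) (abs_nonneg _)) hm
      have m3 : |u x| * (|ψ x| + ∑ i, |pd i ψ x|) ≤ M := le_trans (mul_le_mul_of_nonneg_left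
        (by linarith [abs_nonneg (lap ψ x)]) (abs_nonneg _)) hm
      have hCg : 0 ≤ C * (gam 2 x + 1) := by positivity
      nlinarith [mul_le_mul_of_nonneg_right m3 hCg, mul_le_mul_of_nonneg_right m1 hCg,
        mul_nonneg (mul_nonneg hM0 hC0) hg0, mul_nonneg hM0 hC0,
        mul_nonneg (mul_nonneg (abs_nonneg (u x)) (abs_nonneg (ψ x))) hC0,
        mul_nonneg (mul_nonneg (abs_nonneg (u x)) hS) hC0]
    · filter_upwards [ae_ne (by omega) (0 : En n)] with x hx
      refine tendsto_const_nhds.congr' ?_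
      filter_upwards [hlim x hx] with k hk
      obtain ⟨a, b, c⟩ := (hC _ (epsSeq_pos k) x).2.2 hk
      rw [lap_mul hψ.contDiffAt (contDiff_hole _).contDiffAt]
      simp [a, b, c]
  have hfi : Integrable fun x => ψ x * f x := by
    refine (integrableOn_iff_integrable_of_support_subset fun x hx => ?_).1
      ((hf R).continuousOn_mul hψ.continuous.continuousOn (isCompact_closedBall 0 R))
    exact hR (subset_tsupport _ fun h => hx (by simp [h]))
  have t2 : Tendsto (fun k => ∫ x, φ k x * f x) atTop (𝓝 (∫ x, ψ x * f x)) := by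
    refine tendsto_integral_of_dominated_convergence (fun x => ‖ψ x * f x‖) (fun k => ?_)
      hfi.norm (fun k => Eventually.of_forall fun x => ?_) ?_
    · exact (hfi.1.mul (contDiff_hole (epsSeq k)).continuous.aestronglyMeasurable).congr
        (Eventually.of_forall fun x => by simp [hφ]; ring)
    · simp only [hφ, norm_mul, Real.norm_eq_abs]
      exact mul_le_mul_of_nonneg_right
        (mul_le_of_le_one_right (abs_nonneg _) (hh1 k x)) (abs_nonneg _)
    · filter_upwards [ae_ne (by omega) (0 : En n)] with x hx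
      refine tendsto_const_nhds.congr' ?_
      filter_upwards [hlim x hx] with k hk
      simp [hφ, ((hC _ (epsSeq_pos k) x).2.2 hk).2.2]
  exact tendsto_nhds_unique t1.neg (t2.congr fun k => (hkey k).symm)

/-- A function superharmonic across the origin dominates its kernel average. -/
lemma kB_le {p q A B : ℝ} {u v : En n → ℝ} (h : Sol p q A B u v) (hA : -2 < A) (hp : 0 ≤ p)
    (x : En n) {ρ : ℝ} (hρ : 0 < ρ) : ∫ y, u y * kB ρ (x - y) ≤ cN n * u x := by
  have h1 := (lim_lhs hn isOpen_univ h.huc.continuousOn hρ (subset_univ (Metric.closedBall x ρ))).neg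
  have h2 : (0 : ℝ) ≤ -(-(cN n * u x) + ∫ y, u y * kB ρ (x - y)) := by
    refine ge_of_tendsto h1 (Eventually.of_forall fun k => ?_)
    rw [weak_eq hn h.huc h.hu h.e1 (integrableOn_src hn hA hp h.hvc)
      (contDiff_tst (epsSeq_pos k) x) (hasCompactSupport_tst hn hρ _ x)]
    exact integral_nonneg fun y => mul_nonneg
      (div_nonneg (ramp_nonneg _) (by positivity)) (h.src_nonneg y)
  linarith

/-- Lower bound on a fixed ball by the mass of the source. -/
lemma exists_low_src {p q A B : ℝ} (hA : -2 < A) (hp : 0 ≤ p) :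
    ∃ c : ℝ, 0 < c ∧ ∀ u v : En n → ℝ, Sol p q A B u v → ∀ x ∈ Metric.closedBall (0 : En n) 4,
      c * (∫ y in Metric.closedBall (0 : En n) 4, ‖y‖ ^ A * v y ^ p) ≤ u x := by
  refine ⟨1 / (32 ^ (n - 2) * cN n), by have := cN_pos hn; positivity, fun u v h x hx => ?_⟩
  set ρ : ℝ := 32
  have hρ : 0 < ρ := by norm_num [ρ]
  set X := ∫ y in Metric.closedBall (0 : En n) 4, ‖y‖ ^ A * v y ^ p with hX
  have hfl := integrableOn_src hn hA hp h.hvc
  have h1 := (lim_lhs hn isOpen_univ h.huc.continuousOn hρ (subset_univ (Metric.closedBall x ρ))).neg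
  have h2 : X / ρ ^ (n - 2) ≤ -(-(cN n * u x) + ∫ y, u y * kB ρ (x - y)) := by
    refine ge_of_tendsto h1 ?_
    filter_upwards [(epsSeq_tendsto.eventually (gt_mem_nhds one_pos))] with k hk
    rw [weak_eq hn h.huc h.hu h.e1 hfl (contDiff_tst (epsSeq_pos k) x)
      (hasCompactSupport_tst hn hρ _ x), hX, div_eq_inv_mul, ← integral_const_mul]
    have hi : Integrable fun y => tst ρ (epsSeq k) x y * (‖y‖ ^ A * v y ^ p) := by
      refine (integrableOn_iff_integrable_of_support_subset fun y hy => ?_).1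
        ((hfl (‖x‖ + ρ)).continuousOn_mul (contDiff_tst (epsSeq_pos k) x).continuous.continuousOn
          (isCompact_closedBall 0 _))
      have hm := tsupport_tst hn hρ _ x (subset_tsupport _ (Function.support_mul_subset_left
        (tst ρ (epsSeq k) x) (fun y => ‖y‖ ^ A * v y ^ p) hy))
      rw [Metric.mem_closedBall] at hm ⊢
      linarith [dist_triangle y x 0, dist_zero_right x]
    refine le_trans (setIntegral_mono_on ((hfl 4).const_mul _) hi.integrableOn
      measurableSet_closedBall fun y hy => ?_) (setIntegral_le_integral hi ?_)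
    · refine mul_le_mul_of_nonneg_right ?_ (h.src_nonneg y)
      rw [tst, inv_eq_one_div]
      refine div_le_div_of_nonneg_right ?_ (by positivity)
      refine le_trans ?_ (sub_two_le_ramp _)
      rw [Metric.mem_closedBall, dist_zero_right] at hx hy
      have hz : ‖y - x‖ ^ 2 + epsSeq k ^ 2 ≤ 9 ^ 2 := by
        have := norm_sub_le y x
        have := epsSeq_pos k
        nlinarith [norm_nonneg (y - x)]
      have hr : ((9 : ℝ) ^ (n - 2))⁻¹ ≤ reg (epsSeq k) (y - x) := by
        rw [← sq_rpow_eN hn (by norm_num)]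
        exact Real.rpow_le_rpow_of_nonpos (by have := epsSeq_pos k; positivity) hz (eN_neg hn).le
      have h3 : (32 / 9 : ℝ) ≤ (32 / 9) ^ (n - 2) := le_self_pow₀ (by norm_num) (by omega)
      have h4 := mul_le_mul_of_nonneg_left hr (show (0 : ℝ) ≤ ρ ^ (n - 2) by positivity)
      rw [← div_eq_mul_inv, ← div_pow] at h4
      simp only [ρ] at h4 ⊢
      linarith
    · exact Eventually.of_forall fun y => mul_nonneg
        (div_nonneg (ramp_nonneg _) (by positivity)) (h.src_nonneg y)
  have h5 : 0 ≤ ∫ y, u y * kB ρ (x - y) :=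
    integral_nonneg fun y => mul_nonneg (h.hup y).le (kB_nonneg hρ _)
  rw [div_mul_eq_mul_div, one_mul, ← div_div, div_le_iff₀ (cN_pos hn)]
  linarith

lemma exists_kB_band : ∃ s η c : ℝ, 0 < s ∧ 0 < η ∧ 0 < c ∧ ∀ ρ : ℝ, 0 < ρ → ∀ z : En n,
    |‖z‖ - s * ρ| ≤ η * ρ → c * (ρ ^ n)⁻¹ ≤ kB ρ z := by
  obtain ⟨t0, ht0, hb⟩ := exists_hasDerivAt_eq_slope step bump one_lt_two continuous_step.continuousOn
    fun t _ => hasDerivAt_step t
  rw [step_one le_rfl, step_zero le_rfl] at hb
  norm_num at hb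
  have ht : 0 < t0 := by linarith [ht0.1]
  have h3 : (3 : ℝ) ≤ n := by exact_mod_cast hn
  set s := (t0⁻¹) ^ (((n - 2 : ℕ) : ℝ)⁻¹) with hsd
  have hs : 0 < s := Real.rpow_pos_of_pos (inv_pos.2 ht) _
  have hsp : s ^ (n - 2) = t0⁻¹ := Real.rpow_inv_natCast_pow (inv_pos.2 ht).le (by omega)
  set k : ℝ → ℝ := fun r => bump ((r ^ (n - 2))⁻¹) * ((n : ℝ) - 2) ^ 2 * (r ^ (2 * n - 2))⁻¹
  have hks : 0 < k s := by
    simp only [k, hsp, inv_inv, hb]
    have : (0 : ℝ) < n - 2 := by linarith
    positivity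
  have hkc : ContinuousAt k s := by
    refine ((contDiff_bump.continuous.continuousAt.comp
      ((continuousAt_id.pow _).inv₀ ?_)).mul continuousAt_const).mul ((continuousAt_id.pow _).inv₀ ?_)
    <;> exact pow_ne_zero _ hs.ne'
  obtain ⟨η, hη, hη'⟩ := Metric.eventually_nhds_iff.1
    (hkc.eventually (lt_mem_nhds (half_lt_self hks)))
  refine ⟨s, η / 2, k s / 2, hs, by positivity, by positivity, fun ρ hρ z hz => ?_⟩
  rw [kB_scale hn hρ, mul_comm]
  refine mul_le_mul_of_nonneg_left ?_ (by positivity)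
  have e : kB 1 (ρ⁻¹ • z) = k ‖ρ⁻¹ • z‖ := by simp [kB, k, gam]
  rw [e]
  refine (hη' ?_).le
  rw [Real.dist_eq, norm_smul, Real.norm_of_nonneg (inv_pos.2 hρ).le,
    show ρ⁻¹ * ‖z‖ - s = ρ⁻¹ * (‖z‖ - s * ρ) by field_simp, abs_mul,
    abs_of_pos (inv_pos.2 hρ), inv_mul_lt_iff₀ hρ]
  nlinarith

/-- Lower bound near the origin by the integral over a shell. -/
lemma exists_low_shell {p q A B : ℝ} (hA : -2 < A) (hp : 0 ≤ p) :
    ∃ w c : ℝ, 0 < w ∧ 0 < c ∧ ∀ u v : En n → ℝ, Sol p q A B u v →
      ∀ x ∈ Metric.closedBall (0 : En n) w,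
        c * (∫ y in {y : En n | 1 / 8 ≤ ‖y‖ ∧ ‖y‖ ≤ 4}, u y) ≤ u x := by
  obtain ⟨s, η, c, hs, hη, hc, hband⟩ := exists_kB_band hn
  set w := η / (16 * s) with hwd
  have hw : 0 < w := by positivity
  set N := ⌈4 / w⌉₊
  set ρ : ℕ → ℝ := fun i => (1 / 8 + i * w) / s with hρd
  have hρ : ∀ i, 0 < ρ i := fun i => by positivity
  have hwρ : ∀ i : ℕ, 2 * w ≤ η * ρ i := fun i => by
    have e : η * ρ i = 2 * w + η * (i * w) / s := by
      simp only [hρd, hwd]; field_simp; ring
    have : 0 ≤ η * ((i : ℝ) * w) / s := by positivity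
    linarith
  set S := ∑ i ∈ Finset.range (N + 1), c⁻¹ * ρ i ^ n
  have hS : 0 < S := Finset.sum_pos (fun i _ => by have := hρ i; positivity) (by simp)
  refine ⟨w, (S * cN n)⁻¹, hw, by have := cN_pos hn; positivity, fun u v h x hx => ?_⟩
  set sh := {y : En n | 1 / 8 ≤ ‖y‖ ∧ ‖y‖ ≤ 4}
  have hsh : MeasurableSet sh :=
    (measurableSet_le measurable_const measurable_norm).inter
      (measurableSet_le measurable_norm measurable_const)
  have hui : IntegrableOn u sh := (h.huc.continuousOn.integrableOn_compact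
    (isCompact_closedBall (0 : En n) 4)).mono_set fun y hy => by simpa using hy.2
  have hker : ∀ i, Integrable fun y => u y * kB (ρ i) (x - y) := fun i =>
    (h.huc.mul ((contDiff_kB hn (hρ i)).continuous.comp
      (continuous_const.sub continuous_id))).integrable_of_hasCompactSupport
      (HasCompactSupport.intro (isCompact_closedBall x (ρ i)) fun y hy => by
        rw [Metric.mem_closedBall, dist_comm, dist_eq_norm, not_le] at hy
        simp [kB_zero hn (hρ i) hy])
  have h1 : ∫ y in sh, u y ≤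
      ∑ i ∈ Finset.range (N + 1), c⁻¹ * ρ i ^ n * ∫ y, u y * kB (ρ i) (x - y) := by
    simp only [← integral_const_mul]
    rw [← integral_finsetSum _ fun i _ => (hker i).const_mul _]
    have hsum := integrable_finsetSum (Finset.range (N + 1))
      fun i _ => (hker i).const_mul (c⁻¹ * ρ i ^ n)
    refine le_trans (setIntegral_mono_on hui hsum.integrableOn hsh fun y hy => ?_)
      (setIntegral_le_integral hsum (Eventually.of_forall fun y =>
        Finset.sum_nonneg fun i _ => mul_nonneg (by have := hρ i; positivity)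
          (mul_nonneg (h.hup y).le (kB_nonneg (hρ i) _))))
    set i := ⌊(‖y‖ - 1 / 8) / w⌋₊
    have hi : i ∈ Finset.range (N + 1) := by
      rw [Finset.mem_range, Nat.lt_succ_iff]
      refine le_trans (Nat.floor_mono ?_) (Nat.floor_le_ceil _)
      exact div_le_div_of_nonneg_right (by linarith [hy.2]) hw.le
    refine le_trans ?_ (Finset.single_le_sum (fun i _ => mul_nonneg (by have := hρ i; positivity)
      (mul_nonneg (h.hup y).le (kB_nonneg (hρ i) _))) hi)
    have hk : c * (ρ i ^ n)⁻¹ ≤ kB (ρ i) (x - y) := by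
      refine hband _ (hρ i) _ ?_
      have e : s * ρ i = 1 / 8 + i * w := by simp only [hρd]; field_simp
      have f1 := Nat.floor_le (div_nonneg (sub_nonneg.2 hy.1) hw.le)
      have f2 := Nat.lt_floor_add_one ((‖y‖ - 1 / 8) / w)
      rw [le_div_iff₀ hw] at f1
      rw [div_lt_iff₀ hw] at f2
      rw [Metric.mem_closedBall, dist_zero_right] at hx
      have h4 := abs_norm_sub_norm_le (x - y) (-y)
      rw [norm_neg, show x - y - -y = x by abel] at h4
      rw [e, abs_le]
      have := hwρ i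
      constructor <;> linarith [(abs_le.1 h4).1, (abs_le.1 h4).2]
    have h6 := mul_le_mul_of_nonneg_left hk (show 0 ≤ c⁻¹ * ρ i ^ n by have := hρ i; positivity)
    rw [show c⁻¹ * ρ i ^ n * (c * (ρ i ^ n)⁻¹) = 1 by have := hρ i; field_simp] at h6
    nlinarith [mul_le_mul_of_nonneg_left h6 (h.hup y).le]
  have h2 : ∫ y in sh, u y ≤ S * (cN n * u x) := by
    refine h1.trans ?_
    rw [Finset.sum_mul]
    exact Finset.sum_le_sum fun i _ => mul_le_mul_of_nonneg_left
      (kB_le hn h hA hp x (hρ i)) (by have := hρ i; positivity)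
  rw [inv_mul_le_iff₀ (by have := cN_pos hn; positivity)]
  linarith

lemma exists_src_bound {p q A B : ℝ} (hA : -2 < A) (hB : -2 < B) (hp : 0 < p) (hq : 0 < q)
    (hpq : 1 < p * q) : ∃ C : ℝ, ∀ u v : En n → ℝ, Sol p q A B u v →
      ∫ y in Metric.closedBall (0 : En n) 4, ‖y‖ ^ B * u y ^ q ≤ C := by
  obtain ⟨c, hc, hlow⟩ := exists_low_src (n := n) (p := p) (q := q) (B := B) hn hA hp.le
  obtain ⟨d, hd, hlow'⟩ := exists_low_src (n := n) (p := q) (q := p) (B := A) hn hB hq.le
  set mA := ∫ y in Metric.closedBall (0 : En n) 4, ‖y‖ ^ A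
  set mB := ∫ y in Metric.closedBall (0 : En n) 4, ‖y‖ ^ B
  have hmA : 0 < mA := integral_norm_rpow_pos hn hA (by norm_num)
  have hmB : 0 < mB := integral_norm_rpow_pos hn hB (by norm_num)
  set K := mB * c ^ q * (mA * d ^ p) ^ q
  have hK : 0 < K := by positivity
  refine ⟨(1 / K) ^ (p * q - 1)⁻¹, fun u v h => ?_⟩
  set X := ∫ y in Metric.closedBall (0 : En n) 4, ‖y‖ ^ A * v y ^ p
  set Y := ∫ y in Metric.closedBall (0 : En n) 4, ‖y‖ ^ B * u y ^ q
  have hY : 0 ≤ Y := integral_nonneg fun y => h.swap.src_nonneg y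
  have hX : 0 ≤ X := integral_nonneg fun y => h.src_nonneg y
  have e1 : mA * (d * Y) ^ p ≤ X := by
    rw [← integral_mul_const]
    exact setIntegral_mono_on ((integrableOn_norm_rpow hn hA 4).mul_const _)
      (integrableOn_src hn hA hp.le h.hvc 4) measurableSet_closedBall fun y hy =>
      mul_le_mul_of_nonneg_left (Real.rpow_le_rpow (by positivity) (hlow' v u h.swap y hy) hp.le)
        (Real.rpow_nonneg (norm_nonneg y) _)
  have e2 : mB * (c * X) ^ q ≤ Y := by
    rw [← integral_mul_const]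
    exact setIntegral_mono_on ((integrableOn_norm_rpow hn hB 4).mul_const _)
      (integrableOn_src hn hB hq.le h.huc 4) measurableSet_closedBall fun y hy =>
      mul_le_mul_of_nonneg_left (Real.rpow_le_rpow (by positivity) (hlow u v h y hy) hq.le)
        (Real.rpow_nonneg (norm_nonneg y) _)
  rcases hY.lt_or_eq with hY0 | hY0
  swap
  · rw [← hY0]; positivity
  have e3 : K * Y ^ (p * q) ≤ Y := by
    refine le_trans (le_of_eq ?_) ((mul_le_mul_of_nonneg_left (Real.rpow_le_rpow (by positivity)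
      (mul_le_mul_of_nonneg_left e1 hc.le) hq.le) hmB.le).trans e2)
    rw [Real.mul_rpow hc.le (by positivity), Real.mul_rpow hd.le hY, Real.rpow_mul hY]
    simp only [K]
    rw [← mul_assoc mA, Real.mul_rpow (by positivity) (Real.rpow_nonneg hY _)]
    ring
  have e4 : Y ^ (p * q - 1) ≤ 1 / K := by
    rw [Real.rpow_sub hY0, Real.rpow_one, div_le_div_iff₀ hY0 hK]
    linarith
  have e5 := Real.rpow_le_rpow (by positivity) e4
    (show 0 ≤ (p * q - 1)⁻¹ by have : 0 < p * q - 1 := by linarith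
                               positivity)
  rwa [Real.rpow_rpow_inv hY (by linarith)] at e5

/-- The universal integral bounds. -/
lemma exists_apriori {p q A B : ℝ} (hA : -2 < A) (hB : -2 < B) (hp : 0 < p) (hq : 0 < q)
    (hpq : 1 < p * q) : ∃ C : ℝ, 0 ≤ C ∧ ∀ u v : En n → ℝ, Sol p q A B u v →
      ∫ y in Metric.closedBall (0 : En n) 4, ‖y‖ ^ B * u y ^ q ≤ C ∧
      ∫ y in {y : En n | 1 / 8 ≤ ‖y‖ ∧ ‖y‖ ≤ 4}, u y ≤ C := by
  obtain ⟨C, hC⟩ := exists_src_bound hn hA hB hp hq hpq
  obtain ⟨w, c, hw, hc, hlow⟩ := exists_low_shell (n := n) (p := p) (q := q) (B := B) hn hA hp.le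
  set w' := min w 4
  have hw' : 0 < w' := lt_min hw (by norm_num)
  set m := ∫ y in Metric.closedBall (0 : En n) w', ‖y‖ ^ B
  have hm : 0 < m := integral_norm_rpow_pos hn hB hw'
  refine ⟨max |C| ((|C| / m) ^ q⁻¹ / c), le_trans (abs_nonneg C) (le_max_left _ _),
    fun u v h => ⟨((hC u v h).trans (le_abs_self C)).trans (le_max_left _ _), ?_⟩⟩
  set I := ∫ y in {y : En n | 1 / 8 ≤ ‖y‖ ∧ ‖y‖ ≤ 4}, u y
  have hI : 0 ≤ I := integral_nonneg fun y => (h.hup y).le
  refine le_trans ?_ (le_max_right _ _)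
  rw [le_div_iff₀ hc]
  have e1 : m * (c * I) ^ q ≤ |C| := by
    refine le_trans ?_ ((hC u v h).trans (le_abs_self C))
    rw [← integral_mul_const]
    refine le_trans (setIntegral_mono_on ((integrableOn_norm_rpow hn hB w').mul_const _)
      (integrableOn_src hn hB hq.le h.huc w') measurableSet_closedBall fun y hy =>
      mul_le_mul_of_nonneg_left (Real.rpow_le_rpow (by positivity) (hlow u v h y
        (Metric.closedBall_subset_closedBall (min_le_left _ _) hy)) hq.le)
        (Real.rpow_nonneg (norm_nonneg y) _)) ?_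
    exact setIntegral_mono_set (integrableOn_src hn hB hq.le h.huc 4)
      (Eventually.of_forall fun y => h.swap.src_nonneg y)
      (Metric.closedBall_subset_closedBall (min_le_right _ _)).eventuallyLE
  have e2 : (c * I) ^ q ≤ |C| / m := by rw [le_div_iff₀ hm]; linarith
  have e3 := Real.rpow_le_rpow (by positivity) e2 (inv_pos.2 hq).le
  rw [Real.rpow_rpow_inv (by positivity) hq.ne'] at e3
  linarith

end

end Vale.Agent.P100.Feedback
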